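import Crest.Agent.R113.DefsE

/-! Row 113, task CEL. -/

set_option autoImplicit false

namespace Crest.Agent.R113

open Finset
open scoped Classical

namespace CEL

lemma RR_ge : 4 ≤ RR := by norm_num [RR]

lemma ll_pos (u : ℕ) : 0 < ll u := pow_pos (by have := RR_ge; omega) u

lemma two_pow_lt_ll {a : ℕ} (ha : 1 ≤ a) : 2 ^ a < ll a :=
  Nat.pow_lt_pow_left (by have := RR_ge; omega) (by omega)

lemma ll_le_rg {a u : ℕ} (h : a ≤ u) : 2 * ll a ≤ rg u := by
  have h1 : ll a ≤ RR ^ (2 * u + 3) := Nat.pow_le_pow_right (by have := RR_ge; omega) (by omega)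
  have h2 : rg u = RR ^ (2 * u + 3) * RR := by rw [rg, ← pow_succ]
  have h3 := RR_ge
  rw [h2]
  nlinarith

lemma step {l p z z' i : ℤ} (hl : 0 < l) (hd : l * p ∣ z' - (z + i)) (hi : 0 ≤ i)
    (hz : z % l + i < l) : z' % l = z % l + i ∧ ∃ k : ℤ, z' / l = z / l + k * p := by
  obtain ⟨k, hk⟩ := hd
  have h0 := Int.emod_nonneg z hl.ne'
  have h1 := Int.mul_ediv_add_emod z l
  have h2 : z' / l = z / l + k * p ∧ z' % l = z % l + i := by
    rw [Int.ediv_emod_unique hl]
    refine ⟨?_, by omega, hz⟩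
    linear_combination h1 - hk
  exact ⟨h2.2, k, h2.1⟩

lemma parity {l p z z' y : ℤ} (hl : 0 < l) (hp : 0 < p) (hd : l * p ∣ z' - (z + y))
    (hm : z' % l = z % l) (hy : -l < y) (hy' : y < 2 * l) (h1 : (z / l) % p % 2 = 1)
    (h2 : (z' / l) % p % 2 = 1) : y = 0 := by
  obtain ⟨k, hk⟩ := hd
  have a1 := Int.mul_ediv_add_emod z l
  have a2 := Int.mul_ediv_add_emod z' l
  have a3 : y = l * (z' / l - z / l - p * k) := by linear_combination a1 - a2 - hk + hm
  set m := z' / l - z / l - p * k with hm'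
  have b1 : -1 < m := by
    by_contra hc
    push Not at hc
    nlinarith
  have b2 : m < 2 := by
    by_contra hc
    push Not at hc
    nlinarith
  have b3 : m = 0 ∨ m = 1 := by omega
  rcases b3 with b3 | b3
  · rw [a3, b3, mul_zero]
  · exfalso
    have c1 : z' / l = (z / l + 1) + p * k := by linear_combination b3 - hm'
    rw [c1, Int.add_mul_emod_self_left] at h2
    have c2 := Int.emod_nonneg (z / l) hp.ne'
    have c3 := Int.emod_lt_of_pos (z / l) hp
    have c4 := Int.mul_ediv_add_emod (z / l) p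
    by_cases c5 : (z / l) % p + 1 < p
    · have : (z / l + 1) % p = (z / l) % p + 1 := by
        have := (Int.ediv_emod_unique (a := z / l + 1) (q := z / l / p) (r := (z / l) % p + 1) hp).2
          ⟨by linear_combination c4, by omega, c5⟩
        exact this.2
      omega
    · have : (z / l + 1) % p = 0 := by
        have := (Int.ediv_emod_unique (a := z / l + 1) (q := z / l / p + 1) (r := 0) hp).2
          ⟨by have : (z / l) % p + 1 = p := by omega
              linear_combination c4 - this, le_rfl, hp⟩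
        exact this.2
      omega

end CEL

open CEL in
theorem CEL_proof (hFun2 : Fun2Stmt) : CelStmt := by
  intro P θ εB hP top u₁ a U N' N hL e
  obtain ⟨hU1, hUa, hau, hut⟩ := hL
  obtain ⟨f1, -, -, f4, -⟩ := hFun2.1 P θ εB hP
  have f6 := hFun2.2 θ N' N
  have hω : P.ω a < ll a := lt_of_le_of_lt (hP.vis.1 a).2.1 (two_pow_lt_ll (by omega))
  have hw : e.w = ll a - P.ω a := rfl
  have hσ : e.σ = sg N' N := rfl
  have hla := ll_pos a
  have hB : ∀ b ∈ e.B, P.Bg θ top u₁ a b := fun b hb => (Finset.mem_filter.1 hb).2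
  have hQ : ∀ u, (P.Q u : ℤ) = (ll u : ℤ) * (P.p u : ℤ) := fun u => by simp [Par.Q]
  have hp : ∀ u, 0 < P.p u := fun u =>
    lt_of_lt_of_le (pow_pos (by have := RR_ge; omega) _) (hP.pge u)
  have hreg : ∀ b ∈ e.B, ∀ k, a ≤ k → k < top → P.reg k (pos θ b) := by
    intro b hb k hk hk'
    have := ((hB b hb).2.2.2.2.2.2 0 hla).1 k hk hk'
    simpa using this
  refine ⟨?_, ?_⟩
  · intro b hb b' hb' i hi i' hi' h
    rw [hw] at hi hi'
    rw [hσ] at h
    obtain ⟨g1, -, g3, -⟩ := hB b hb
    obtain ⟨g1', -, g3', -⟩ := hB b' hb'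
    obtain ⟨p1, p2, p3⟩ := f6 i b (by omega)
    obtain ⟨q1, q2, q3⟩ := f6 i' b' (by omega)
    rw [h] at p1 p2 p3
    have hpos : pos θ b' = pos θ b + θ * (((i : ℤ) - i' : ℤ) : ℝ) := by
      push_cast
      linear_combination p3 - q3
    have hrg := ll_le_rg (le_refl a)
    have hd := (f4 a (pos θ b) ((i : ℤ) - i') (hreg b hb a le_rfl (by omega))
      (abs_le.2 ⟨by omega, by omega⟩)).1
    rw [← hpos, hQ] at hd
    have hy := parity (by exact_mod_cast hla) (by exact_mod_cast hp a) hd (g3'.1.trans g3.1.symm)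
      (by omega) (by omega) g3.2 g3'.2
    have hii : i = i' := by omega
    refine ⟨?_, hii⟩
    refine Prod.ext (p1.symm.trans q1) (Fin.ext ?_)
    omega
  · intro b hb i hi
    rw [hw] at hi
    obtain ⟨g1, g2, g3, g4, -, -, g7⟩ := hB b hb
    obtain ⟨p1, p2, p3⟩ := f6 i b (by omega)
    rw [← hσ] at p1 p2 p3
    set j := (e.σ ^ i) b with hj
    set z := P.st (pos θ b) with hz
    set z' := P.st (pos θ j) with hz'
    have key : ∀ k, a ≤ k → k < top → (P.ω k : ℤ) ≤ z k % ll k ∧
        z' k % ll k = z k % ll k + i ∧ ∃ m : ℤ, z' k / ll k = z k / ll k + m * P.p k := by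
      intro k hk hk'
      have hrg := ll_le_rg hk
      have hd := (f4 k (pos θ b) (i : ℤ) (hreg b hb k hk hk') (abs_le.2 ⟨by omega, by omega⟩)).1
      have hpos : pos θ b + θ * ((i : ℤ) : ℝ) = pos θ j := by rw [p3]; simp
      rw [hpos, hQ] at hd
      have hc : (P.ω k : ℤ) ≤ z k % ll k ∧ z k % ll k + i < ll k := by
        rcases Nat.eq_or_lt_of_le hk with rfl | hlt
        · have := g3.1
          constructor <;> omega
        · obtain ⟨c1, c2, -⟩ := g4 k hlt hk'
          unfold dst at c2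
          constructor <;> omega
      exact ⟨hc.1, step (by exact_mod_cast ll_pos k) hd (by omega) hc.2⟩
    have hzone : ∀ k, a ≤ k → k < top → (P.ω k : ℤ) ≤ z' k % ll k := by
      intro k hk hk'
      obtain ⟨c1, c2, -⟩ := key k hk hk'
      omega
    obtain ⟨r1, r2⟩ := g7 i (by omega)
    rw [← p3] at r1 r2
    refine ⟨?_, ?_, ?_, ?_⟩
    · intro hX
      rcases (Finset.mem_filter.1 hX).2 with c | ⟨k, hk, hk', c⟩ | ⟨k, hk, hk', c⟩
      · omega
      · exact c (r1 k hk hk')
      · exact absurd (hzone k hk hk') (not_le.2 c)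
    · exact f1 top a (pos θ j) r2 hzone
    · change chk (ll u₁) j = chk (ll u₁) b
      unfold chk
      rw [p1, p2]
      congr 1
      have h0 := ll_pos u₁
      have h1 := Nat.div_add_mod b.2.val (ll u₁)
      refine ((Nat.div_mod_unique h0).2 ⟨(?_ : b.2.val % ll u₁ + i + _ = _), by omega⟩).1
      omega
    · intro t ht
      have hu : a ≤ t.1 ∧ t.1 < top := by
        rcases Finset.mem_union.1 ht with c | c
        · have := Finset.mem_Ico.1 (Finset.mem_product.1 c).1
          omega
        · have := Finset.mem_Ico.1 (Finset.mem_product.1 c).1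
          omega
      have hsym : P.sym t.1 z' = P.sym t.1 z := by
        obtain ⟨-, -, m, hm⟩ := key t.1 hu.1 hu.2
        have hper : Function.Periodic (P.s t.1) (P.p t.1 : ℤ) := (hP.pat t.1).2.1
        unfold Par.sym
        rw [hm, show z t.1 / ll t.1 + m * P.p t.1 + 1 = z t.1 / ll t.1 + 1 + m * P.p t.1 by ring]
        exact hper.int_mul m _
      have hitf : Itf top t.1 z' ↔ Itf top t.1 z := by
        refine exists_congr fun k => and_congr_right fun hk => and_congr_right fun hk' => ?_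
        obtain ⟨-, c2, -⟩ := key k (by omega) hk'
        obtain ⟨-, -, c3⟩ := g4 k (by omega) hk'
        have c4 := c3 t.1 hu.1 hk
        unfold dst at c4 ⊢
        omega
      have hZ : ∀ k : Ix N' N, k ∈ e.Z t ↔ P.Zt top t (P.st (pos θ k)) := fun k => by
        change k ∈ P.Zs θ top N' N t ↔ _
        simp [Par.Zs]
      rw [hZ, hZ]
      unfold Par.Zt
      rw [← hz, ← hz', hsym, hitf]

end Crest.Agent.R113
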