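import Crest.Agent.R113.DefsE

/-! Row 113, task COV: the covariances of the test counters decay geometrically. -/

set_option autoImplicit false

namespace Crest.Agent.R113

open Finset
open scoped Classical

namespace COV

theorem ind_nonneg (p : Prop) : 0 ≤ ind p := by unfold ind; split_ifs <;> norm_num

theorem ind_le (p : Prop) : ind p ≤ 1 := by unfold ind; split_ifs <;> norm_num

theorem phi_bd (P : Par) (top u : ℕ) (z : Sta) : 0 ≤ P.Φ top u z ∧ P.Φ top u z ≤ VV := by
  refine ⟨sum_nonneg fun t _ => ind_nonneg _, ?_⟩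
  calc P.Φ top u z ≤ ∑ _t ∈ Icc 1 VV, (1 : ℝ) := sum_le_sum fun t _ => ind_le _
    _ = VV := by simp

theorem phi_congr (P : Par) {top top' u : ℕ} {z z' : Sta} (h1 : P.sym u z = P.sym u z')
    (h2 : Itf top u z ↔ Itf top' u z') : P.Φ top u z = P.Φ top' u z' := by
  unfold Par.Φ
  refine sum_congr rfl fun t _ => ?_
  have : P.Zt top (u, t) z ↔ P.Zt top' (u, t) z' := by
    unfold Par.Zt
    simp only [h1, h2]
  rw [propext this]

theorem phi_dep (P : Par) {top u : ℕ} (hu : u < top) : Dep (P.Φ top u) (Set.Ico u top) := by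
  intro z z' h
  refine phi_congr P ?_ ?_
  · unfold Par.sym
    rw [h u ⟨le_rfl, hu⟩]
  · unfold Itf
    refine exists_congr fun i => and_congr_right fun h1 => and_congr_right fun h2 => ?_
    rw [h i ⟨h1.le, h2⟩]

theorem phi_per (P : Par) (hp : ∀ u β, P.s u (β + P.p u) = P.s u β) (top u : ℕ) :
    Per P.Q (P.Φ top u) := by
  intro z z' h
  have hl : ∀ u, (ll u : ℤ) ≠ 0 := fun u => by unfold ll RR; positivity
  refine phi_congr P ?_ ?_
  · unfold Par.sym
    obtain ⟨k, hk⟩ := h u
    have e : z' u = z u + ll u * (k * P.p u) := by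
      have : (P.Q u : ℤ) = ll u * P.p u := by unfold Par.Q; push_cast; ring
      rw [this] at hk; linarith
    rw [e, Int.add_mul_ediv_left _ _ (hl u)]
    have hper : Function.Periodic (P.s u) (P.p u : ℤ) := hp u
    have := (hper.int_mul k) (z u / ll u + 1)
    rw [← this]
    congr 1
    simp only [Int.cast_id]
    ring
  · unfold Itf
    refine exists_congr fun i => and_congr_right fun _ => and_congr_right fun _ => ?_
    obtain ⟨k, hk⟩ := h i
    have e : z' i = z i + ll i * (k * P.p i) := by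
      have : (P.Q i : ℤ) = ll i * P.p i := by unfold Par.Q; push_cast; ring
      rw [this] at hk; linarith
    unfold dst
    rw [e, Int.add_mul_emod_self_left]

theorem phi_diff (P : Par) {top u' : ℕ} (u : ℕ) (h' : u' ≤ top) (z : Sta) :
    |P.Φ top u z - P.Φ u' u z| ≤ VV * ind (∃ i, u' ≤ i ∧ i < top ∧ dst i (z i) ≤ ll u) := by
  by_cases hE : ∃ i, u' ≤ i ∧ i < top ∧ dst i (z i) ≤ ll u
  · have a := phi_bd P top u z
    have b := phi_bd P u' u z
    rw [ind, if_pos hE, mul_one, abs_le]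
    constructor <;> linarith [a.1, a.2, b.1, b.2]
  · have : P.Φ top u z = P.Φ u' u z := by
      refine phi_congr P rfl ⟨?_, ?_⟩
      · rintro ⟨i, h1, h2, h3⟩
        refine ⟨i, h1, ?_, h3⟩
        by_contra h4
        exact hE ⟨i, not_lt.1 h4, h2, h3⟩
      · rintro ⟨i, h1, h2, h3⟩
        exact ⟨i, h1, h2.trans_le h', h3⟩
    rw [this, sub_self, abs_zero, ind, if_neg hE, mul_zero]

theorem geo (S : Finset ℕ) (u : ℕ) : ∑ u' ∈ S, (1 / 2 : ℝ) ^ (Nat.dist u u') ≤ 4 := by
  have key : ∀ T : Finset ℕ, Set.InjOn (Nat.dist u) T → ∑ u' ∈ T, (1 / 2 : ℝ) ^ (Nat.dist u u') ≤ 2 := by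
    intro T hT
    rw [← sum_image (f := fun k => (1 / 2 : ℝ) ^ k) hT]
    exact (summable_geometric_two.sum_le_tsum _ fun i _ => by positivity).trans
      tsum_geometric_two.le
  rw [← sum_filter_add_sum_filter_not S (fun u' => u' ≤ u)]
  have a := key (S.filter fun u' => u' ≤ u) (by
    intro x hx y hy h
    simp only [coe_filter, Set.mem_ofPred_eq, Nat.dist] at hx hy h
    omega)
  have b := key (S.filter fun u' => ¬ u' ≤ u) (by
    intro x hx y hy h
    simp only [coe_filter, Set.mem_ofPred_eq, Nat.dist] at hx hy h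
    omega)
  linarith

theorem pw {k : ℕ} (hk : 1 ≤ k) : 2 / (RR : ℝ) ^ k ≤ (1 / 2) ^ k := by
  have h4 : (4 : ℝ) ≤ RR := by unfold RR; norm_num
  have h1 : (4 : ℝ) ^ k ≤ (RR : ℝ) ^ k := pow_le_pow_left₀ (by norm_num) h4 k
  have h2 : (2 : ℝ) ≤ 2 ^ k := by
    calc (2 : ℝ) = 2 ^ 1 := by norm_num
      _ ≤ 2 ^ k := pow_le_pow_right₀ (by norm_num) hk
  have h3 : (4 : ℝ) ^ k = 2 ^ k * 2 ^ k := by rw [← mul_pow]; norm_num
  rw [one_div, inv_pow, div_le_iff₀ (by positivity), le_inv_mul_iff₀ (by positivity)]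
  nlinarith [pow_pos (show (0 : ℝ) < 2 by norm_num) k]

end COV

open COV in
theorem COV_proof (hExp : ExpStmt) (hInt : IntStmt) : CovStmt := by
  intro P θ εB hP top
  have hp : ∀ u, 0 < P.p u := fun u => lt_of_lt_of_le (by unfold RR; positivity) (hP.pge u)
  have hQ : ∀ u, 0 < P.Q u := fun u => Nat.mul_pos (by unfold ll RR; positivity) (hp u)
  have hper := phi_per P (fun u => (hP.pat u).2.1)
  refine ⟨fun u hu => ⟨hper top u, phi_dep P hu⟩, fun S l n hS => ?_⟩
  obtain ⟨e1, e2, e3, -, e5, -⟩ := hExp P.Q top hQ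
  obtain ⟨-, i2, -⟩ := hInt P top hp
  have add := fun F G => (e1 F G 0).1
  have smul := fun F c => (e1 F F c).2.1
  have cst := fun c => (e1 (fun _ => 0) (fun _ => 0) c).2.2.1
  have mono := fun F G => (e1 F G 0).2.2.2.1
  have cs := fun F => (e1 F F 0).2.2.2.2
  have habs : ∀ F G : Sta → ℝ, (∀ z, |F z| ≤ G z) → |Ex P.Q top F| ≤ Ex P.Q top G := by
    intro F G h
    rw [abs_le]
    refine ⟨?_, mono F G fun z => (le_abs_self _).trans (h z)⟩
    have := mono (fun z => -1 * F z) G fun z => by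
      have := neg_abs_le (F z); have := h z; linarith
    rw [smul] at this
    linarith
  set X : ℕ → Sta → ℝ := fun u z => P.Φ top u (sft z (n u)) - Ex P.Q top (P.Φ top u) with hX
  have hV : (0 : ℝ) ≤ VV := Nat.cast_nonneg _
  have xb : ∀ u z, |X u z| ≤ VV := by
    intro u z
    have a := phi_bd P top u (sft z (n u))
    have b1 := mono (fun _ => 0) (P.Φ top u) fun z => (phi_bd P top u z).1
    have b2 := mono (P.Φ top u) (fun _ => VV) fun z => (phi_bd P top u z).2
    rw [cst] at b1 b2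
    simp only [hX]
    rw [abs_le]
    constructor <;> linarith [a.1, a.2]
  have x0 : ∀ u < top, Ex P.Q top (X u) = 0 := by
    intro u hu
    have h := add (fun z => P.Φ top u (sft z (n u))) (fun _ => -Ex P.Q top (P.Φ top u))
    rw [cst, e5 _ _ (hper top u) fun z z' h => phi_dep P hu z z' fun i hi => h i hi.2] at h
    simp only [hX, sub_eq_add_neg]
    rw [h, add_neg_cancel]
  have lt : ∀ u u', u < u' → u' < top →
      |Ex P.Q top (fun z => X u z * X u' z)| ≤ VV ^ 2 * (1 / 2) ^ (u' - u) := by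
    intro u u' h h'
    have d1 : Dep (fun z => P.Φ u' u (sft z (n u)) - Ex P.Q top (P.Φ top u)) (Set.Iio u') := by
      intro z z' hz
      have := phi_dep P h (sft z (n u)) (sft z' (n u)) fun i hi => by
        unfold sft; rw [hz i hi.2]
      simp only [this]
    have d2 : Dep (X u') (Set.Iio u')ᶜ := by
      intro z z' hz
      have := phi_dep P h' (sft z (n u')) (sft z' (n u')) fun i hi => by
        unfold sft; rw [hz i (by simpa using hi.1)]
      simp only [hX, this]
    have s1 := e3 _ _ _ d1 d2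
    rw [x0 u' h', mul_zero] at s1
    have s2 := add (fun z => (P.Φ top u (sft z (n u)) - P.Φ u' u (sft z (n u))) * X u' z)
      (fun z => (P.Φ u' u (sft z (n u)) - Ex P.Q top (P.Φ top u)) * X u' z)
    rw [s1, add_zero] at s2
    have s3 : (fun z => X u z * X u' z) = fun z =>
        (P.Φ top u (sft z (n u)) - P.Φ u' u (sft z (n u))) * X u' z +
          (P.Φ u' u (sft z (n u)) - Ex P.Q top (P.Φ top u)) * X u' z := by
      funext z; simp only [hX]; ring
    rw [s3, s2]
    refine (habs _ (fun z => (VV : ℝ) ^ 2 *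
      ind (∃ i, u' ≤ i ∧ i < top ∧ dst i (z i + n u) ≤ ll u)) fun z => ?_).trans ?_
    · rw [abs_mul]
      calc _ ≤ (VV * ind (∃ i, u' ≤ i ∧ i < top ∧ dst i (z i + n u) ≤ ll u)) * VV :=
            mul_le_mul (phi_diff P u h'.le _) (xb u' z) (abs_nonneg _)
              (mul_nonneg hV (ind_nonneg _))
        _ = _ := by ring
    · rw [smul]
      exact mul_le_mul_of_nonneg_left ((i2 u u' (n u) h.le).trans (pw (by omega))) (by positivity)
  have cov : ∀ u ∈ S, ∀ u' ∈ S,
      |Ex P.Q top (fun z => X u z * X u' z)| ≤ VV ^ 2 * (1 / 2) ^ (Nat.dist u u') := by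
    intro u hu u' hu'
    rcases lt_trichotomy u u' with h | h | h
    · rw [Nat.dist_eq_sub_of_le h.le]
      exact lt u u' h (hS u' hu')
    · subst h
      rw [Nat.dist_self, pow_zero, mul_one]
      refine (habs _ (fun _ => (VV : ℝ) ^ 2) fun z => ?_).trans (cst _).le
      rw [abs_mul, sq]
      exact mul_le_mul (xb u z) (xb u z) (abs_nonneg _) hV
    · rw [Nat.dist_eq_sub_of_le_right h.le]
      simpa only [mul_comm] using lt u' u h (hS u hu)
  have var : Ex P.Q top (fun z => (∑ u ∈ S, l u * X u z) ^ 2) ≤ 4 * VV ^ 2 * ∑ u ∈ S, l u ^ 2 := by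
    have s1 : (fun z => (∑ u ∈ S, l u * X u z) ^ 2) =
        fun z => ∑ u ∈ S, ∑ u' ∈ S, (l u * l u') * (X u z * X u' z) := by
      funext z
      rw [sq, sum_mul_sum]
      exact sum_congr rfl fun u _ => sum_congr rfl fun u' _ => by ring
    rw [s1, e2]
    simp only [e2, smul]
    calc ∑ u ∈ S, ∑ u' ∈ S, l u * l u' * Ex P.Q top (fun z => X u z * X u' z)
        ≤ ∑ u ∈ S, ∑ u' ∈ S, (l u ^ 2 / 2 * (VV ^ 2 * (1 / 2 : ℝ) ^ (Nat.dist u u')) +
            l u' ^ 2 / 2 * (VV ^ 2 * (1 / 2 : ℝ) ^ (Nat.dist u' u))) := by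
          refine sum_le_sum fun u hu => sum_le_sum fun u' hu' => ?_
          rw [Nat.dist_comm u' u, ← add_mul]
          refine (le_abs_self _).trans ?_
          rw [abs_mul]
          refine mul_le_mul ?_ (cov u hu u' hu') (abs_nonneg _) (by positivity)
          rw [abs_le]
          constructor <;> nlinarith [sq_nonneg (l u + l u'), sq_nonneg (l u - l u')]
      _ = ∑ u ∈ S, l u ^ 2 * VV ^ 2 * ∑ u' ∈ S, (1 / 2 : ℝ) ^ (Nat.dist u u') := by
          simp only [sum_add_distrib]
          rw [sum_comm (f := fun u u' => l u' ^ 2 / 2 * (VV ^ 2 * (1 / 2 : ℝ) ^ (Nat.dist u' u))),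
            ← sum_add_distrib]
          refine sum_congr rfl fun u _ => ?_
          rw [← sum_add_distrib, mul_sum]
          exact sum_congr rfl fun u' _ => by ring
      _ ≤ ∑ u ∈ S, l u ^ 2 * VV ^ 2 * 4 :=
          sum_le_sum fun u _ => mul_le_mul_of_nonneg_left (geo S u) (by positivity)
      _ = _ := by rw [mul_sum]; exact sum_congr rfl fun u _ => by ring
  have hs : 0 ≤ ∑ u ∈ S, l u ^ 2 := sum_nonneg fun u _ => sq_nonneg _
  refine (abs_le_of_sq_le_sq' ?_ (by positivity)).2
  rw [mul_pow, Real.sq_sqrt hs]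
  refine ((cs fun z => ∑ u ∈ S, l u * X u z).trans var).trans (le_of_eq (by ring))

end Crest.Agent.R113
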