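import Crest.Agent.R113.DefsE

/-!
Row 113: uniform density of the orbits of an irrational rotation.
-/

set_option autoImplicit false

namespace Crest.Agent.R113

open Filter Topology

namespace DEN

theorem nz_le (y : ℝ) (j : ℤ) : nz y ≤ |y - j| := round_le y j

theorem dense (α : ℝ) (hα : Irrational α) (r : ℝ) (hr : 0 < r) :
    ∃ ω : ℕ, ∀ x : ℝ, ∃ n < ω, nz (x + α * n) ≤ r := by
  obtain ⟨N, hN⟩ := exists_nat_one_div_lt hr
  obtain ⟨k, hk0, -, hk⟩ := Real.exists_nat_abs_mul_sub_round_le α (Nat.succ_pos N)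
  set β : ℝ := k * α - round (k * α) with hβ
  have hβr : |β| ≤ r := by
    refine hk.trans (le_trans ?_ hN.le)
    push_cast
    exact one_div_le_one_div_of_le (by positivity) (by linarith)
  have hβ0 : β ≠ 0 := by
    intro h
    have h1 : Irrational ((k : ℝ) * α) := hα.natCast_mul hk0.ne'
    exact h1.ne_int (round ((k : ℝ) * α)) (sub_eq_zero.1 h)
  have hb : 0 < |β| := abs_pos.2 hβ0
  have key : ∀ t : ℝ, 0 ≤ t → t ≤ 1 → ∃ m : ℕ, k * m < k * (⌊1 / |β|⌋₊ + 1) ∧
      0 ≤ t - m * |β| ∧ t - m * |β| ≤ r := by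
    intro t h0 h1
    refine ⟨⌊t / |β|⌋₊, Nat.mul_lt_mul_of_pos_left (Nat.lt_succ_of_le (Nat.floor_le_floor
      (div_le_div_of_nonneg_right h1 hb.le))) hk0, ?_, ?_⟩
    · have := Nat.floor_le (div_nonneg h0 hb.le)
      rw [le_div_iff₀ hb] at this
      linarith
    · have := Nat.lt_floor_add_one (t / |β|)
      rw [div_lt_iff₀ hb] at this
      linarith
  refine ⟨k * (⌊1 / |β|⌋₊ + 1), fun x => ?_⟩
  rcases lt_or_gt_of_ne hβ0 with h | h
  · obtain ⟨m, h1, h2, h3⟩ := key (x - ⌊x⌋) (by linarith [Int.floor_le x])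
      (by linarith [Int.lt_floor_add_one x])
    refine ⟨k * m, h1, (nz_le _ (⌊x⌋ + m * round ((k : ℝ) * α))).trans ?_⟩
    rw [abs_of_neg h] at h2 h3
    have : x + α * ((k * m : ℕ) : ℝ) - ((⌊x⌋ + m * round ((k : ℝ) * α) : ℤ) : ℝ) =
        x - ⌊x⌋ - m * -β := by
      rw [hβ]
      push_cast
      ring
    rw [this, abs_of_nonneg h2]
    exact h3
  · obtain ⟨m, h1, h2, h3⟩ := key (⌈x⌉ - x) (by linarith [Int.le_ceil x])
      (by linarith [Int.ceil_lt_add_one x])
    refine ⟨k * m, h1, (nz_le _ (⌈x⌉ + m * round ((k : ℝ) * α))).trans ?_⟩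
    rw [abs_of_pos h] at h2 h3
    have : x + α * ((k * m : ℕ) : ℝ) - ((⌈x⌉ + m * round ((k : ℝ) * α) : ℤ) : ℝ) =
        -(⌈x⌉ - x - m * β) := by
      rw [hβ]
      push_cast
      ring
    rw [this, abs_neg, abs_of_nonneg h2]
    exact h3

theorem vis (α : ℝ) (hα : Irrational α) : ∃ ω r, Vis α ω r := by
  have h0 : ∀ k : ℕ, ∃ w : ℕ, (k = 0 → w = 1) ∧ ∀ x : ℝ, ∃ n < w, nz (x + α * n) ≤ 1 / ((k : ℝ) + 1) / 2 := by
    intro k
    by_cases hk : k = 0
    · refine ⟨1, fun _ => rfl, fun x => ⟨0, one_pos, ?_⟩⟩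
      rw [hk]
      have := abs_sub_round (x + α * (0 : ℕ))
      unfold nz
      norm_num at this ⊢
      exact this
    · obtain ⟨w, hw⟩ := dense α hα (1 / ((k : ℝ) + 1) / 2) (by positivity)
      exact ⟨w, fun h => absurd h hk, hw⟩
  choose W hW0 hW using h0
  set κ : ℕ → ℕ := fun u => Nat.findGreatest (fun k => W k ≤ 2 ^ u) u with hκ
  have hmono : Monotone κ := fun u v h =>
    Nat.findGreatest_mono (fun k hk => hk.trans (Nat.pow_le_pow_right two_pos h)) h
  refine ⟨fun u => W (κ u), fun u => 1 / ((κ u : ℝ) + 1), fun u => ⟨?_, ?_, by positivity, hW _⟩,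
    fun u v h => ?_, ?_⟩
  · obtain ⟨n, hn, -⟩ := hW (κ u) 0
    exact Nat.succ_le_of_lt ((Nat.zero_le n).trans_lt hn)
  · exact Nat.findGreatest_spec (P := fun k => W k ≤ 2 ^ u) (Nat.zero_le u)
      (by rw [hW0 0 rfl]; exact Nat.one_le_two_pow)
  · have : (κ u : ℝ) ≤ κ v := by exact_mod_cast hmono h
    exact one_div_le_one_div_of_le (by positivity) (by linarith)
  · have hk : Tendsto κ atTop atTop := by
      refine tendsto_atTop_atTop.2 fun K => ⟨max K (W K), fun u hu => ?_⟩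
      exact Nat.le_findGreatest (P := fun k => W k ≤ 2 ^ u) (le_of_max_le_left hu)
        ((le_of_max_le_right hu).trans Nat.lt_two_pow_self.le)
    exact tendsto_one_div_add_atTop_nhds_zero_nat.comp hk

end DEN

theorem DEN_proof : DenStmt := fun α hα => ⟨DEN.dense α hα, DEN.vis α hα⟩

end Crest.Agent.R113
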