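import Crest.Agent.R113.DefsE

/-!
Row 113 (S0149), task ENVP: the choice of the parameters of the environment.
-/

set_option autoImplicit false

namespace Crest.Agent.R113

open Finset

namespace ENVP

theorem exists_small {α : Type} (S : Finset α) (c : α → ℝ) (b : ℝ) (hb : 0 < b) :
    ∃ δ₀ : ℝ, 0 < δ₀ ∧ ∀ δ : ℝ, 0 ≤ δ → δ ≤ δ₀ → ∀ i ∈ S, c i * δ ≤ b := by
  have hT : 0 < 1 + ∑ i ∈ S, |c i| := by positivity
  refine ⟨b / (1 + ∑ i ∈ S, |c i|), by positivity, fun δ h0 hδ i hi => ?_⟩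
  have h1 : |c i| ≤ ∑ i ∈ S, |c i| :=
    Finset.single_le_sum (f := fun i => |c i|) (fun i _ => abs_nonneg _) hi
  have h2 : c i ≤ 1 + ∑ i ∈ S, |c i| := by
    have := le_abs_self (c i)
    linarith
  calc c i * δ ≤ (1 + ∑ i ∈ S, |c i|) * δ := mul_le_mul_of_nonneg_right h2 h0
    _ ≤ (1 + ∑ i ∈ S, |c i|) * (b / (1 + ∑ i ∈ S, |c i|)) :=
        mul_le_mul_of_nonneg_left hδ hT.le
    _ = b := by field_simp

/-- number of windows containing `u` -/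
def cnt (A U u : ℕ) : ℕ := ((Ico A (2 * A)).filter (fun a => a ≤ u ∧ u < a + U)).card

theorem cnt_le (A U u : ℕ) : cnt A U u ≤ U := by
  unfold cnt
  calc ((Ico A (2 * A)).filter (fun a => a ≤ u ∧ u < a + U)).card
      ≤ (Ico (u + 1 - U) (u + 1)).card := by
        apply Finset.card_le_card
        intro a ha
        simp only [mem_filter, mem_Ico] at ha ⊢
        omega
    _ ≤ U := by
        rw [Nat.card_Ico]
        omega

theorem sum_windows (A U : ℕ) (g : ℕ → ℝ) :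
    ∑ a ∈ Ico A (2 * A), ∑ u ∈ Ico a (a + U), g u =
      ∑ u ∈ Ico A (2 * A + U), (cnt A U u : ℝ) * g u := by
  have h1 : ∀ a ∈ Ico A (2 * A), ∑ u ∈ Ico a (a + U), g u =
      ∑ u ∈ Ico A (2 * A + U), if a ≤ u ∧ u < a + U then g u else 0 := by
    intro a ha
    rw [← Finset.sum_filter]
    apply Finset.sum_congr _ (fun _ _ => rfl)
    ext u
    simp only [mem_filter, mem_Ico] at ha ⊢
    omega
  rw [Finset.sum_congr rfl h1, Finset.sum_comm]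
  apply Finset.sum_congr rfl
  intro u _
  rw [← Finset.sum_filter, Finset.sum_const, nsmul_eq_mul]
  rfl

theorem RR_ge : 4 ≤ RR := by norm_num [RR]

theorem VV_pos : 0 < VV := by
  unfold VV
  exact Nat.two_pow_pos _

theorem ratio_le (u A : ℕ) (hA : 1 ≤ A) (hu : A ≤ u) : (2 / (RR : ℝ)) ^ u ≤ 1 / A := by
  have hR : (4 : ℝ) ≤ RR := by exact_mod_cast RR_ge
  have h1 : (2 / (RR : ℝ)) ≤ 1 / 2 := by
    rw [div_le_div_iff₀ (by linarith) (by norm_num)]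
    linarith
  have h0 : (0 : ℝ) ≤ 2 / (RR : ℝ) := by positivity
  have hA' : (0 : ℝ) < A := by exact_mod_cast hA
  calc (2 / (RR : ℝ)) ^ u ≤ (1 / 2) ^ u := pow_le_pow_left₀ h0 h1 u
    _ = 1 / 2 ^ u := by rw [one_div_pow]
    _ ≤ 1 / A := by
        apply one_div_le_one_div_of_le hA'
        have : A < 2 ^ u := lt_of_le_of_lt hu Nat.lt_two_pow_self
        exact_mod_cast this.le

/-- the numerical inequality behind the averaging over the levels -/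
theorem num (η V τ C : ℝ) (A U : ℕ) (nx : ℕ → ℝ) (hη : 0 < η) (hV : 0 < V) (hτ : 0 ≤ τ) (hC : 0 ≤ C)
    (hU : 1 ≤ U) (hUA : U ≤ A) (h1 : 2 * (12 * V * U / η) ^ 2 ≤ A) (h2 : 60 * V * U / η ≤ A)
    (h3 : 16 * V * U * τ ≤ η)
    (hx : ∀ u ∈ Ico A (2 * A + U), 0 ≤ nx u ∧ nx u ≤ (10 * (2 / (RR : ℝ)) ^ u + τ) * C) :
    4 * V * √(∑ u ∈ Ico A (2 * A + U), (cnt A U u : ℝ) ^ 2) * C +
      V * ∑ u ∈ Ico A (2 * A + U), (cnt A U u : ℝ) * nx u ≤ A * (η * C) := by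
  have hA1 : 1 ≤ A := le_trans hU hUA
  have hA : (0 : ℝ) < A := by exact_mod_cast hA1
  have hU0 : (0 : ℝ) < U := by exact_mod_cast hU
  have hUA' : (U : ℝ) ≤ A := by exact_mod_cast hUA
  have hcard : ((Ico A (2 * A + U)).card : ℝ) ≤ 2 * A := by
    rw [Nat.card_Ico]
    have : 2 * A + U - A ≤ 2 * A := by omega
    exact_mod_cast this
  have hc : ∀ u, (cnt A U u : ℝ) ≤ U := fun u => by exact_mod_cast cnt_le A U u
  have hs1 : ∑ u ∈ Ico A (2 * A + U), (cnt A U u : ℝ) ^ 2 ≤ 2 * A * U ^ 2 := by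
    calc ∑ u ∈ Ico A (2 * A + U), (cnt A U u : ℝ) ^ 2
        ≤ (Ico A (2 * A + U)).card • (U : ℝ) ^ 2 := by
          apply Finset.sum_le_card_nsmul
          intro u _
          exact pow_le_pow_left₀ (Nat.cast_nonneg _) (hc u) 2
      _ = ((Ico A (2 * A + U)).card : ℝ) * (U : ℝ) ^ 2 := by rw [nsmul_eq_mul]
      _ ≤ 2 * A * U ^ 2 := mul_le_mul_of_nonneg_right hcard (by positivity)
  have hsq : √(∑ u ∈ Ico A (2 * A + U), (cnt A U u : ℝ) ^ 2) ≤ η * A / (12 * V) := by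
    apply Real.sqrt_le_iff.mpr
    refine ⟨by positivity, le_trans hs1 ?_⟩
    have h1' : 2 * (12 * V * U) ^ 2 ≤ A * η ^ 2 := by
      rw [div_pow, ← mul_div_assoc, div_le_iff₀ (by positivity)] at h1
      exact h1
    rw [div_pow, le_div_iff₀ (by positivity)]
    calc 2 * A * U ^ 2 * (12 * V) ^ 2 = A * (2 * (12 * V * U) ^ 2) := by ring
      _ ≤ A * (A * η ^ 2) := mul_le_mul_of_nonneg_left h1' hA.le
      _ = (η * A) ^ 2 := by ring
  have hs2 : ∑ u ∈ Ico A (2 * A + U), (cnt A U u : ℝ) * nx u ≤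
      2 * A * (U * ((10 * (1 / A) + τ) * C)) := by
    calc ∑ u ∈ Ico A (2 * A + U), (cnt A U u : ℝ) * nx u
        ≤ (Ico A (2 * A + U)).card • ((U : ℝ) * ((10 * (1 / A) + τ) * C)) := by
          apply Finset.sum_le_card_nsmul
          intro u hu
          obtain ⟨h0, hx'⟩ := hx u hu
          have hu' : A ≤ u := (mem_Ico.mp hu).1
          have hr := ratio_le u A hA1 hu'
          apply mul_le_mul (hc u) (le_trans hx' _) h0 hU0.le
          apply mul_le_mul_of_nonneg_right _ hC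
          linarith
      _ = ((Ico A (2 * A + U)).card : ℝ) * ((U : ℝ) * ((10 * (1 / A) + τ) * C)) := by
          rw [nsmul_eq_mul]
      _ ≤ _ := mul_le_mul_of_nonneg_right hcard (by positivity)
  have h2' : 60 * V * U ≤ A * η := by
    rw [div_le_iff₀ hη] at h2
    exact h2
  have e1 : 4 * V * √(∑ u ∈ Ico A (2 * A + U), (cnt A U u : ℝ) ^ 2) * C ≤ A * (η / 3 * C) := by
    calc 4 * V * √(∑ u ∈ Ico A (2 * A + U), (cnt A U u : ℝ) ^ 2) * C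
        ≤ 4 * V * (η * A / (12 * V)) * C := by gcongr
      _ = A * (η / 3 * C) := by field_simp; ring
  have e2 : V * ∑ u ∈ Ico A (2 * A + U), (cnt A U u : ℝ) * nx u ≤
      (20 * V * U + A * (2 * V * U * τ)) * C := by
    calc V * ∑ u ∈ Ico A (2 * A + U), (cnt A U u : ℝ) * nx u
        ≤ V * (2 * A * (U * ((10 * (1 / A) + τ) * C))) := mul_le_mul_of_nonneg_left hs2 hV.le
      _ = (20 * V * U + A * (2 * V * U * τ)) * C := by field_simp; ring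
  have e3 : (20 * V * U + A * (2 * V * U * τ)) ≤ A * (2 * η / 3) := by
    have : A * (2 * V * U * τ) ≤ A * (η / 8) := mul_le_mul_of_nonneg_left (by linarith) hA.le
    nlinarith [mul_pos hA hη]
  have e4 := mul_le_mul_of_nonneg_right e3 hC
  nlinarith

end ENVP

open ENVP in
theorem ENVP_proof (hXct : XctStmt) (hBct : BctStmt) (hFlw : FlwStmt) (hOke : OkeStmt) :
    EnvpStmt := by
  intro P θ εB hP η hη w'
  have hV : (0 : ℝ) < VV := by exact_mod_cast VV_pos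
  -- the number of low levels
  obtain ⟨U, hU1, hU⟩ : ∃ U : ℕ, 1 ≤ U ∧ 32 * (VV : ℝ) ≤ η * √U := by
    obtain ⟨U, hU⟩ := exists_nat_ge ((32 * (VV : ℝ) / η) ^ 2)
    refine ⟨U + 1, by omega, ?_⟩
    have h1 : 32 * (VV : ℝ) / η ≤ √((U + 1 : ℕ) : ℝ) := by
      apply Real.le_sqrt_of_sq_le
      push_cast
      linarith
    rw [div_le_iff₀ hη] at h1
    linarith
  -- the range of levels
  obtain ⟨A, hUA, hA2, hA1, hA3, hA4, hA5⟩ : ∃ A : ℕ, U ≤ A ∧ 2 ≤ A ∧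
      2 * (12 * (VV : ℝ) * U / η) ^ 2 ≤ A ∧ 60 * (VV : ℝ) * U / η ≤ A ∧
      300 * (VV : ℝ) / η ≤ A ∧ (w' : ℝ) / η ≤ A := by
    obtain ⟨n, hn⟩ := exists_nat_ge (2 * (12 * (VV : ℝ) * U / η) ^ 2 + 60 * (VV : ℝ) * U / η +
      300 * (VV : ℝ) / η + (w' : ℝ) / η)
    have p1 : 0 ≤ 2 * (12 * (VV : ℝ) * U / η) ^ 2 := by positivity
    have p2 : 0 ≤ 60 * (VV : ℝ) * U / η := by positivity
    have p3 : 0 ≤ 300 * (VV : ℝ) / η := by positivity
    have p4 : 0 ≤ (w' : ℝ) / η := by positivity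
    have p5 : (0 : ℝ) ≤ U := Nat.cast_nonneg _
    refine ⟨n + U + 2, by omega, by omega, ?_, ?_, ?_, ?_⟩ <;> push_cast <;> linarith
  have hpow : ∀ a, A ≤ a → (A : ℝ) ≤ 2 ^ a := by
    intro a ha
    have : A < 2 ^ a := lt_of_le_of_lt ha Nat.lt_two_pow_self
    exact_mod_cast this.le
  have hκ1 : ∀ u, 1 ≤ P.κ u := fun u =>
    le_trans (one_le_pow₀ (by norm_num)) (hP.kap.2 u).1
  refine ⟨P.κ (2 * A) ^ (2 * VV * (2 * A) + 2), pow_pos (lt_of_lt_of_le one_pos (hκ1 _)) _, ?_⟩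
  intro D₀
  obtain ⟨u₁, hu₁, hD⟩ : ∃ u₁ : ℕ, 2 * A + U ≤ u₁ ∧ D₀ ≤ ll u₁ := by
    refine ⟨2 * A + U + D₀, by omega, ?_⟩
    have h1 : 2 * A + U + D₀ < RR ^ (2 * A + U + D₀) :=
      Nat.lt_pow_self (lt_of_lt_of_le (by norm_num) RR_ge)
    unfold ll
    omega
  refine ⟨ll u₁, hD, ?_⟩
  have hu0 : (0 : ℝ) < u₁ := by
    have : 0 < u₁ := by omega
    exact_mod_cast this
  obtain ⟨τ, hτ0, hτ⟩ : ∃ τ : ℝ, 0 < τ ∧ 16 * (VV : ℝ) * u₁ * τ ≤ η := by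
    refine ⟨η / (16 * (VV : ℝ) * u₁), by positivity, le_of_eq ?_⟩
    field_simp
  obtain ⟨δ₁, hδ₁, hd₁⟩ := exists_small (range u₁ ×ˢ Icc 1 VV)
    (fun t => (ll t.1 : ℝ) ^ 2 / ((P.lam t.1 * P.d t.1 (t.2 - 1)) ^ ll t.1 * P.ε t.1 ^ 2) ^ 2) τ hτ0
  obtain ⟨δ₂, hδ₂, hd₂⟩ := exists_small (range u₁)
    (fun a => (ll a : ℝ) ^ 2 * (P.κ a ^ (2 * VV * a + 2)) ^ 2) η hη
  refine ⟨min δ₁ δ₂, lt_min hδ₁ hδ₂, ?_⟩
  have hδ0 : 0 ≤ min δ₁ δ₂ := (lt_min hδ₁ hδ₂).le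
  obtain ⟨hX1, hX2, hX3⟩ := hXct P θ εB hP
  have hE1 := hX3 (range u₁) (fun u top N N' =>
      (P.nX θ top u N' N : ℝ) ≤ (10 * (2 / (RR : ℝ)) ^ u + τ) * Fintype.card (Ix N' N))
    (fun u _ => hX1 u τ hτ0)
  have hE2 := hX3 (Ico A (2 * A)) _
    (fun a ha => hBct P θ εB hP u₁ a (by have := (mem_Ico.mp ha).1; omega)
      (by have := (mem_Ico.mp ha).2; omega))
  obtain ⟨t₀, ht₀⟩ := hX2 _ _ hE1 hE2
  obtain ⟨top, htop1, htop2⟩ : ∃ top, t₀ ≤ top ∧ u₁ < top := ⟨t₀ + u₁ + 1, by omega, by omega⟩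
  obtain ⟨N₁, hN₁⟩ := ht₀ top htop1
  intro N₀
  obtain ⟨N, hN0, hN1, hNpos⟩ : ∃ N, N₀ ≤ N ∧ N₁ ≤ N ∧ 0 < N :=
    ⟨N₀ + N₁ + 1, by omega, by omega, by omega⟩
  refine ⟨N, hN0, ?_⟩
  obtain ⟨N₁', hN₁'⟩ := hN₁ N hN1
  intro N₀'
  have hM : 0 < P.M (top - 1) := by
    unfold Par.M Par.Q ll
    have hR : 0 < RR := lt_of_lt_of_le (by norm_num) RR_ge
    exact Nat.mul_pos (hP.npos _)
      (Nat.mul_pos (pow_pos hR _) (lt_of_lt_of_le (pow_pos hR _) (hP.pge _)))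
  obtain ⟨N', hN0', hN1', hNpos', hdvd⟩ :
      ∃ N', N₀' ≤ N' ∧ N₁' ≤ N' ∧ 0 < N' ∧ P.M (top - 1) ∣ N' := by
    have h1 : N₀' + N₁' + 1 ≤ P.M (top - 1) * (N₀' + N₁' + 1) := Nat.le_mul_of_pos_left _ hM
    exact ⟨P.M (top - 1) * (N₀' + N₁' + 1), by omega, by omega, by omega, Dvd.intro _ rfl⟩
  refine ⟨N', hN0', hNpos, hNpos', ?_⟩
  obtain ⟨hnX, hBg⟩ := hN₁' N' hN1' hdvd
  intro ρ hρ
  -- averaging over the levels
  have hF := (hFlw P θ εB hP top N' N (Ico A (2 * A + U)) (fun u => (cnt A U u : ℝ)) (by omega)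
    hNpos' hdvd (fun u hu => ⟨by have := (mem_Ico.mp hu).2; omega, Nat.cast_nonneg _⟩)).2 ρ hρ
  have hτU : 16 * (VV : ℝ) * U * τ ≤ η := by
    have h1 : (U : ℝ) ≤ u₁ := by
      have : U ≤ u₁ := by omega
      exact_mod_cast this
    refine le_trans ?_ hτ
    gcongr
  have hnum := num η VV τ (Fintype.card (Ix N' N)) A U (fun u => (P.nX θ top u N' N : ℝ)) hη hV
    hτ0.le (Nat.cast_nonneg _) hU1 hUA hA1 hA3 hτU
    (fun u hu => ⟨Nat.cast_nonneg _, hnX u (by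
      have := (mem_Ico.mp hu).2
      rw [mem_range]; omega)⟩)
  have hsum : ∑ a ∈ Ico A (2 * A), ∑ u ∈ Ico a (a + U),
      ∑ t ∈ Icc 1 VV, flow (sg N' N) ρ (ll u) (P.Zs θ top N' N (u, t)) ≤
      ∑ a ∈ Ico A (2 * A), η * (Fintype.card (Ix N' N) : ℝ) := by
    rw [sum_windows, Finset.sum_const, Nat.card_Ico, nsmul_eq_mul]
    have : 2 * A - A = A := by omega
    rw [this]
    exact le_trans hF hnum
  obtain ⟨a, ha, hlow⟩ := Finset.exists_le_of_sum_le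
    (⟨A, by rw [mem_Ico]; omega⟩ : (Ico A (2 * A)).Nonempty) hsum
  obtain ⟨ha1, ha2⟩ := mem_Ico.mp ha
  have hη2 : η * A ≤ η * 2 ^ a := mul_le_mul_of_nonneg_left (hpow a ha1) hη.le
  have hO := hOke P θ εB hP top u₁ a U N' N η (min δ₁ δ₂) τ ⟨hU1, by omega, by omega, htop2⟩
    (by omega) hNpos' hdvd hδ0 hτ0.le hU
    (by rw [div_le_iff₀ hη] at hA4; linarith) hτ
    (fun u hu t ht => by
      have h := hd₁ (min δ₁ δ₂) hδ0 (min_le_left _ _) (u, t)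
        (mem_product.mpr ⟨mem_range.mpr hu, ht⟩)
      calc _ = (ll u : ℝ) ^ 2 / ((P.lam u * P.d u (t - 1)) ^ ll u * P.ε u ^ 2) ^ 2 *
            min δ₁ δ₂ := by ring
        _ ≤ τ := h)
    (by
      have h := hd₂ (min δ₁ δ₂) hδ0 (min_le_right _ _) a (mem_range.mpr (by omega))
      calc _ = (ll a : ℝ) ^ 2 * (P.κ a ^ (2 * VV * a + 2)) ^ 2 * min δ₁ δ₂ := by ring
        _ ≤ η := h)
    (fun u hu => hnX u (mem_range.mpr hu)) (hBg a ha)
  obtain ⟨hO1, hO2, hO3, hO4⟩ := hO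
  refine ⟨P.env θ top u₁ a U N' N, rfl, rfl, rfl, hO1, le_trans hO2 ?_, ?_, ?_, hO4 ρ hρ⟩
  · calc P.κ a ^ (2 * VV * a + 2) ≤ P.κ (2 * A) ^ (2 * VV * a + 2) :=
          pow_le_pow_left₀ (le_trans zero_le_one (hκ1 a)) (hP.kap.1 ha2.le) _
      _ ≤ P.κ (2 * A) ^ (2 * VV * (2 * A) + 2) := by
          apply pow_le_pow_right₀ (hκ1 _)
          exact Nat.add_le_add_right (Nat.mul_le_mul_left _ ha2.le) 2
  · have h1 : (2 : ℝ) ^ a ≤ ((P.env θ top u₁ a U N' N).w : ℝ) := by exact_mod_cast hO3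
    have h2 := mul_le_mul_of_nonneg_left h1 hη.le
    rw [div_le_iff₀ hη] at hA5
    linarith
  · refine le_trans (le_of_eq ?_) hlow
    exact Finset.sum_product _ _ _

end Crest.Agent.R113
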