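import Crest.Agent.R113.DefsE

set_option autoImplicit false
set_option linter.unusedSectionVars false

namespace Crest.Agent.R113

open Finset
open scoped Classical

namespace EXP

variable (Q : ℕ → ℕ) (top : ℕ)

/-- the sample space -/
noncomputable def Om : Finset (Fin top → ℕ) := Fintype.piFinset (fun u : Fin top => range (Q u))

lemma card_Om : ((Om Q top).card : ℝ) = ∏ u ∈ range top, (Q u : ℝ) := by
  rw [Om, Fintype.card_piFinset]
  simp only [card_range]
  rw [Nat.cast_prod, Fin.prod_univ_eq_prod_range (fun u => (Q u : ℝ)) top]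

lemma Ex_eq (F : Sta → ℝ) : Ex Q top F = (∑ z ∈ Om Q top, F (up z)) / (Om Q top).card := by
  rw [card_Om]; rfl

variable {Q}

lemma pos (hQ : ∀ u, 0 < Q u) : (0 : ℝ) < (Om Q top).card := by
  rw [card_Om]
  exact Finset.prod_pos fun u _ => by exact_mod_cast hQ u

lemma ex_mono (hQ : ∀ u, 0 < Q u) (F G : Sta → ℝ) (h : ∀ z, F z ≤ G z) :
    Ex Q top F ≤ Ex Q top G := by
  rw [Ex_eq, Ex_eq]
  exact div_le_div_of_nonneg_right (Finset.sum_le_sum fun z _ => h _) (pos top hQ).le

lemma ex_smul (F : Sta → ℝ) (c : ℝ) : Ex Q top (fun z => c * F z) = c * Ex Q top F := by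
  rw [Ex_eq, Ex_eq, ← Finset.mul_sum, mul_div_assoc]

lemma ex_sum (α : Type) (S : Finset α) (F : α → Sta → ℝ) :
    Ex Q top (fun z => ∑ i ∈ S, F i z) = ∑ i ∈ S, Ex Q top (F i) := by
  simp only [Ex_eq]
  rw [Finset.sum_comm, Finset.sum_div]

lemma indep (hQ : ∀ u, 0 < Q u) (F G : Sta → ℝ) (S : Set ℕ) (hF : Dep F S) (hG : Dep G Sᶜ) :
    Ex Q top (fun z => F z * G z) = Ex Q top F * Ex Q top G := by
  have hp := pos top hQ
  let mix : (Fin top → ℕ) → (Fin top → ℕ) → (Fin top → ℕ) :=
    fun x y u => if u.val ∈ S then x u else y u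
  have hm : ∀ x ∈ Om Q top, ∀ y ∈ Om Q top, mix x y ∈ Om Q top := by
    intro x hx y hy
    simp only [Om, Fintype.mem_piFinset] at hx hy ⊢
    intro u
    by_cases h : u.val ∈ S
    · simpa [mix, h] using hx u
    · simpa [mix, h] using hy u
  have hmm : ∀ x y, mix (mix x y) (mix y x) = x := by
    intro x y; funext u
    by_cases h : u.val ∈ S <;> simp [mix, h]
  have key : ∑ p ∈ Om Q top ×ˢ Om Q top, F (up p.1) * G (up p.2) =
      ∑ p ∈ Om Q top ×ˢ Om Q top, F (up p.1) * G (up p.1) := by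
    refine Finset.sum_nbij' (fun p => (mix p.1 p.2, mix p.2 p.1))
      (fun p => (mix p.1 p.2, mix p.2 p.1)) ?_ ?_ ?_ ?_ ?_
    · intro p hp
      simp only [Finset.mem_product] at hp ⊢
      exact ⟨hm _ hp.1 _ hp.2, hm _ hp.2 _ hp.1⟩
    · intro p hp
      simp only [Finset.mem_product] at hp ⊢
      exact ⟨hm _ hp.1 _ hp.2, hm _ hp.2 _ hp.1⟩
    · intro p _
      simp only [hmm]
    · intro p _
      simp only [hmm]
    · intro p _
      have h1 : F (up p.1) = F (up (mix p.1 p.2)) := by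
        apply hF
        intro u hu
        by_cases h : u < top <;> simp [up, h, mix, hu]
      have h2 : G (up p.2) = G (up (mix p.1 p.2)) := by
        apply hG
        intro u hu
        have hu' : u ∉ S := hu
        by_cases h : u < top <;> simp [up, h, mix, hu']
      rw [h1, h2]
  rw [Finset.sum_product, Finset.sum_product] at key
  simp only [Finset.sum_const, nsmul_eq_mul] at key
  rw [← Finset.sum_mul_sum, ← Finset.mul_sum] at key
  rw [Ex_eq, Ex_eq, Ex_eq, div_mul_div_comm, key]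
  field_simp

lemma marg (hQ : ∀ u, 0 < Q u) (u : ℕ) (hu : u < top) (h : ℤ → ℝ) :
    Ex Q top (fun z => h (z u)) = (∑ y ∈ range (Q u), h y) / Q u := by
  have h1 := Finset.prod_univ_sum (fun v : Fin top => range (Q v))
    (fun v (j : ℕ) => if v = ⟨u, hu⟩ then h j else (1 : ℝ))
  have h2 : ∑ z ∈ Om Q top, h (up z u) =
      ∑ x ∈ Fintype.piFinset (fun v : Fin top => range (Q v)),
        ∏ v : Fin top, if v = ⟨u, hu⟩ then h (x v) else (1 : ℝ) := by
    refine Finset.sum_congr rfl fun x _ => ?_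
    rw [Finset.prod_ite_eq' univ (⟨u, hu⟩ : Fin top) (fun v => h (x v))]
    simp [up, hu]
  have h3 : ((Om Q top).card : ℝ) = ∏ v : Fin top, (Q v : ℝ) := by
    rw [card_Om, Fin.prod_univ_eq_prod_range (fun u => (Q u : ℝ)) top]
  rw [Ex_eq, h2, ← h1, h3, ← Finset.mul_prod_erase univ _ (mem_univ (⟨u, hu⟩ : Fin top)),
    ← Finset.mul_prod_erase univ (fun v : Fin top => (Q v : ℝ)) (mem_univ (⟨u, hu⟩ : Fin top))]
  have h4 : ∏ v ∈ univ.erase (⟨u, hu⟩ : Fin top),
      (∑ j ∈ range (Q v), if v = ⟨u, hu⟩ then h j else (1 : ℝ)) =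
      ∏ v ∈ univ.erase (⟨u, hu⟩ : Fin top), (Q v : ℝ) := by
    refine Finset.prod_congr rfl fun v hv => ?_
    have : v ≠ ⟨u, hu⟩ := (Finset.mem_erase.1 hv).1
    simp [this]
  rw [h4]
  have h5 : (0 : ℝ) < ∏ v ∈ univ.erase (⟨u, hu⟩ : Fin top), (Q v : ℝ) :=
    Finset.prod_pos fun v _ => by exact_mod_cast hQ v
  have h6 : (0 : ℝ) < Q u := by exact_mod_cast hQ u
  simp only [if_true]
  field_simp

lemma shift (hQ : ∀ u, 0 < Q u) (F : Sta → ℝ) (n : ℤ) (hP : Per Q F) (hD : Dep F (Set.Iio top)) :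
    Ex Q top (fun z => F (sft z n)) = Ex Q top F := by
  let ph : ℤ → (Fin top → ℕ) → (Fin top → ℕ) :=
    fun m x u => (((x u : ℤ) + m) % (Q u : ℤ)).toNat
  have hc : ∀ m x u, ((ph m x u : ℕ) : ℤ) = ((x u : ℤ) + m) % (Q u : ℤ) := by
    intro m x u
    have : (Q u : ℤ) ≠ 0 := by exact_mod_cast (hQ u).ne'
    exact Int.toNat_of_nonneg (Int.emod_nonneg _ this)
  have hm : ∀ m x, ph m x ∈ Om Q top := by
    intro m x
    simp only [Om, Fintype.mem_piFinset, mem_range]
    intro u
    have h1 : (0 : ℤ) < Q u := by exact_mod_cast hQ u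
    have h2 := Int.emod_lt_of_pos ((x u : ℤ) + m) h1
    rw [← hc] at h2
    exact_mod_cast h2
  have hi : ∀ m, ∀ x ∈ Om Q top, ph (-m) (ph m x) = x := by
    intro m x hx
    simp only [Om, Fintype.mem_piFinset, mem_range] at hx
    funext u
    have h1 : ((ph (-m) (ph m x) u : ℕ) : ℤ) = x u := by
      rw [hc, hc, Int.emod_add_emod]
      have : (x u : ℤ) + m + -m = x u := by ring
      rw [this]
      exact Int.emod_eq_of_lt (by positivity) (by exact_mod_cast hx u)
    exact_mod_cast h1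
  rw [Ex_eq, Ex_eq]
  congr 1
  refine Finset.sum_nbij' (ph n) (ph (-n)) (fun x _ => hm n x) (fun x _ => hm _ x)
    (fun x hx => hi n x hx) (fun x hx => by simpa using hi (-n) x hx) ?_
  intro x _
  have h1 : F (sft (up x) n) = F (fun u => if u < top then up x u + n else 0) := by
    apply hD
    intro u hu
    have hu' : u < top := hu
    simp [sft, hu']
  rw [h1]
  apply hP
  intro u
  by_cases h : u < top
  · simp only [up, h, dif_pos, if_true]
    rw [hc]
    exact Int.dvd_emod_sub_self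
  · simp [up, h]

lemma ld (hQ : ∀ u, 0 < Q u) (W : Sta → ℝ) (A : ℕ → Sta → Prop) (S : Finset ℕ) (β c : ℝ)
    (hβ : 0 < β) (hW : ∀ z, 0 ≤ W z)
    (h : ∀ S' ⊆ S, Ex Q top (fun z => W z * ind (∀ u ∈ S', A u z)) ≤ c * (β ^ 4) ^ S'.card) :
    Ex Q top (fun z => W z * ind (S.card ≤ 4 * (S.filter (fun u => A u z)).card)) ≤
      c * (2 * β) ^ S.card := by
  have hn : ∀ q : Prop, 0 ≤ ind q := fun q => by unfold ind; split_ifs <;> norm_num
  have pt : ∀ z, W z * ind (S.card ≤ 4 * (S.filter (fun u => A u z)).card) ≤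
      ∑ S' ∈ S.powerset, (β ^ S.card / (β ^ 4) ^ S'.card) * (W z * ind (∀ u ∈ S', A u z)) := by
    intro z
    have nn : ∀ S' ∈ S.powerset,
        0 ≤ (β ^ S.card / (β ^ 4) ^ S'.card) * (W z * ind (∀ u ∈ S', A u z)) :=
      fun S' _ => mul_nonneg (by positivity) (mul_nonneg (hW z) (hn _))
    by_cases hq : S.card ≤ 4 * (S.filter (fun u => A u z)).card
    · have e1 : ind (S.card ≤ 4 * (S.filter (fun u => A u z)).card) = 1 := by
        unfold ind; rw [if_pos hq]
      rw [e1]
      rcases le_total β 1 with hb | hb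
      · refine le_trans ?_ (Finset.single_le_sum nn
          (Finset.mem_powerset.2 (Finset.filter_subset (fun u => A u z) S)))
        have e2 : ind (∀ u ∈ S.filter (fun u => A u z), A u z) = 1 := by
          unfold ind; rw [if_pos fun u hu => (Finset.mem_filter.1 hu).2]
        rw [e2]
        have e3 : 1 ≤ β ^ S.card / (β ^ 4) ^ (S.filter (fun u => A u z)).card := by
          rw [le_div_iff₀ (by positivity), one_mul, ← pow_mul]
          exact pow_le_pow_of_le_one hβ.le hb hq
        nlinarith [hW z]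
      · refine le_trans ?_ (Finset.single_le_sum nn (Finset.empty_mem_powerset S))
        have e2 : ind (∀ u ∈ (∅ : Finset ℕ), A u z) = 1 := by
          unfold ind; rw [if_pos fun u hu => by simp at hu]
        rw [e2]
        have e3 : 1 ≤ β ^ S.card := one_le_pow₀ hb
        simp only [Finset.card_empty, pow_zero, div_one]
        nlinarith [hW z]
    · have e1 : ind (S.card ≤ 4 * (S.filter (fun u => A u z)).card) = 0 := by
        unfold ind; rw [if_neg hq]
      rw [e1, mul_zero]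
      exact Finset.sum_nonneg nn
  refine le_trans (ex_mono top hQ _ _ pt) ?_
  rw [ex_sum]
  calc ∑ S' ∈ S.powerset, Ex Q top (fun z =>
        (β ^ S.card / (β ^ 4) ^ S'.card) * (W z * ind (∀ u ∈ S', A u z)))
      ≤ ∑ S' ∈ S.powerset, c * β ^ S.card := by
        refine Finset.sum_le_sum fun S' hS' => ?_
        rw [ex_smul]
        refine le_trans (mul_le_mul_of_nonneg_left (h S' (Finset.mem_powerset.1 hS'))
          (by positivity)) (le_of_eq ?_)
        field_simp
    _ = c * (2 * β) ^ S.card := by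
        rw [Finset.sum_const, Finset.card_powerset, nsmul_eq_mul, mul_pow]
        push_cast; ring

end EXP

theorem EXP_proof : ExpStmt := by
  intro Q top hQ
  have hp := EXP.pos top hQ
  refine ⟨fun F G c => ⟨?_, EXP.ex_smul top F c, ?_, EXP.ex_mono top hQ F G, ?_⟩,
    EXP.ex_sum top, EXP.indep top hQ, EXP.marg top hQ, EXP.shift top hQ, ?_⟩
  · simp only [EXP.Ex_eq]
    rw [Finset.sum_add_distrib, add_div]
  · rw [EXP.Ex_eq, Finset.sum_const, nsmul_eq_mul]
    field_simp
  · rw [EXP.Ex_eq, EXP.Ex_eq, div_pow, div_le_div_iff₀ (by positivity) hp]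
    have h := sq_sum_le_card_mul_sum_sq (s := EXP.Om Q top) (f := fun z => |F (up z)|)
    simp only [sq_abs] at h
    nlinarith
  · intro W A S β c hβ hW h
    convert EXP.ld top hQ W A S β c hβ hW h

end Crest.Agent.R113
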