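import Crest.Agent.R113.DefsE

set_option autoImplicit false

namespace Crest.Agent.R113

open Finset
open scoped Classical

namespace FLW

lemma ind_nonneg (q : Prop) : 0 ≤ ind q := by unfold ind; split_ifs <;> norm_num

lemma ind_le_one (q : Prop) : ind q ≤ 1 := by unfold ind; split_ifs <;> norm_num

lemma Φ_nonneg (P : Par) (top u : ℕ) (z : Sta) : 0 ≤ P.Φ top u z :=
  Finset.sum_nonneg fun _ _ => ind_nonneg _

lemma Φ_le (P : Par) (top u : ℕ) (z : Sta) : P.Φ top u z ≤ VV := by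
  unfold Par.Φ
  calc ∑ t ∈ Icc 1 VV, ind (P.Zt top (u, t) z) ≤ ∑ _t ∈ Icc 1 VV, (1 : ℝ) :=
        Finset.sum_le_sum fun _ _ => ind_le_one _
    _ = VV := by rw [Finset.sum_const, Nat.card_Icc, nsmul_eq_mul, mul_one, Nat.add_sub_cancel]

lemma per_dep {Q : ℕ → ℕ} {F : Sta → ℝ} {T : Set ℕ} (hP : Per Q F) (hD : Dep F T) (z z' : Sta)
    (h : ∀ i ∈ T, (Q i : ℤ) ∣ z' i - z i) : F z = F z' := by
  have h1 : F z = F (fun i => if i ∈ T then z' i else z i) := by
    refine hP _ _ fun i => ?_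
    by_cases hi : i ∈ T
    · simp only [hi, if_true]; exact h i hi
    · simp only [hi, if_false, sub_self]; exact dvd_zero _
  rw [h1]
  exact hD _ _ fun i hi => by simp only [hi, if_true]

lemma sft_zero (z : Sta) : sft z 0 = z := by funext u; simp [sft]

lemma ll_le_rg {u i : ℕ} (h : u ≤ i) : ll u ≤ rg i := by
  unfold ll rg
  exact Nat.pow_le_pow_right (by norm_num [RR]) (by omega)

lemma flow_eq {ι : Type} [Fintype ι] [DecidableEq ι] (σ : Equiv.Perm ι) (ρ : ι → ℝ) (r : ℕ)
    (Z : Finset ι) : flow σ ρ r Z = ∑ j, ind (j ∈ Z) * (ρ j - ρ ((σ ^ r) j)) := by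
  have h0 : ∑ j, (ρ ((σ ^ r) j) - ρ j) = 0 := by
    rw [Finset.sum_sub_distrib, Equiv.sum_comp (σ ^ r) ρ, sub_self]
  rw [← Finset.sum_add_sum_compl Z] at h0
  have h1 : ∑ j, ind (j ∈ Z) * (ρ j - ρ ((σ ^ r) j)) = ∑ j ∈ Z, (ρ j - ρ ((σ ^ r) j)) := by
    rw [← Finset.sum_add_sum_compl Z]
    have a : ∑ j ∈ Zᶜ, ind (j ∈ Z) * (ρ j - ρ ((σ ^ r) j)) = 0 :=
      Finset.sum_eq_zero fun j hj => by
        have : j ∉ Z := by simpa using hj
        simp [ind, this]
    rw [a, add_zero]
    exact Finset.sum_congr rfl fun j hj => by simp [ind, hj]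
  have h2 : ∑ j ∈ Z, (ρ j - ρ ((σ ^ r) j)) = -∑ j ∈ Z, (ρ ((σ ^ r) j) - ρ j) := by
    rw [← Finset.sum_neg_distrib]; exact Finset.sum_congr rfl fun j _ => by ring
  unfold flow
  rw [h1, h2]; linarith

end FLW

open FLW in
theorem FLW_proof (hExp : ExpStmt) (hFun2 : Fun2Stmt) (hGrid : GridStmt) (hCov : CovStmt) :
    FlwStmt := by
  intro P θ εB hOk top N' N S l htop hN' hdvd hS
  obtain ⟨hPD, hC⟩ := hCov P θ εB hOk top
  set A : ℝ := 2 * VV * √(∑ u ∈ S, l u ^ 2) with hA
  set m : ℕ → ℝ := fun u => Ex P.Q top (P.Φ top u) with hm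
  have hcard : (Fintype.card (Ix N' N) : ℝ) = N * N' := by
    simp [Ix, mul_comm]
  have key : ∀ n : ℕ → ℤ, ∑ j : Ix N' N,
      |∑ u ∈ S, l u * (P.Φ top u (sft (P.st (pos θ j)) (n u)) - m u)| ≤
        A * Fintype.card (Ix N' N) := by
    intro n
    set G : Sta → ℝ := fun z => |∑ u ∈ S, l u * (P.Φ top u (sft z (n u)) - m u)| with hG
    have hGP : Per P.Q G := by
      intro z z' h
      simp only [hG]
      congr 1
      refine Finset.sum_congr rfl fun u hu => ?_
      rw [(hPD u (hS u hu).1).1 (sft z (n u)) (sft z' (n u)) (fun i => by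
        simp only [sft]; rw [add_sub_add_right_eq_sub]; exact h i)]
    have hGD : Dep G (Set.Iio top) := by
      intro z z' h
      simp only [hG]
      congr 1
      refine Finset.sum_congr rfl fun u hu => ?_
      rw [(hPD u (hS u hu).1).2 (sft z (n u)) (sft z' (n u)) (fun i hi => by
        simp only [sft]; rw [h i hi.2])]
    have hE : Ex P.Q top G ≤ A := hC S l n (fun u hu => (hS u hu).1)
    have h1 : ∀ b : Fin N, ∑ k : Fin N', G (P.st (pos θ ((k, b) : Ix N' N))) ≤ N' * A := by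
      intro b
      have := hGrid.1 P θ εB hOk top N' (θ * b.val) G htop hN' hdvd hGP hGD
      rw [← Fin.sum_univ_eq_sum_range (fun k : ℕ => G (P.st ((k : ℝ) / N' + θ * b.val))) N'] at this
      calc ∑ k : Fin N', G (P.st (pos θ ((k, b) : Ix N' N))) = N' * Ex P.Q top G := this
        _ ≤ N' * A := by gcongr
    calc ∑ j : Ix N' N, G (P.st (pos θ j)) = ∑ b : Fin N, ∑ k : Fin N', G (P.st (pos θ ((k, b) : Ix N' N))) :=
          Fintype.sum_prod_type_right _
      _ ≤ ∑ _b : Fin N, N' * A := Finset.sum_le_sum fun b _ => h1 b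
      _ = A * Fintype.card (Ix N' N) := by
          rw [hcard, Finset.sum_const, Finset.card_univ, Fintype.card_fin, nsmul_eq_mul]; ring
  have hZ : ∀ (u : ℕ) (j : Ix N' N),
      ∑ t ∈ Icc 1 VV, ind (j ∈ P.Zs θ top N' N (u, t)) = P.Φ top u (P.st (pos θ j)) := by
    intro u j
    unfold Par.Φ
    refine Finset.sum_congr rfl fun t _ => ?_
    congr 1
    simp [Par.Zs]
  refine ⟨⟨∑ u ∈ S, l u * m u, ?_⟩, ?_⟩
  · refine le_trans (le_of_eq ?_) (key (fun _ => 0))
    refine Finset.sum_congr rfl fun j _ => ?_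
    congr 1
    rw [← Finset.sum_sub_distrib]
    refine Finset.sum_congr rfl fun u _ => ?_
    rw [sft_zero, ← hZ, mul_sub, Finset.mul_sum]
    congr 1
    refine Finset.sum_congr rfl fun t _ => ?_
    unfold ind
    split_ifs <;> simp
  · intro ρ hρ
    have hu : ∀ u ∈ S, ∑ t ∈ Icc 1 VV, flow (sg N' N) ρ (ll u) (P.Zs θ top N' N (u, t)) ≤
        ∑ j : Ix N' N, ρ j * ((P.Φ top u (sft (P.st (pos θ j)) 0) - m u) -
          (P.Φ top u (sft (P.st (pos θ j)) (-(ll u : ℤ))) - m u)) + VV * P.nX θ top u N' N := by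
      intro u hu
      have hut := (hS u hu).1
      have e1 : ∑ t ∈ Icc 1 VV, flow (sg N' N) ρ (ll u) (P.Zs θ top N' N (u, t)) =
          ∑ j : Ix N' N, P.Φ top u (P.st (pos θ j)) * (ρ j - ρ ((sg N' N ^ ll u) j)) := by
        simp only [flow_eq]
        rw [Finset.sum_comm]
        refine Finset.sum_congr rfl fun j _ => ?_
        rw [← Finset.sum_mul, hZ]
      have e2 : ∑ j : Ix N' N, ρ j * P.Φ top u (sft (P.st (pos θ j)) (-(ll u : ℤ))) =
          ∑ j : Ix N' N, ρ ((sg N' N ^ ll u) j) *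
            P.Φ top u (sft (P.st (pos θ ((sg N' N ^ ll u) j))) (-(ll u : ℤ))) :=
        (Equiv.sum_comp (sg N' N ^ ll u)
          (fun j => ρ j * P.Φ top u (sft (P.st (pos θ j)) (-(ll u : ℤ))))).symm
      have e3 : ∀ j : Ix N' N, ρ ((sg N' N ^ ll u) j) *
            P.Φ top u (sft (P.st (pos θ ((sg N' N ^ ll u) j))) (-(ll u : ℤ))) ≤
          P.Φ top u (P.st (pos θ j)) * ρ ((sg N' N ^ ll u) j) + VV * ind (P.Xb θ top u j) := by
        intro j
        by_cases hX : P.Xb θ top u j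
        · have a1 := Φ_le P top u (sft (P.st (pos θ ((sg N' N ^ ll u) j))) (-(ll u : ℤ)))
          have a2 := Φ_nonneg P top u (sft (P.st (pos θ ((sg N' N ^ ll u) j))) (-(ll u : ℤ)))
          have a3 := Φ_nonneg P top u (P.st (pos θ j))
          have a4 := hρ ((sg N' N ^ ll u) j)
          have a5 : ind (P.Xb θ top u j) = 1 := by simp [ind, hX]
          rw [a5]
          nlinarith [mul_nonneg a3 a4.1, mul_nonneg a2 (sub_nonneg.mpr a4.2)]
        · have a5 : ind (P.Xb θ top u j) = 0 := by simp [ind, hX]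
          rw [a5, mul_zero, add_zero, mul_comm]
          refine le_of_eq ?_
          congr 1
          unfold Par.Xb at hX
          have b1 : j.2.val + ll u < N := by
            by_contra h; exact hX (Or.inl (by omega))
          have b2 : ∀ i, u ≤ i → i < top → P.reg i (pos θ j) := by
            intro i h1 h2
            by_contra h; exact hX (Or.inr (Or.inl ⟨i, h1, h2, h⟩))
          rw [(hFun2.2 θ N' N (ll u) j b1).2.2]
          symm
          refine per_dep (hPD u hut).1 (hPD u hut).2 _ _ fun i hi => ?_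
          have := ((hFun2.1 P θ εB hOk).2.2.2.1 i (pos θ j) (ll u : ℤ) (b2 i hi.1 hi.2) (by
            rw [abs_of_nonneg (by positivity)]; exact_mod_cast ll_le_rg hi.1)).1
          simp only [sft]
          push_cast at this
          convert this using 1
          ring
      have e4 : ∑ j : Ix N' N, ind (P.Xb θ top u j) = P.nX θ top u N' N := by
        unfold Par.nX ind
        rw [Finset.sum_boole]
      have e5 := Finset.sum_le_sum (s := Finset.univ) fun j _ => e3 j
      rw [Finset.sum_add_distrib, ← Finset.mul_sum, e4, ← e2] at e5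
      have e6 : ∑ j : Ix N' N, ρ j * ((P.Φ top u (sft (P.st (pos θ j)) 0) - m u) -
          (P.Φ top u (sft (P.st (pos θ j)) (-(ll u : ℤ))) - m u)) =
          ∑ j : Ix N' N, P.Φ top u (P.st (pos θ j)) * ρ j -
            ∑ j : Ix N' N, ρ j * P.Φ top u (sft (P.st (pos θ j)) (-(ll u : ℤ))) := by
        rw [← Finset.sum_sub_distrib]
        refine Finset.sum_congr rfl fun j _ => ?_
        rw [sft_zero]; ring
      have e7 : ∑ j : Ix N' N, P.Φ top u (P.st (pos θ j)) * (ρ j - ρ ((sg N' N ^ ll u) j)) =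
          ∑ j : Ix N' N, P.Φ top u (P.st (pos θ j)) * ρ j -
            ∑ j : Ix N' N, P.Φ top u (P.st (pos θ j)) * ρ ((sg N' N ^ ll u) j) := by
        rw [← Finset.sum_sub_distrib]
        refine Finset.sum_congr rfl fun j _ => ?_
        ring
      rw [e1, e6, e7]
      linarith
    have k0 := key (fun _ => 0)
    have k1 := key (fun u => -(ll u : ℤ))
    have f1 : ∑ u ∈ S, l u * ∑ t ∈ Icc 1 VV, flow (sg N' N) ρ (ll u) (P.Zs θ top N' N (u, t)) ≤
        ∑ u ∈ S, l u * (∑ j : Ix N' N, ρ j * ((P.Φ top u (sft (P.st (pos θ j)) 0) - m u) -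
          (P.Φ top u (sft (P.st (pos θ j)) (-(ll u : ℤ))) - m u)) + VV * P.nX θ top u N' N) :=
      Finset.sum_le_sum fun u h => mul_le_mul_of_nonneg_left (hu u h) (hS u h).2
    have f2 : ∑ u ∈ S, l u * (∑ j : Ix N' N, ρ j * ((P.Φ top u (sft (P.st (pos θ j)) 0) - m u) -
          (P.Φ top u (sft (P.st (pos θ j)) (-(ll u : ℤ))) - m u)) + VV * P.nX θ top u N' N) =
        ∑ j : Ix N' N, ρ j * (∑ u ∈ S, l u * (P.Φ top u (sft (P.st (pos θ j)) 0) - m u) -
          ∑ u ∈ S, l u * (P.Φ top u (sft (P.st (pos θ j)) (-(ll u : ℤ))) - m u)) +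
          VV * ∑ u ∈ S, l u * P.nX θ top u N' N := by
      simp only [mul_add, Finset.sum_add_distrib]
      congr 1
      · simp only [Finset.mul_sum, ← Finset.sum_sub_distrib]
        rw [Finset.sum_comm]
        refine Finset.sum_congr rfl fun j _ => Finset.sum_congr rfl fun u _ => ?_
        ring
      · rw [Finset.mul_sum]
        refine Finset.sum_congr rfl fun u _ => ?_
        ring
    have f3 : ∑ j : Ix N' N, ρ j * (∑ u ∈ S, l u * (P.Φ top u (sft (P.st (pos θ j)) 0) - m u) -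
          ∑ u ∈ S, l u * (P.Φ top u (sft (P.st (pos θ j)) (-(ll u : ℤ))) - m u)) ≤
        ∑ j : Ix N' N, (|∑ u ∈ S, l u * (P.Φ top u (sft (P.st (pos θ j)) 0) - m u)| +
          |∑ u ∈ S, l u * (P.Φ top u (sft (P.st (pos θ j)) (-(ll u : ℤ))) - m u)|) := by
      refine Finset.sum_le_sum fun j _ => ?_
      generalize ∑ u ∈ S, l u * (P.Φ top u (sft (P.st (pos θ j)) 0) - m u) = x
      generalize ∑ u ∈ S, l u * (P.Φ top u (sft (P.st (pos θ j)) (-(ll u : ℤ))) - m u) = y
      have a1 := hρ j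
      have a2 : x - y ≤ |x| + |y| := by linarith [le_abs_self x, neg_abs_le y]
      have a3 : 0 ≤ |x| + |y| := by positivity
      nlinarith [mul_le_mul_of_nonneg_left a2 a1.1, mul_nonneg a3 (sub_nonneg.mpr a1.2)]
    rw [Finset.sum_add_distrib] at f3
    have f4 : 4 * VV * √(∑ u ∈ S, l u ^ 2) * Fintype.card (Ix N' N) =
        2 * (A * Fintype.card (Ix N' N)) := by rw [hA]; ring
    rw [f4]
    linarith

end Crest.Agent.R113
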