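import Crest.Agent.R113.DefsE

set_option autoImplicit false

namespace Crest.Agent.R113

open Finset Filter Topology

namespace FUN0

lemma nz_cont : Continuous nz := by
  have : nz = fun x : ℝ => ‖(x : UnitAddCircle)‖ := by
    funext x; rw [UnitAddCircle.norm_eq]; rfl
  rw [this]
  exact continuous_norm.comp (AddCircle.continuous_mk' 1)

lemma nz_nonneg (x : ℝ) : 0 ≤ nz x := abs_nonneg _

lemma nz_add_int (x : ℝ) (n : ℤ) : nz (x + n) = nz x := by
  unfold nz
  rw [round_add_intCast]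
  push_cast
  congr 1; ring

lemma nz_int (n : ℤ) : nz n = 0 := by simp [nz]

lemma chi_cont : Continuous chi := by
  unfold chi; fun_prop

lemma chi_nonneg (t : ℝ) : 0 ≤ chi t := le_max_left _ _

lemma chi_zero {t : ℝ} (h : 1 ≤ t) : chi t = 0 := by
  unfold chi
  exact max_eq_left ((min_le_right _ _).trans (by linarith))

lemma chi_one {t : ℝ} (h : t ≤ 1 / 2) : chi t = 1 := by
  unfold chi
  rw [min_eq_left (by linarith)]
  exact max_eq_right zero_le_one

lemma RR_ge : (2 : ℝ) ≤ RR := by norm_num [RR]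

lemma ze_pos (u : ℕ) : 0 < ze u := by
  have := RR_ge
  unfold ze; positivity

lemma pow_ge (u : ℕ) : (u : ℝ) + 1 ≤ (RR : ℝ) ^ (3 * u + 5) := by
  have h1 : (u : ℝ) + 1 ≤ 2 ^ u := by
    have : u + 1 ≤ 2 ^ u := Nat.lt_two_pow_self
    exact_mod_cast this
  have h2 : (2 : ℝ) ^ u ≤ 2 ^ (3 * u + 5) := pow_le_pow_right₀ (by norm_num) (by omega)
  have h3 : (2 : ℝ) ^ (3 * u + 5) ≤ (RR : ℝ) ^ (3 * u + 5) :=
    pow_le_pow_left₀ (by norm_num) RR_ge _
  linarith

lemma ze_tendsto : Tendsto ze atTop (𝓝 0) := by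
  refine squeeze_zero (fun u => (ze_pos u).le) (fun u => ?_) tendsto_one_div_add_atTop_nhds_zero_nat
  unfold ze
  exact one_div_le_one_div_of_le (by positivity) (pow_ge u)

lemma ll_pos (u : ℕ) : 0 < ll u := by
  unfold ll
  exact pow_pos (by norm_num [RR]) u

lemma step_cont (c : ℤ → ℝ) (h : ℝ → ℝ) (hc : Continuous h) (h0 : ∀ n : ℤ, h n = 0) :
    Continuous (fun y : ℝ => c ⌊y⌋ * h y) := by
  rw [continuous_iff_continuousAt]
  intro y
  by_cases hy : (⌊y⌋ : ℝ) = y
  · have hz : h y = 0 := by rw [← hy]; exact h0 _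
    rw [ContinuousAt, hz, mul_zero]
    have hb : Tendsto (fun t => (|c ⌊y⌋| + |c (⌊y⌋ - 1)|) * |h t|) (𝓝 y) (𝓝 0) := by
      have : Tendsto (fun t => (|c ⌊y⌋| + |c (⌊y⌋ - 1)|) * |h t|) (𝓝 y)
          (𝓝 ((|c ⌊y⌋| + |c (⌊y⌋ - 1)|) * |h y|)) :=
        (continuous_const.mul hc.abs).tendsto y
      rwa [hz, abs_zero, mul_zero] at this
    refine squeeze_zero_norm' ?_ hb
    filter_upwards [Ioo_mem_nhds (show y - 1 < y by linarith) (show y < y + 1 by linarith)] with t ht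
    rw [Real.norm_eq_abs, abs_mul]
    refine mul_le_mul_of_nonneg_right ?_ (abs_nonneg _)
    have h1 : ⌊t⌋ < ⌊y⌋ + 1 := by
      rw [Int.floor_lt]; push_cast; rw [hy]; exact ht.2
    have h2 : ⌊y⌋ - 1 ≤ ⌊t⌋ := by
      rw [Int.le_floor]; push_cast; rw [hy]; exact ht.1.le
    have h3 : ⌊t⌋ = ⌊y⌋ ∨ ⌊t⌋ = ⌊y⌋ - 1 := by omega
    rcases h3 with h3 | h3 <;> rw [h3]
    · linarith [abs_nonneg (c (⌊y⌋ - 1))]
    · linarith [abs_nonneg (c ⌊y⌋)]
  · have hlt : (⌊y⌋ : ℝ) < y := lt_of_le_of_ne (Int.floor_le y) hy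
    have he : (fun t : ℝ => c ⌊y⌋ * h t) =ᶠ[𝓝 y] fun t : ℝ => c ⌊t⌋ * h t := by
      filter_upwards [Ioo_mem_nhds hlt (Int.lt_floor_add_one y)] with t ht
      rw [show ⌊t⌋ = ⌊y⌋ from Int.floor_eq_iff.2 ⟨ht.1.le, ht.2⟩]
    exact ContinuousAt.congr (continuous_const.mul hc).continuousAt he

variable {P : Par} {θ : ℝ} {εB : ℕ → ℝ → ℝ}

lemma gc_nonneg (u : ℕ) (x : ℝ) : 0 ≤ Par.gc u x := by
  unfold Par.gc
  exact mul_nonneg (by positivity) (chi_nonneg _)

lemma gc_cont (u : ℕ) : Continuous (Par.gc u) := by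
  unfold Par.gc
  exact continuous_const.mul (chi_cont.comp (nz_cont.div_const _))

lemma gl_nonneg (hP : P.Ok θ εB) (u : ℕ) (x : ℝ) : 0 ≤ P.gl u x := by
  unfold Par.gl
  split_ifs
  · refine mul_nonneg (mul_nonneg ?_ (le_min zero_le_one ?_)) (chi_nonneg _)
    · exact neg_nonneg.2 (Real.log_nonpos (hP.dp _ _).1.le (hP.dp _ _).2)
    · exact div_nonneg (mul_nonneg zero_le_two (nz_nonneg _)) (ze_pos u).le
  · exact le_rfl

lemma gl_cont (u : ℕ) : Continuous (P.gl u) := by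
  have h := step_cont
    (fun n : ℤ => if n % ll u < P.ω u then -Real.log (P.d u (P.s u (n / ll u))) else 0)
    (fun y => min 1 (2 * nz y / ze u))
    (continuous_const.min ((continuous_const.mul nz_cont).div_const _))
    (fun n => by simp [nz_int])
  have h2 := (h.comp (continuous_const.mul continuous_id : Continuous fun x : ℝ => (P.M u : ℝ) * x)).mul
    (chi_cont.comp (nz_cont.div_const (P.r u)))
  convert h2 using 1
  funext x
  simp only [Par.gl, Par.st, Function.comp_apply, Pi.mul_apply]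
  by_cases hx : ⌊(P.M u : ℝ) * x⌋ % (ll u : ℤ) < P.ω u <;> simp [hx]

lemma s_per {p : ℕ} {s : ℤ → ℕ} (h : ∀ β, s (β + p) = s β) (β : ℤ) (k : ℕ) :
    s (β + k * p) = s β := by
  induction k with
  | zero => simp
  | succ k ih => rw [← ih, ← h (β + k * p)]; congr 1; push_cast; ring

lemma gl_per (hP : P.Ok θ εB) (u : ℕ) (x : ℝ) : P.gl u (x + 1) = P.gl u x := by
  have hl : (ll u : ℤ) ≠ 0 := by exact_mod_cast (ll_pos u).ne'
  have h1 : P.st (x + 1) u = P.st x u + (ll u : ℤ) * (P.N u * P.p u) := by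
    unfold Par.st
    rw [mul_add, mul_one, Int.floor_add_natCast]
    unfold Par.M Par.Q
    push_cast; ring
  have h2 : nz (P.M u * (x + 1)) = nz (P.M u * x) := by
    rw [mul_add, mul_one, ← nz_add_int (P.M u * x) (P.M u)]; norm_cast
  have h3 : nz (x + 1) = nz x := by rw [← nz_add_int x 1]; norm_cast
  unfold Par.gl
  rw [h1, h2, h3, Int.add_mul_emod_self_left, Int.add_mul_ediv_left _ _ hl,
    s_per (hP.pat u).2.1]

lemma vanish (hP : P.Ok θ εB) {η : ℝ} (hη : 0 < η) :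
    ∃ U : ℕ, ∀ u, U ≤ u → ∀ x, η ≤ nz x → P.gl u x + Par.gc u x = 0 := by
  have h1 := (hP.vis.2.2.eventually (gt_mem_nhds hη)).and (ze_tendsto.eventually (gt_mem_nhds hη))
  obtain ⟨U, hU⟩ := eventually_atTop.1 h1
  refine ⟨U, fun u hu x hx => ?_⟩
  obtain ⟨h2, h3⟩ := hU u hu
  have hr : 0 < P.r u := (hP.vis.1 u).2.2.1
  have e1 : chi (nz x / P.r u) = 0 := chi_zero ((one_le_div hr).2 (by linarith))
  have e2 : chi (nz x / ze u) = 0 := chi_zero ((one_le_div (ze_pos u)).2 (by linarith))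
  unfold Par.gl Par.gc
  rw [e1, e2]
  simp

lemma tsum_eq {η : ℝ} {U : ℕ} (hU : ∀ u, U ≤ u → ∀ x, η ≤ nz x → P.gl u x + Par.gc u x = 0)
    {x : ℝ} (hx : η ≤ nz x) :
    ∑' u, (P.gl u x + Par.gc u x) = ∑ u ∈ range U, (P.gl u x + Par.gc u x) :=
  tsum_eq_sum fun u hu => hU u (by simpa using hu) x hx

lemma Fn_nonneg (x : ℝ) : 0 ≤ P.Fn x := by
  unfold Par.Fn
  split_ifs
  · exact le_rfl
  · exact (Real.exp_pos _).le

lemma Fn_le (hP : P.Ok θ εB) (x : ℝ) (n : ℕ) :
    P.Fn x ≤ Real.exp (-∑ u ∈ range n, Par.gc u x) := by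
  unfold Par.Fn
  split_ifs with h
  · exact (Real.exp_pos _).le
  · have hpos : 0 < nz x := lt_of_le_of_ne (nz_nonneg x) (Ne.symm h)
    obtain ⟨U, hU⟩ := vanish hP hpos
    have hs : Summable fun u => P.gl u x + Par.gc u x :=
      summable_of_ne_finset_zero (s := range U) fun u hu => hU u (by simpa using hu) x le_rfl
    refine Real.exp_le_exp.2 (neg_le_neg ?_)
    refine le_trans (Finset.sum_le_sum fun u _ => ?_)
      (hs.sum_le_tsum (range n) fun u _ => add_nonneg (gl_nonneg hP u x) (gc_nonneg u x))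
    linarith [gl_nonneg hP u x]

lemma Fn_cont (hP : P.Ok θ εB) : Continuous P.Fn := by
  rw [continuous_iff_continuousAt]
  intro x
  by_cases h : nz x = 0
  · have h0 : P.Fn x = 0 := by unfold Par.Fn; rw [if_pos h]
    rw [ContinuousAt, h0, tendsto_order]
    refine ⟨fun a ha => Eventually.of_forall fun y => ha.trans_le (Fn_nonneg y), fun a ha => ?_⟩
    obtain ⟨n, hn⟩ := exists_nat_gt (-Real.log a)
    have hz : nz x < ze n / 2 := by rw [h]; exact half_pos (ze_pos n)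
    filter_upwards [(nz_cont.tendsto x).eventually (gt_mem_nhds hz)] with y hy
    have e1 : Par.gc n y = (RR : ℝ) ^ (3 * n + 5) := by
      unfold Par.gc
      rw [chi_one, mul_one]
      rw [div_le_iff₀ (ze_pos n)]; linarith
    have e2 : Par.gc n y ≤ ∑ u ∈ range (n + 1), Par.gc u y :=
      Finset.single_le_sum (f := fun u => Par.gc u y) (fun u _ => gc_nonneg u y) (by simp)
    refine (Fn_le hP y (n + 1)).trans_lt ?_
    rw [← Real.exp_log ha, Real.exp_lt_exp]
    linarith [pow_ge n]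
  · have hpos : 0 < nz x := lt_of_le_of_ne (nz_nonneg x) (Ne.symm h)
    obtain ⟨U, hU⟩ := vanish hP (half_pos hpos)
    have hc : Continuous fun y => Real.exp (-∑ u ∈ range U, (P.gl u y + Par.gc u y)) :=
      Real.continuous_exp.comp (continuous_finsetSum _ fun u _ => (gl_cont u).add (gc_cont u)).neg
    refine ContinuousAt.congr hc.continuousAt ?_
    filter_upwards [(nz_cont.tendsto x).eventually (lt_mem_nhds (half_lt_self hpos))] with y hy
    have hy0 : nz y ≠ 0 := ((half_pos hpos).trans hy).ne'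
    unfold Par.Fn
    rw [if_neg hy0, tsum_eq hU hy.le]

end FUN0

open FUN0 in
theorem FUN0_proof : Fun0Stmt := by
  intro P θ εB hP
  refine ⟨Fn_cont hP, fun x => ?_, fun x => ⟨Fn_nonneg x, ?_⟩, fun x => ?_, Fn_le hP⟩
  · have h3 : nz (x + 1) = nz x := by rw [← nz_add_int x 1]; norm_cast
    have h4 : ∀ u, Par.gc u (x + 1) = Par.gc u x := fun u => by unfold Par.gc; rw [h3]
    unfold Par.Fn
    simp only [h3, h4, gl_per hP]
  · simpa using Fn_le hP x 0
  · unfold Par.Fn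
    split_ifs with h
    · simp [h]
    · simp [h]

end Crest.Agent.R113
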