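import Crest.Agent.R113.DefsE

set_option autoImplicit false

namespace Crest.Agent.R113

open Finset MeasureTheory
open scoped Classical

namespace FUN1

theorem ze_pos (u : ℕ) : 0 < ze u := by
  have : (0 : ℝ) < RR := by norm_num [RR]
  unfold ze; positivity

theorem ze_le (u : ℕ) : ze u ≤ 1 := by
  have : (1 : ℝ) ≤ RR := by norm_num [RR]
  unfold ze
  rw [div_le_one (by positivity)]
  exact one_le_pow₀ this

theorem gc_nonneg (u : ℕ) (x : ℝ) : 0 ≤ Par.gc u x := by
  unfold Par.gc chi
  have : (0 : ℝ) ≤ RR := Nat.cast_nonneg _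
  exact mul_nonneg (by positivity) (le_max_left _ _)

theorem nz_le_abs (x : ℝ) : nz x ≤ |x| := by
  unfold nz
  simpa using round_le x 0

theorem gc_eq (u : ℕ) (x : ℝ) (hx : |x| ≤ ze u / 2) : Par.gc u x = (RR : ℝ) ^ (3 * u + 5) := by
  unfold Par.gc chi
  have h1 : nz x / ze u ≤ 1 / 2 := by
    rw [div_le_iff₀ (ze_pos u)]
    have := nz_le_abs x
    linarith
  rw [min_eq_left (by linarith), max_eq_right (by norm_num), mul_one]

theorem nz_ne (x : ℝ) (h0 : 0 < x) (h1 : x < 1) : nz x ≠ 0 := by
  unfold nz
  intro h
  have h2 : x = round x := by linarith [abs_eq_zero.mp h]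
  have h3 : (0 : ℤ) < round x := by
    have : (0 : ℝ) < (round x : ℤ) := by rw [← h2]; exact h0
    exact_mod_cast this
  have h4 : round x < (1 : ℤ) := by
    have : ((round x : ℤ) : ℝ) < 1 := by rw [← h2]; exact h1
    exact_mod_cast this
  omega

end FUN1

open FUN1 in
theorem FUN1_proof : Fun1Stmt := by
  intro F hc hper hb hz hle
  have hpi : (0 : ℝ) < 2 * Real.pi := by positivity
  have hper' : Function.Periodic (fun t : ℝ => F (t / (2 * Real.pi))) (2 * Real.pi) := by
    intro t
    have : (t + 2 * Real.pi) / (2 * Real.pi) = t / (2 * Real.pi) + 1 := by field_simp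
    simp only [this, hper _]
  let G : Real.Angle → ℝ := hper'.lift
  have hG : ∀ t : ℝ, G (t : Real.Angle) = F (t / (2 * Real.pi)) := fun t => rfl
  have hGc : Continuous G := by
    refine continuous_coinduced_dom.mpr ?_
    exact hc.comp (continuous_id.div_const _)
  have hGb : ∀ a, 0 ≤ G a ∧ G a ≤ 1 := by
    intro a
    induction a using Real.Angle.induction_on with
    | h t => rw [hG]; exact hb _
  let f : ℂ → ℝ := fun z => min ‖z‖ 1 * G (Complex.arg z : Real.Angle)
  have hf1 : ∀ z : ℂ, ‖z‖ = 1 → f z = G (Complex.arg z : Real.Angle) := by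
    intro z hz1
    simp only [f, hz1, min_self, one_mul]
  have hfe : ∀ t : ℝ, f (Complex.exp ((t : ℂ) * Complex.I)) = F (t / (2 * Real.pi)) := by
    intro t
    rw [hf1 _ (Complex.norm_exp_ofReal_mul_I t), ← hG]
    congr 1
    rw [Complex.exp_mul_I]
    exact_mod_cast Complex.arg_cos_add_sin_mul_I_coe_angle (t : Real.Angle)
  refine ⟨f, ?_, ?_, ?_, ?_, ?_⟩
  · rw [continuous_iff_continuousAt]
    intro z
    by_cases h0 : z = 0
    · subst h0
      have hf0 : f 0 = 0 := by simp [f]
      rw [ContinuousAt, hf0]
      refine squeeze_zero (g := fun z : ℂ => ‖z‖) ?_ ?_ ?_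
      · intro z
        exact mul_nonneg (le_min (norm_nonneg _) zero_le_one) (hGb _).1
      · intro z
        calc f z ≤ min ‖z‖ 1 * 1 :=
              mul_le_mul_of_nonneg_left (hGb _).2 (le_min (norm_nonneg _) zero_le_one)
          _ ≤ ‖z‖ := by rw [mul_one]; exact min_le_left _ _
      · simpa using (continuous_norm (E := ℂ)).tendsto 0
    · exact ((continuous_norm.min continuous_const).continuousAt).mul
        (hGc.continuousAt.comp (Complex.continuousAt_arg_coe_angle h0))
  · intro z hz1
    rw [hf1 z hz1]; exact hGb _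
  · intro z hz1
    rw [hf1 z hz1, hG, hz]
    constructor
    · intro h
      unfold nz at h
      have h2 : Complex.arg z / (2 * Real.pi) = round (Complex.arg z / (2 * Real.pi)) := by
        linarith [abs_eq_zero.mp h]
      have h3 : -1 < Complex.arg z / (2 * Real.pi) := by
        rw [lt_div_iff₀ hpi]; linarith [Complex.neg_pi_lt_arg z, Real.pi_pos]
      have h4 : Complex.arg z / (2 * Real.pi) < 1 := by
        rw [div_lt_iff₀ hpi]; linarith [Complex.arg_le_pi z, Real.pi_pos]
      rw [h2] at h3 h4
      have h5 : round (Complex.arg z / (2 * Real.pi)) = 0 := by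
        have h3' : (-1 : ℤ) < round (Complex.arg z / (2 * Real.pi)) := by exact_mod_cast h3
        have h4' : round (Complex.arg z / (2 * Real.pi)) < (1 : ℤ) := by exact_mod_cast h4
        omega
      rw [h5] at h2
      have h6 : Complex.arg z = 0 := by
        have := (div_eq_iff hpi.ne').mp h2
        simpa using this
      have h7 := Complex.norm_mul_exp_arg_mul_I z
      rw [h6, hz1] at h7
      simpa using h7.symm
    · intro h
      subst h
      simp [nz]
  · simp only [hfe]
    set I := ∫⁻ t in Set.Ioc (0 : ℝ) (2 * Real.pi), ENNReal.ofReal (-Real.log (F (t / (2 * Real.pi))))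
      with hI
    have key : ∀ n : ℕ, (n : ENNReal) ≤ I := by
      intro n
      have h1 : ∑ u ∈ range n, ∫⁻ t, (Set.Ioc (0 : ℝ) (Real.pi * ze u)).indicator
          (fun _ => ENNReal.ofReal ((RR : ℝ) ^ (3 * u + 5))) t ≤ I := by
        rw [← lintegral_finsetSum _ (fun u _ => measurable_const.indicator measurableSet_Ioc), hI,
          ← lintegral_indicator measurableSet_Ioc]
        refine lintegral_mono fun t => ?_
        by_cases ht : t ∈ Set.Ioc (0 : ℝ) Real.pi
        · have ht2 : t ∈ Set.Ioc (0 : ℝ) (2 * Real.pi) := ⟨ht.1, by linarith [ht.2, Real.pi_pos]⟩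
          rw [Set.indicator_of_mem ht2]
          have hx0 : 0 < t / (2 * Real.pi) := div_pos ht.1 hpi
          have hx1 : t / (2 * Real.pi) < 1 := by
            rw [div_lt_one hpi]; linarith [ht.2, Real.pi_pos]
          have hF : 0 < F (t / (2 * Real.pi)) :=
            lt_of_le_of_ne (hb _).1 (fun h => nz_ne _ hx0 hx1 ((hz _).mp h.symm))
          have hlog : ∑ u ∈ range n, Par.gc u (t / (2 * Real.pi)) ≤
              -Real.log (F (t / (2 * Real.pi))) := by
            have := Real.log_le_log hF (hle (t / (2 * Real.pi)) n)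
            rw [Real.log_exp] at this
            linarith
          refine le_trans ?_ (ENNReal.ofReal_le_ofReal hlog)
          rw [ENNReal.ofReal_sum_of_nonneg (fun u _ => gc_nonneg u _)]
          refine Finset.sum_le_sum fun u _ => ?_
          by_cases hu : t ∈ Set.Ioc (0 : ℝ) (Real.pi * ze u)
          · rw [Set.indicator_of_mem hu, gc_eq]
            rw [abs_of_pos hx0, div_le_iff₀ hpi]
            linarith [hu.2]
          · rw [Set.indicator_of_notMem hu]; exact zero_le
        · refine le_trans (le_of_eq ?_) zero_le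
          refine Finset.sum_eq_zero fun u _ => ?_
          refine Set.indicator_of_notMem (fun hu => ht ⟨hu.1, ?_⟩) _
          have := ze_le u
          nlinarith [hu.2, Real.pi_pos]
      refine le_trans ?_ h1
      have h2 : ∀ u ∈ range n, (1 : ENNReal) ≤ ∫⁻ t, (Set.Ioc (0 : ℝ) (Real.pi * ze u)).indicator
          (fun _ => ENNReal.ofReal ((RR : ℝ) ^ (3 * u + 5))) t := by
        intro u _
        have hR : (0 : ℝ) < RR := by norm_num [RR]
        rw [lintegral_indicator_const measurableSet_Ioc, Real.volume_Ioc,
          ← ENNReal.ofReal_mul (by positivity), ← ENNReal.ofReal_one]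
        refine ENNReal.ofReal_le_ofReal ?_
        have : (RR : ℝ) ^ (3 * u + 5) * (Real.pi * ze u - 0) = Real.pi := by
          unfold ze; field_simp; simp
        rw [this]
        linarith [Real.pi_gt_three]
      calc (n : ENNReal) = ∑ _u ∈ range n, (1 : ENNReal) := by simp
        _ ≤ _ := Finset.sum_le_sum h2
    rw [eq_top_iff, ← ENNReal.iSup_natCast]
    exact iSup_le key
  · intro x
    have : ee x = Complex.exp (((2 * Real.pi * x : ℝ) : ℂ) * Complex.I) := by
      unfold ee; congr 1; push_cast; ring
    rw [this, hfe]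
    congr 1
    field_simp

end Crest.Agent.R113
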