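import Crest.Agent.R113.DefsE

set_option autoImplicit false

namespace Crest.Agent.R113

open Finset

namespace FUN2

lemma RR_ge : 2 ≤ RR := by norm_num [RR]

lemma RR_one : (1 : ℝ) ≤ RR := by exact_mod_cast (le_trans (by norm_num) RR_ge : 1 ≤ RR)

lemma RR_pos : (0 : ℝ) < RR := lt_of_lt_of_le one_pos RR_one

lemma VV_pos : 0 < VV := by unfold VV; positivity

lemma ze_pos (u : ℕ) : 0 < ze u := by
  have := RR_pos
  unfold ze; positivity

lemma ze_anti {u i : ℕ} (h : u ≤ i) : ze i ≤ ze u := by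
  have := RR_pos
  unfold ze
  exact one_div_le_one_div_of_le (by positivity) (pow_le_pow_right₀ RR_one (by omega))

lemma ze_small {c : ℝ} (hc : 0 < c) : ∃ u, ze u ≤ c := by
  have h2 : (1 : ℝ) < RR := by exact_mod_cast (lt_of_lt_of_le (by norm_num) RR_ge : 1 < RR)
  obtain ⟨n, hn⟩ := pow_unbounded_of_one_lt (1 / c) h2
  refine ⟨n, ?_⟩
  unfold ze
  rw [one_div_le (by have := RR_pos; positivity) hc]
  exact hn.le.trans (pow_le_pow_right₀ RR_one (by omega))

lemma ll_pos (u : ℕ) : 0 < ll u := by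
  have := RR_ge
  unfold ll; positivity

lemma two_pow_le_ll (u : ℕ) : 2 ^ u ≤ ll u := Nat.pow_le_pow_left RR_ge u

lemma two_ll_le (u : ℕ) : 2 * ll u ≤ rg u := by
  have h := RR_ge
  unfold ll rg
  calc 2 * RR ^ u ≤ RR * RR ^ u := Nat.mul_le_mul_right _ h
    _ = RR ^ (u + 1) := by ring
    _ ≤ RR ^ (2 * u + 4) := Nat.pow_le_pow_right (by omega) (by omega)

lemma rg_pos (u : ℕ) : 0 < rg u := by
  have := two_ll_le u
  have := ll_pos u
  omega

lemma nz_nonneg (x : ℝ) : 0 ≤ nz x := abs_nonneg _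

lemma nz_le (x : ℝ) (z : ℤ) : nz x ≤ |x - z| := round_le x z

lemma chi_nonneg (t : ℝ) : 0 ≤ chi t := le_max_left _ _

lemma chi_le (t : ℝ) : chi t ≤ 1 := max_le zero_le_one (min_le_left _ _)

lemma chi_zero {t : ℝ} (h : 1 ≤ t) : chi t = 0 :=
  max_eq_left ((min_le_right _ _).trans (by linarith))

lemma chi_one {t : ℝ} (h : t ≤ 1 / 2) : chi t = 1 := by
  unfold chi
  rw [min_eq_left (by linarith), max_eq_right zero_le_one]

lemma gc_nonneg (u : ℕ) (x : ℝ) : 0 ≤ Par.gc u x := by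
  have := RR_pos
  exact mul_nonneg (by positivity) (chi_nonneg _)

lemma gc_le (u : ℕ) (x : ℝ) : Par.gc u x ≤ (RR : ℝ) ^ (3 * u + 5) := by
  have := RR_pos
  exact mul_le_of_le_one_right (by positivity) (chi_le _)

lemma gc_zero {u i : ℕ} {x : ℝ} (h : ze u ≤ nz x) (hi : u ≤ i) : Par.gc i x = 0 := by
  unfold Par.gc
  rw [chi_zero, mul_zero]
  rw [le_div_iff₀ (ze_pos i), one_mul]
  exact (ze_anti hi).trans h

variable {P : Par} {θ : ℝ} {εB : ℕ → ℝ → ℝ}

lemma nlog_nonneg (ok : P.Ok θ εB) (u t : ℕ) : 0 ≤ -Real.log (P.d u t) :=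
  neg_nonneg.2 (Real.log_nonpos (ok.dp u t).1.le (ok.dp u t).2)

lemma gl_nonneg (ok : P.Ok θ εB) (u : ℕ) (x : ℝ) : 0 ≤ P.gl u x := by
  unfold Par.gl
  split_ifs
  · refine mul_nonneg (mul_nonneg (nlog_nonneg ok _ _) (le_min zero_le_one ?_)) (chi_nonneg _)
    have := nz_nonneg (P.M u * x)
    have := ze_pos u
    positivity
  · exact le_rfl

lemma gl_le (ok : P.Ok θ εB) (u : ℕ) (x : ℝ) :
    P.gl u x ≤ -Real.log (P.d u (P.s u (P.st x u / ll u))) := by
  have h0 := nlog_nonneg ok u (P.s u (P.st x u / ll u))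
  unfold Par.gl
  split_ifs
  · have h1 : 0 ≤ min 1 (2 * nz (P.M u * x) / ze u) := by
      refine le_min zero_le_one ?_
      have := nz_nonneg (P.M u * x)
      have := ze_pos u
      positivity
    calc _ ≤ -Real.log (P.d u (P.s u (P.st x u / ll u))) * min 1 (2 * nz (P.M u * x) / ze u) :=
          mul_le_of_le_one_right (mul_nonneg h0 h1) (chi_le _)
      _ ≤ _ := mul_le_of_le_one_right h0 (min_le_left _ _)
  · exact h0

lemma gl_le' (ok : P.Ok θ εB) (u : ℕ) (x : ℝ) : P.gl u x ≤ -Real.log (P.d u (VV - 1)) := by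
  refine (gl_le ok u x).trans (neg_le_neg (Real.log_le_log (ok.dp _ _).1 (ok.danti u ?_)))
  have := (ok.pat u).1 (P.st x u / ll u)
  omega

lemma gl_zero (ok : P.Ok θ εB) {top i : ℕ} {x : ℝ} (h : P.r top ≤ nz x) (hi : top ≤ i) :
    P.gl i x = 0 := by
  unfold Par.gl
  split_ifs
  · rw [chi_zero, mul_zero]
    rw [le_div_iff₀ (ok.vis.1 i).2.2.1, one_mul]
    exact (ok.vis.2.1 hi).trans h
  · rfl

lemma gl_zero' {i : ℕ} {x : ℝ} (h : (P.ω i : ℤ) ≤ P.st x i % ll i) : P.gl i x = 0 := by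
  unfold Par.gl
  rw [if_neg (not_lt.2 h)]

lemma lam_le (ok : P.Ok θ εB) (x : ℝ) (u : ℕ) :
    P.lam u ≤ Real.exp (-∑ i ∈ range u, (P.gl i x + Par.gc i x)) := by
  induction u with
  | zero => simp [ok.lam0]
  | succ u ih =>
    rw [ok.lams, Finset.sum_range_succ, neg_add, Real.exp_add, mul_assoc]
    refine mul_le_mul ih ?_ (mul_nonneg (ok.dp _ _).1.le (Real.exp_pos _).le) (Real.exp_pos _).le
    rw [← Real.exp_log (ok.dp u (VV - 1)).1, ← Real.exp_add]
    refine Real.exp_le_exp.2 ?_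
    have := gl_le' ok u x
    have := gc_le u x
    linarith

lemma key (ok : P.Ok θ εB) (top u : ℕ) (x : ℝ) (h : max (ze u) (P.r top) ≤ nz x)
    (hi : ∀ i, u < i → i < top → (P.ω i : ℤ) ≤ P.st x i % ll i) :
    P.lam u * Real.exp (-P.gl u x) ≤ P.Fn x := by
  have h1 : ze u ≤ nz x := (le_max_left _ _).trans h
  have h2 : P.r top ≤ nz x := (le_max_right _ _).trans h
  have h3 : nz x ≠ 0 := ((ze_pos u).trans_le h1).ne'
  unfold Par.Fn
  rw [if_neg h3, tsum_eq_sum (s := range (u + 1)), Finset.sum_range_succ, gc_zero h1 le_rfl,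
    add_zero, neg_add, Real.exp_add]
  · exact mul_le_mul_of_nonneg_right (lam_le ok x u) (Real.exp_pos _).le
  · intro i hi'
    rw [Finset.mem_range, not_lt] at hi'
    rw [gc_zero h1 (by omega), add_zero]
    by_cases hit : i < top
    · exact gl_zero' (hi i (by omega) hit)
    · exact gl_zero ok h2 (not_lt.1 hit)

lemma summ (ok : P.Ok θ εB) {x : ℝ} (hx : nz x ≠ 0) : Summable (fun u => P.gl u x + Par.gc u x) := by
  have h0 : 0 < nz x := lt_of_le_of_ne (nz_nonneg x) hx.symm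
  obtain ⟨u, hu⟩ := ze_small h0
  obtain ⟨top, ht⟩ := ((ok.vis.2.2.eventually (ge_mem_nhds h0)).exists)
  refine summable_of_ne_finset_zero (s := range (u + top)) ?_
  intro i hi
  rw [Finset.mem_range, not_lt] at hi
  rw [gc_zero hu (by omega), gl_zero ok ht (by omega), add_zero]

lemma fn_nonneg (x : ℝ) : 0 ≤ P.Fn x := by
  unfold Par.Fn
  split_ifs
  · exact le_rfl
  · exact (Real.exp_pos _).le

lemma fn_le_one (ok : P.Ok θ εB) (x : ℝ) : P.Fn x ≤ 1 := by
  unfold Par.Fn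
  split_ifs
  · exact zero_le_one
  · rw [Real.exp_le_one_iff, neg_nonpos]
    exact tsum_nonneg fun u => add_nonneg (gl_nonneg ok u x) (gc_nonneg u x)

lemma dip (ok : P.Ok θ εB) (u : ℕ) (x : ℝ) (h1 : P.st x u % ll u < P.ω u)
    (h2 : ze u / 2 ≤ nz (P.M u * x)) (h3 : nz x ≤ P.r u / 2) :
    P.Fn x ≤ P.d u (P.s u (P.st x u / ll u)) := by
  unfold Par.Fn
  split_ifs with hx
  · exact (ok.dp _ _).1.le
  · have h4 := (summ ok hx).le_tsum u
      (fun i _ => add_nonneg (gl_nonneg ok i x) (gc_nonneg i x))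
    have h5 : P.gl u x = -Real.log (P.d u (P.s u (P.st x u / ll u))) := by
      unfold Par.gl
      rw [if_pos h1, chi_one, min_eq_left, mul_one, mul_one]
      · rw [le_div_iff₀ (ze_pos u)]; linarith
      · rw [div_le_iff₀ (ok.vis.1 u).2.2.1]; linarith
    rw [← Real.exp_log (ok.dp u (P.s u (P.st x u / ll u))).1]
    refine Real.exp_le_exp.2 ?_
    have := gc_nonneg u x
    linarith

lemma coh (ok : P.Ok θ εB) (u : ℕ) (x : ℝ) (n : ℤ) (hr : P.reg u x) (hn : |n| ≤ rg u) :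
    (P.Q u : ℤ) ∣ P.st (x + θ * n) u - (P.st x u + n) ∧ ze u / 2 ≤ nz (P.M u * (x + θ * n)) := by
  obtain ⟨k, hk⟩ := ok.app u
  have hz := ze_pos u
  have hrg : (0 : ℝ) < rg u := by exact_mod_cast rg_pos u
  set e : ℝ := (P.M u : ℝ) * θ - P.Q u * k - 1 with he
  set y : ℝ := (P.M u : ℝ) * x with hy
  have hn' : |(n : ℝ)| ≤ rg u := by exact_mod_cast hn
  have hne : |(n : ℝ) * e| ≤ ze u / 2 := by
    rw [abs_mul]
    calc |(n : ℝ)| * |e| ≤ rg u * (ze u / (2 * rg u)) := by gcongr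
      _ = ze u / 2 := by field_simp
  have h1 : (P.M u : ℝ) * (x + θ * n) = (y + n * e) + ((n * (P.Q u * k + 1) : ℤ) : ℝ) := by
    rw [he, hy]; push_cast; ring
  have hr' : ze u ≤ nz y := hr
  have a1 := nz_le y ⌊y⌋
  have a2 := nz_le y (⌊y⌋ + 1)
  have b1 := Int.floor_le y
  have b2 := Int.lt_floor_add_one y
  rw [abs_of_nonneg (by linarith)] at a1
  rw [abs_of_nonpos (by push_cast; linarith)] at a2
  push_cast at a2
  obtain ⟨c1, c2⟩ := abs_le.1 hne
  have h2 : ⌊y + n * e⌋ = ⌊y⌋ := by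
    rw [Int.floor_eq_iff]
    constructor <;> linarith
  constructor
  · unfold Par.st
    rw [h1, Int.floor_add_intCast, h2, ← hy]
    exact ⟨n * k, by ring⟩
  · rw [h1]
    unfold nz
    set m : ℤ := n * (P.Q u * k + 1) with hm
    set ρ : ℤ := round (y + n * e + m) with hρ
    have a3 := nz_le y (ρ - m)
    push_cast at a3
    have a4 : |y - (ρ - m)| ≤ |y + n * e + m - ρ| + |(n : ℝ) * e| := by
      have : y - (ρ - m) = (y + n * e + m - ρ) - n * e := by ring
      rw [this]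
      exact abs_sub _ _
    linarith

lemma zone (ok : P.Ok θ εB) (u n : ℕ) (x : ℝ) (hr : P.reg u x)
    (hn : dst u (P.st x u) + P.ω u ≤ n) :
    ∏ i ∈ range n, P.Fn (x + θ * i) ≤ P.d u (P.sym u (P.st x)) := by
  have hl : (0 : ℤ) < ll u := by exact_mod_cast ll_pos u
  set z := P.st x u with hz
  have m1 := Int.emod_nonneg z hl.ne'
  have m2 := Int.emod_lt_of_pos z hl
  have m3 := Int.mul_ediv_add_emod z (ll u)
  obtain ⟨D, hD⟩ : ∃ D : ℕ, (D : ℤ) = dst u z := ⟨(dst u z).toNat, Int.toNat_of_nonneg (by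
    unfold dst; omega)⟩
  obtain ⟨_, w1, _, w2⟩ := ok.vis.1 u
  obtain ⟨n₀, hn₀, hv⟩ := w2 (x + θ * D)
  have w3 : P.ω u ≤ ll u := w1.trans (two_pow_le_ll u)
  have w4 := two_ll_le u
  have hD' : (D : ℤ) = ll u - z % ll u := hD
  have hi : D + n₀ < n := by omega
  obtain ⟨⟨q, hq⟩, hc⟩ := coh ok u x ((D + n₀ : ℕ) : ℤ) hr (by
    rw [abs_of_nonneg (by positivity)]; omega)
  rw [Int.cast_natCast] at hq hc
  have hst : P.st (x + θ * ((D + n₀ : ℕ) : ℝ)) u = n₀ + ll u * (z / ll u + 1 + P.p u * q) := by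
    have : (P.Q u : ℤ) = ll u * P.p u := by unfold Par.Q; push_cast; ring
    rw [this, ← hz] at hq
    push_cast at hq ⊢
    linear_combination hq + hD' - m3
  have hmod : P.st (x + θ * ((D + n₀ : ℕ) : ℝ)) u % ll u = n₀ := by
    rw [hst, Int.add_mul_emod_self_left, Int.emod_eq_of_lt (by positivity) (by omega)]
  have hdiv : P.st (x + θ * ((D + n₀ : ℕ) : ℝ)) u / ll u = z / ll u + 1 + P.p u * q := by
    rw [hst, Int.add_mul_ediv_left _ _ hl.ne', Int.ediv_eq_zero_of_lt (by positivity) (by omega),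
      zero_add]
  have hper : Function.Periodic (P.s u) (P.p u : ℤ) := (ok.pat u).2.1
  have hd := dip ok u (x + θ * ((D + n₀ : ℕ) : ℝ)) (by rw [hmod]; exact_mod_cast hn₀) hc (by
    have : x + θ * ((D + n₀ : ℕ) : ℝ) = x + θ * D + θ * n₀ := by push_cast; ring
    rw [this]; exact hv)
  have hs : P.s u (z / ll u + 1 + P.p u * q) = P.s u (z / ll u + 1) := by
    have := hper.int_mul q (z / ll u + 1)
    rw [mul_comm (P.p u : ℤ) q]
    simpa using this
  rw [hdiv, hs] at hd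
  rw [← Finset.mul_prod_erase (range n) (fun i : ℕ => P.Fn (x + θ * i)) (Finset.mem_range.2 hi)]
  refine le_trans (mul_le_of_le_one_right (fn_nonneg _) ?_) hd
  exact Finset.prod_le_one (fun i _ => fn_nonneg _) (fun i _ => fn_le_one ok _)

lemma sg_pow (N' N n : ℕ) (j : Ix N' N) (h : j.2.val + n < N) :
    ((sg N' N ^ n) j).1 = j.1 ∧ ((sg N' N ^ n) j).2.val = j.2.val + n := by
  induction n with
  | zero => simp
  | succ n ih =>
    obtain ⟨h1, h2⟩ := ih (by omega)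
    rw [pow_succ', Equiv.Perm.mul_apply]
    generalize (sg N' N ^ n) j = k at h1 h2
    obtain ⟨m, rfl⟩ : ∃ m, N = m + 1 := ⟨N - 1, by omega⟩
    refine ⟨h1, ?_⟩
    have : (sg N' (m + 1) k).2 = finRotate (m + 1) k.2 := rfl
    rw [this, coe_finRotate_of_ne_last, h2, add_assoc]
    intro hk
    have := congrArg Fin.val hk
    rw [Fin.val_last] at this
    omega

end FUN2

open FUN2 in
theorem FUN2_proof : Fun2Stmt := by
  refine ⟨fun P θ εB ok => ⟨?_, ?_, dip ok, coh ok, zone ok⟩, ?_⟩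
  · intro top u x h hi
    have h1 := key ok top u x h (fun i a b => hi i a.le b)
    have h2 : P.gl u x = 0 := by
      by_cases hu : u < top
      · exact gl_zero' (hi u le_rfl hu)
      · exact gl_zero ok ((le_max_right _ _).trans h) (not_lt.1 hu)
    rwa [h2, neg_zero, Real.exp_zero, mul_one] at h1
  · intro top u x h hi
    refine le_trans (mul_le_mul_of_nonneg_left ?_ (ok.lamp u).1.le) (key ok top u x h hi)
    rw [← Real.exp_log (ok.dp u (P.s u (P.st x u / ll u))).1]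
    refine Real.exp_le_exp.2 ?_
    have := gl_le ok u x
    linarith
  · intro θ N' N n j h
    obtain ⟨h1, h2⟩ := sg_pow N' N n j h
    refine ⟨h1, h2, ?_⟩
    unfold pos
    rw [h1, h2]
    push_cast
    ring

end Crest.Agent.R113
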