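import Crest.Agent.R113.DefsE

/-!
Row 113 (S0149), task GA: the events `G1`, `G2` are likely.
-/

set_option autoImplicit false

namespace Crest.Agent.R113

open Finset
open scoped Classical

namespace GA

lemma ind_nonneg (q : Prop) : 0 ≤ ind q := by
  unfold ind; split_ifs <;> norm_num

lemma ind_true {q : Prop} (h : q) : ind q = 1 := by
  unfold ind; rw [if_pos h]

lemma ind_le {q : Prop} {c : ℝ} (h0 : 0 ≤ c) (h1 : q → 1 ≤ c) : ind q ≤ c := by
  unfold ind; split_ifs with h
  · exact h1 h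
  · exact h0

lemma ll_pos (u : ℕ) : 0 < ll u := by
  unfold ll RR; positivity

lemma ll_cast (u : ℕ) : (ll u : ℝ) = (RR : ℝ) ^ u := by
  unfold ll; push_cast; rfl

lemma RR_val : (RR : ℝ) = 2 ^ 25 := by
  unfold RR; norm_num

lemma depW (a : ℕ) (c : ℤ) : Dep (fun z => ind (z a % ll a = c)) (Set.Iic a) := by
  intro z z' h
  simp only
  rw [h a (Set.mem_Iic.2 le_rfl)]

lemma itf_congr {a top u : ℕ} (hu : a ≤ u) {z z' : Sta} (h : ∀ i ∈ (Set.Iic a)ᶜ, z i = z' i) :
    Itf top u z ↔ Itf top u z' := by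
  unfold Itf
  refine exists_congr fun i => and_congr_right fun hi => ?_
  rw [h i (by simp only [Set.mem_compl_iff, Set.mem_Iic]; omega)]

lemma geo (q : ℝ) (h0 : 0 < q) (h1 : q ≤ 1 / 2) (a top : ℕ) :
    ∑ i ∈ Ico (a + 1) top, q ^ (i - a) ≤ 2 * q := by
  have h2 : ∑ i ∈ Ico (a + 1) top, q ^ (i - a) = (∑ i ∈ Ico (a + 1) top, q ^ i) / q ^ a := by
    rw [sum_div]
    refine sum_congr rfl fun i hi => ?_
    have := (mem_Ico.1 hi).1
    rw [eq_div_iff (by positivity), ← pow_add]
    congr 1; omega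
  have h3 := geom_sum_Ico_le_of_lt_one (m := a + 1) (n := top) h0.le (by linarith : q < 1)
  rw [h2, div_le_iff₀ (by positivity)]
  refine h3.trans ?_
  rw [div_le_iff₀ (by linarith), pow_succ]
  have : 0 < q ^ a * q := by positivity
  nlinarith

lemma card_Sx (a x : ℕ) : (Sx a x).card = x - x / 2 + 1 := by
  unfold Sx; rw [Nat.card_Icc]; omega

lemma pow_Sx (a x : ℕ) : (2 * (1 / 64 : ℝ)) ^ (Sx a x).card ≤ 1 / 32 * (1 / 5) ^ x := by
  rw [card_Sx, pow_succ, show (2 * (1 / 64 : ℝ)) = 1 / 32 by norm_num, mul_comm]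
  gcongr
  calc (1 / 32 : ℝ) ^ (x - x / 2) ≤ ((1 / 5) ^ 2) ^ (x - x / 2) := by
        gcongr; norm_num
    _ = (1 / 5) ^ (2 * (x - x / 2)) := by rw [← pow_mul]
    _ ≤ (1 / 5) ^ x := pow_le_pow_of_le_one (by norm_num) (by norm_num) (by omega)

end GA

open GA in
theorem GA_proof (hExp : ExpStmt) (hInt : IntStmt) : GaStmt := by
  intro P θ εB hP a top xm ha
  have hp : ∀ u, 0 < P.p u := fun u =>
    lt_of_lt_of_le (by unfold RR; positivity) (hP.pge u)
  have hQ : ∀ u, 0 < P.Q u := fun u => Nat.mul_pos (ll_pos u) (hp u)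
  obtain ⟨hE1, hE2, hE3, -, -, hE6⟩ := hExp P.Q top hQ
  obtain ⟨hI1, -, hI3⟩ := hInt P top hp
  have hmono : ∀ F G : Sta → ℝ, (∀ z, F z ≤ G z) → Ex P.Q top F ≤ Ex P.Q top G :=
    fun F G => (hE1 F G 0).2.2.2.1
  have hnn : ∀ F : Sta → ℝ, (∀ z, 0 ≤ F z) → 0 ≤ Ex P.Q top F := fun F hF => by
    have := hmono (fun _ => 0) F hF
    rwa [(hE1 F F 0).2.2.1] at this
  have hl : ∀ u, (0 : ℝ) < ll u := fun u => by exact_mod_cast ll_pos u
  have hW : Ex P.Q top (fun z => ind (z a % ll a = P.ω a)) ≤ 1 / ll a := by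
    have := hI1 a ha 0 (P.ω a) 1
    rw [Nat.cast_one (R := ℝ)] at this
    refine le_trans (hmono _ _ fun z => ind_le (ind_nonneg _) fun h => (ind_true ?_).ge) this
    rw [add_zero, h]
    exact ⟨le_rfl, by push_cast; linarith⟩
  have hind : ∀ (G : Sta → ℝ) (c : ℝ), (∀ z, 0 ≤ G z) → Dep G (Set.Iic a)ᶜ → Ex P.Q top G ≤ c →
      Ex P.Q top (fun z => ind (z a % ll a = P.ω a) * G z) ≤ 1 / ll a * c := by
    intro G c h0 hd hc
    rw [hE3 _ G _ (depW a (P.ω a)) hd]
    exact mul_le_mul hW hc (hnn G h0) (by have := hl a; positivity)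
  have hq0 : (0 : ℝ) < 2 / RR := by rw [RR_val]; norm_num
  constructor
  · rw [show (1 : ℝ) / (100 * ll a) = 1 / ll a * (1 / 100) by have := hl a; field_simp]
    refine hind _ _ (fun z => ind_nonneg _) ?_ ?_
    · intro z z' h
      simp only
      congr 2
      unfold Par.G1
      refine propext (forall_congr' fun i => forall_congr' fun hi => ?_)
      rw [h i (by simp only [Set.mem_compl_iff, Set.mem_Iic]; omega)]
    · set I : ℕ → ℤ → ℕ → Sta → ℝ := fun i lo m z =>
        ind (lo ≤ (z i + 0) % ll i ∧ (z i + 0) % ll i < lo + m) with hI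
      have hI0 : ∀ i lo m z, 0 ≤ I i lo m z := fun _ _ _ _ => ind_nonneg _
      have hb : ∀ z, ind (¬ P.G1 a top z) ≤ ∑ i ∈ Ico (a + 1) top,
          ((I i 0 (P.ω i) z + I i (ll i - ll a) (ll a) z) +
            ∑ u ∈ Ico a i, I i (ll i - ll u - ll a) (ll a) z) := by
        intro z
        have hs : ∀ i, 0 ≤ ∑ u ∈ Ico a i, I i (ll i - ll u - ll a) (ll a) z :=
          fun i => sum_nonneg fun _ _ => hI0 _ _ _ _
        have ht : ∀ i ∈ Ico (a + 1) top, 0 ≤ ((I i 0 (P.ω i) z + I i (ll i - ll a) (ll a) z) +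
            ∑ u ∈ Ico a i, I i (ll i - ll u - ll a) (ll a) z) :=
          fun i _ => add_nonneg (add_nonneg (hI0 _ _ _ _) (hI0 _ _ _ _)) (hs i)
        refine ind_le (sum_nonneg ht) fun h => ?_
        unfold Par.G1 at h
        obtain ⟨i, h⟩ := not_forall.1 h
        obtain ⟨h1, h⟩ := Classical.not_imp.1 h
        obtain ⟨h2, h⟩ := Classical.not_imp.1 h
        refine le_trans ?_ (single_le_sum ht (mem_Ico.2 ⟨h1, h2⟩))
        have hli : (0 : ℤ) < ll i := by exact_mod_cast ll_pos i
        have e0 := Int.emod_nonneg (z i) hli.ne'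
        have e1 := Int.emod_lt_of_pos (z i) hli
        have n1 := hI0 i 0 (P.ω i) z
        have n2 := hI0 i (ll i - ll a) (ll a) z
        have n3 := hs i
        by_cases c1 : (P.ω i : ℤ) ≤ z i % ll i
        · by_cases c2 : (ll a : ℤ) < dst i (z i)
          · have h' : ∃ u, a ≤ u ∧ u < i ∧ (ll u : ℤ) < dst i (z i) ∧ dst i (z i) ≤ ll u + ll a := by
              by_contra hc
              exact h ⟨c1, c2, fun u hu1 hu2 hu3 => hc ⟨u, hu1, hu2, hu3⟩⟩
            obtain ⟨u, hu1, hu2, hu3, hu4⟩ := h'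
            have : I i (ll i - ll u - ll a) (ll a) z = 1 := by
              refine ind_true ?_
              unfold dst at hu3 hu4
              rw [add_zero]
              constructor <;> linarith
            have h5 := single_le_sum (f := fun u => I i (ll i - ll u - ll a) (ll a) z)
              (fun u _ => hI0 _ _ _ _) (mem_Ico.2 ⟨hu1, hu2⟩)
            linarith
          · have : I i (ll i - ll a) (ll a) z = 1 := by
              refine ind_true ?_
              unfold dst at c2
              rw [add_zero]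
              constructor <;> linarith
            linarith
        · have : I i 0 (P.ω i) z = 1 := by
            refine ind_true ?_
            rw [add_zero]
            constructor <;> linarith
          linarith
      refine (hmono _ _ hb).trans ?_
      rw [hE2]
      refine le_trans (sum_le_sum (g := fun i => 2 * (2 / (RR : ℝ)) ^ (i - a)) fun i hi => ?_) ?_
      · obtain ⟨h1, h2⟩ := mem_Ico.1 hi
        rw [(hE1 (fun z => I i 0 (P.ω i) z + I i (ll i - ll a) (ll a) z) _ 0).1,
          (hE1 (fun z => I i 0 (P.ω i) z) _ 0).1, hE2]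
        have b1 : Ex P.Q top (fun z => I i 0 (P.ω i) z) ≤ (P.ω i : ℝ) / ll i := hI1 i h2 0 0 _
        have b2 : Ex P.Q top (fun z => I i (ll i - ll a) (ll a) z) ≤ (ll a : ℝ) / ll i :=
          hI1 i h2 0 _ _
        have b3 : ∑ u ∈ Ico a i, Ex P.Q top (I i (ll i - ll u - ll a) (ll a)) ≤
            ∑ u ∈ Ico a i, (ll a : ℝ) / ll i := sum_le_sum fun u _ => hI1 i h2 0 _ _
        rw [sum_const, Nat.card_Ico, nsmul_eq_mul] at b3
        obtain ⟨s, rfl⟩ : ∃ s, i = a + s := ⟨i - a, by omega⟩
        rw [Nat.add_sub_cancel_left] at b3 ⊢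
        have hR : (0 : ℝ) < RR := by rw [RR_val]; norm_num
        have c1 : (P.ω (a + s) : ℝ) / ll (a + s) ≤ (2 / (RR : ℝ)) ^ s := by
          have h3 : (P.ω (a + s) : ℝ) ≤ 2 ^ (a + s) := by exact_mod_cast (hP.vis.1 (a + s)).2.1
          calc (P.ω (a + s) : ℝ) / ll (a + s) ≤ 2 ^ (a + s) / ll (a + s) := by
                have := hl (a + s); gcongr
            _ = (2 / (RR : ℝ)) ^ (a + s) := by rw [ll_cast, div_pow]
            _ ≤ (2 / (RR : ℝ)) ^ s :=
                pow_le_pow_of_le_one hq0.le (by rw [RR_val]; norm_num) (by omega)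
        have c2 : (ll a : ℝ) / ll (a + s) = 1 / (RR : ℝ) ^ s := by
          rw [ll_cast, ll_cast, pow_add]; field_simp
        have c3 : ((s : ℝ) + 1) * (1 / (RR : ℝ) ^ s) ≤ (2 / (RR : ℝ)) ^ s := by
          have h3 : (s : ℝ) + 1 ≤ 2 ^ s := by exact_mod_cast Nat.lt_two_pow_self
          rw [div_pow, mul_one_div]
          gcongr
        rw [c2] at b2 b3
        linarith
      · rw [← mul_sum]
        have := geo (2 / RR) hq0 (by rw [RR_val]; norm_num) a top
        have h2 : (2 : ℝ) / RR ≤ 1 / 400 := by rw [RR_val]; norm_num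
        linarith
  · have hb : ∀ z : Sta, ind (z a % ll a = P.ω a) * ind (¬ G2 a top xm z) ≤ ∑ x ∈ range xm,
        ind (z a % ll a = P.ω a) *
          ind ((Sx a x).card ≤ 4 * ((Sx a x).filter (fun u => Itf top u z)).card) := by
      intro z
      rw [← mul_sum]
      refine mul_le_mul_of_nonneg_left (ind_le (sum_nonneg fun _ _ => ind_nonneg _) fun h => ?_)
        (ind_nonneg _)
      unfold G2 at h
      obtain ⟨x, h⟩ := not_forall.1 h
      obtain ⟨h1, h⟩ := Classical.not_imp.1 h
      refine le_trans ?_ (single_le_sum (f := fun x => ind ((Sx a x).card ≤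
        4 * ((Sx a x).filter (fun u => Itf top u z)).card)) (fun _ _ => ind_nonneg _)
        (mem_range.2 h1))
      exact (ind_true (not_lt.1 h)).ge
    refine (hmono _ _ hb).trans ?_
    rw [hE2]
    refine le_trans (sum_le_sum (g := fun x => 1 / (ll a : ℝ) * (1 / 32 * (1 / 5) ^ x))
      fun x _ => ?_) ?_
    · refine le_trans (hE6 (fun z => ind (z a % ll a = P.ω a)) (fun u z => Itf top u z) (Sx a x)
        (1 / 64) (1 / ll a) (by norm_num) (fun _ => ind_nonneg _) fun S' hS' => ?_) ?_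
      · refine hind _ _ (fun z => ind_nonneg _) ?_ ?_
        · intro z z' h
          simp only
          congr 1
          refine propext (forall_congr' fun u => forall_congr' fun hu => itf_congr ?_ h)
          have := (mem_Icc.1 (hS' hu)).1
          omega
        · rw [show ((1 : ℝ) / 64) ^ 4 = 2 / RR by rw [RR_val]; norm_num]
          exact hI3 S'
      · exact mul_le_mul_of_nonneg_left (pow_Sx a x) (by have := hl a; positivity)
    · rw [← mul_sum, ← mul_sum, show (1 : ℝ) / (20 * ll a) = 1 / ll a * (1 / 20) by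
        have := hl a; field_simp]
      refine mul_le_mul_of_nonneg_left ?_ (by have := hl a; positivity)
      have := geom_sum_Ico_le_of_lt_one (m := 0) (n := xm) (x := (1 / 5 : ℝ)) (by norm_num)
        (by norm_num)
      rw [range_eq_Ico]
      norm_num at this ⊢
      linarith

end Crest.Agent.R113
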