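import Crest.Agent.R113.DefsE

/-! Row 113, task GB: few coincidences of symbols. -/

set_option autoImplicit false

namespace Crest.Agent.R113

open Finset
open scoped Classical

namespace GB

theorem ind_nonneg (q : Prop) : 0 ≤ ind q := by
  unfold ind; split_ifs <;> norm_num

theorem ind_le_one (q : Prop) : ind q ≤ 1 := by
  unfold ind; split_ifs <;> norm_num

theorem ind_pos {q : Prop} (h : q) : ind q = 1 := by
  unfold ind; rw [if_pos h]

theorem ind_neg {q : Prop} (h : ¬ q) : ind q = 0 := by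
  unfold ind; rw [if_neg h]

theorem RR_pos : 0 < RR := by unfold RR; positivity

theorem ll_pos (u : ℕ) : 0 < ll u := by unfold ll; exact pow_pos RR_pos u

/-- splitting a sum over `range (l p)` -/
theorem sum_split (l : ℕ) (hl : 0 < l) (φ ψ : ℤ → ℝ) (p : ℕ) :
    ∑ y ∈ range (l * p), φ ((y : ℤ) % l) * ψ ((y : ℤ) / l) =
      (∑ r ∈ range l, φ r) * ∑ b ∈ range p, ψ b := by
  induction p with
  | zero => simp
  | succ p ih =>
    rw [Nat.mul_succ, Finset.sum_range_add, ih, Finset.sum_range_succ, mul_add, Finset.sum_mul]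
    congr 1
    rw [Finset.sum_mul]
    refine Finset.sum_congr rfl fun r hr => ?_
    have hr' : r < l := Finset.mem_range.mp hr
    have hl' : (l : ℤ) ≠ 0 := by exact_mod_cast hl.ne'
    have h1 : ((l * p + r : ℕ) : ℤ) % l = r := by
      push_cast
      rw [add_comm, Int.add_mul_emod_self_left]
      exact Int.emod_eq_of_lt (by positivity) (by exact_mod_cast hr')
    have h2 : ((l * p + r : ℕ) : ℤ) / l = p := by
      push_cast
      rw [add_comm, Int.add_mul_ediv_left _ _ hl',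
        Int.ediv_eq_zero_of_lt (by positivity) (by exact_mod_cast hr'), zero_add]
    rw [h1, h2]

/-- coincidences for one shift -/
theorem one_shift {p : ℕ} {s : ℤ → ℕ} (h : Pat p s) (δ : ℤ) (hδ : |δ| < p) :
    ∑ b ∈ range p, ind (δ ≠ 0 ∧ s ((b : ℤ) + 1) = s ((b : ℤ) + 1 + δ)) ≤ 3 * p / VV := by
  have hV : (0 : ℝ) < VV := by unfold VV; positivity
  by_cases h0 : δ = 0
  · have : ∀ b ∈ range p, ind (δ ≠ 0 ∧ s ((b : ℤ) + 1) = s ((b : ℤ) + 1 + δ)) = 0 := by
      intro b _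
      exact ind_neg (fun hh => hh.1 h0)
    rw [Finset.sum_congr rfl this]
    simp only [Finset.sum_const_zero]
    positivity
  · have h3 := h.2.2 δ h0 hδ
    have e1 : ∑ b ∈ range p, ind (δ ≠ 0 ∧ s ((b : ℤ) + 1) = s ((b : ℤ) + 1 + δ)) =
        ∑ b ∈ range p, ind (s (b : ℤ) = s ((b : ℤ) + δ)) := by
      have a1 := Finset.sum_range_succ (fun b : ℕ => ind (s (b : ℤ) = s ((b : ℤ) + δ))) p
      have a2 := Finset.sum_range_succ' (fun b : ℕ => ind (s (b : ℤ) = s ((b : ℤ) + δ))) p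
      have a3 : ind (s (p : ℤ) = s ((p : ℤ) + δ)) = ind (s ((0 : ℕ) : ℤ) = s (((0 : ℕ) : ℤ) + δ)) := by
        have b1 := h.2.1 0
        have b2 := h.2.1 δ
        rw [zero_add] at b1
        rw [add_comm] at b2
        rw [b1, b2]; simp
      have a4 : ∑ b ∈ range p, ind (δ ≠ 0 ∧ s ((b : ℤ) + 1) = s ((b : ℤ) + 1 + δ)) =
          ∑ b ∈ range p, ind (s ((b + 1 : ℕ) : ℤ) = s (((b + 1 : ℕ) : ℤ) + δ)) := by
        refine Finset.sum_congr rfl fun b _ => ?_
        push_cast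
        congr 1
        exact propext ⟨fun hh => hh.2, fun hh => ⟨h0, hh⟩⟩
      rw [a4]
      linarith
    rw [e1]
    have e2 : ∑ b ∈ range p, ind (s (b : ℤ) = s ((b : ℤ) + δ)) =
        (((range p).filter (fun β : ℕ => s β = s (β + δ))).card : ℝ) := by
      rw [Finset.card_filter]
      push_cast
      refine Finset.sum_congr rfl fun b _ => ?_
      unfold ind
      split_ifs <;> rfl
    rw [e2, le_div_iff₀ hV]
    have : ((VV * ((range p).filter (fun β : ℕ => s β = s (β + δ))).card : ℕ) : ℝ) ≤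
        ((3 * p : ℕ) : ℝ) := by exact_mod_cast h3
    push_cast at this
    linarith

/-- the event in terms of the block number -/
def EE (s : ℤ → ℕ) (δ : ℤ) (b : ℤ) : Prop :=
  ∃ e : ℕ, e < 3 ∧ δ + e ≠ 0 ∧ s (b + 1) = s (b + 1 + (δ + e))

theorem three_shift {p : ℕ} {s : ℤ → ℕ} (h : Pat p s) (δ : ℤ) (hδ : |δ| + 2 < p) :
    ∑ b ∈ range p, ind (EE s δ b) ≤ p * ((1 / 2 ^ 55 : ℝ) ^ 4) := by
  have h1 : ∀ b : ℤ, ind (EE s δ b) ≤
      ∑ e ∈ range 3, ind (δ + (e : ℕ) ≠ 0 ∧ s (b + 1) = s (b + 1 + (δ + (e : ℕ)))) := by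
    intro b
    by_cases hb : EE s δ b
    · obtain ⟨e, he, h2⟩ := hb
      have := Finset.single_le_sum
        (f := fun e : ℕ => ind (δ + (e : ℕ) ≠ 0 ∧ s (b + 1) = s (b + 1 + (δ + (e : ℕ)))))
        (fun i _ => ind_nonneg _) (Finset.mem_range.mpr he)
      simp only [ind_pos h2] at this
      exact (ind_le_one _).trans this
    · rw [ind_neg hb]
      exact Finset.sum_nonneg fun i _ => ind_nonneg _
  calc ∑ b ∈ range p, ind (EE s δ b)
      ≤ ∑ b ∈ range p, ∑ e ∈ range 3,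
          ind (δ + (e : ℕ) ≠ 0 ∧ s ((b : ℤ) + 1) = s ((b : ℤ) + 1 + (δ + (e : ℕ)))) :=
        Finset.sum_le_sum fun b _ => h1 b
    _ = ∑ e ∈ range 3, ∑ b ∈ range p,
          ind (δ + (e : ℕ) ≠ 0 ∧ s ((b : ℤ) + 1) = s ((b : ℤ) + 1 + (δ + (e : ℕ)))) :=
        Finset.sum_comm
    _ ≤ ∑ _e ∈ range 3, (3 * p / VV : ℝ) := by
        refine Finset.sum_le_sum fun e he => one_shift h _ ?_
        have he' : (e : ℤ) < 3 := by exact_mod_cast Finset.mem_range.mp he
        have he0 : (0 : ℤ) ≤ e := by positivity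
        have := abs_add_le δ (e : ℤ)
        rw [abs_of_nonneg he0] at this
        omega
    _ ≤ p * ((1 / 2 ^ 55 : ℝ) ^ 4) := by
        simp only [Finset.sum_const, Finset.card_range, nsmul_eq_mul]
        have hp : (0 : ℝ) ≤ p := by positivity
        have : ((3 : ℕ) : ℝ) * (3 * p / VV) = p * (9 / 2 ^ 224) := by
          unfold VV; push_cast; ring
        rw [this]
        refine mul_le_mul_of_nonneg_left ?_ hp
        norm_num

/-- independence for a product of one-coordinate functions -/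
theorem ex_prod (hExp : ExpStmt) (Q : ℕ → ℕ) (top : ℕ) (hQ : ∀ u, 0 < Q u) (h : ℕ → ℤ → ℝ)
    (T : Finset ℕ) :
    Ex Q top (fun z => ∏ u ∈ T, h u (z u)) = ∏ u ∈ T, Ex Q top (fun z => h u (z u)) := by
  obtain ⟨E1, _, E3, _⟩ := hExp Q top hQ
  induction T using Finset.induction_on with
  | empty => simpa using (E1 (fun _ => 0) (fun _ => 0) 1).2.2.1
  | insert u T hu ih =>
    simp only [Finset.prod_insert hu]
    rw [← ih]
    refine E3 (fun z => h u (z u)) (fun z => ∏ v ∈ T, h v (z v)) {u} ?_ ?_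
    · intro z z' hz
      simp only [hz u (Set.mem_singleton u)]
    · intro z z' hz
      refine Finset.prod_congr rfl fun v hv => ?_
      rw [hz v (by
        intro hv'
        rw [Set.mem_singleton_iff] at hv'
        exact hu (hv' ▸ hv))]

theorem delta_bound (a x u : ℕ) (y : ℤ) (hu : a + x / 2 ≤ u) (hy : |y| ≤ (RR : ℤ) ^ (x + 1)) :
    |y * ll a / ll u| ≤ (RR : ℤ) ^ (u + 2) := by
  have hR : (1 : ℤ) ≤ RR := by exact_mod_cast RR_pos
  have hL : (0 : ℤ) < ll u := by exact_mod_cast ll_pos u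
  have h1 : |y * ll a| ≤ (RR : ℤ) ^ (u + 2) * ll u := by
    rw [abs_mul, abs_of_nonneg (by positivity : (0 : ℤ) ≤ (ll a : ℤ))]
    unfold ll
    push_cast
    calc |y| * (RR : ℤ) ^ a ≤ (RR : ℤ) ^ (x + 1) * (RR : ℤ) ^ a :=
          mul_le_mul_of_nonneg_right hy (by positivity)
      _ = (RR : ℤ) ^ (x + 1 + a) := by rw [← pow_add]
      _ ≤ (RR : ℤ) ^ (u + 2 + u) := pow_le_pow_right₀ hR (by omega)
      _ = (RR : ℤ) ^ (u + 2) * (RR : ℤ) ^ u := by rw [← pow_add]
  rw [abs_le] at h1 ⊢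
  constructor
  · exact Int.le_ediv_of_mul_le hL (by linarith [h1.1])
  · exact Int.ediv_le_of_le_mul hL h1.2

/-- the hypothesis of the large deviation bound -/
theorem joint (hExp : ExpStmt) (P : Par) (θ : ℝ) (εB : ℕ → ℝ → ℝ) (hP : P.Ok θ εB)
    (a top x : ℕ) (y : ℤ) (hat : a < top) (hx : a + x < top) (hy : |y| ≤ (RR : ℤ) ^ (x + 1))
    (S' : Finset ℕ) (hS : S' ⊆ Sx a x) :
    Ex P.Q top (fun z => ind (z a % ll a = P.ω a) * ind (∀ u ∈ S', P.Eqv a u y z)) ≤
      1 / (ll a : ℝ) * ((1 / 2 ^ 55 : ℝ) ^ 4) ^ S'.card := by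
  have hp : ∀ u, 0 < P.p u := fun u => lt_of_lt_of_le (pow_pos RR_pos _) (hP.pge u)
  have hQ : ∀ u, 0 < P.Q u := fun u => Nat.mul_pos (ll_pos u) (hp u)
  set φ : ℕ → ℤ → ℝ := fun u r => if u = a then ind (r = P.ω a) else 1 with hφ
  set ψ : ℕ → ℤ → ℝ := fun u b =>
    if u ∈ S' then ind (EE (P.s u) (y * ll a / ll u) b) else 1 with hψ
  have key : (fun z : Sta => ind (z a % ll a = P.ω a) * ind (∀ u ∈ S', P.Eqv a u y z)) =
      fun z => ∏ u ∈ insert a S', φ u (z u % ll u) * ψ u (z u / ll u) := by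
    funext z
    rw [Finset.prod_mul_distrib]
    congr 1
    · simp only [hφ]
      rw [Finset.prod_ite_eq' (insert a S') a (fun u => ind (z u % ll u = P.ω a))]
      simp
    · simp only [hψ]
      by_cases hall : ∀ u ∈ S', P.Eqv a u y z
      · rw [ind_pos hall]
        symm
        refine Finset.prod_eq_one fun u _ => ?_
        split_ifs with hu
        · exact ind_pos (hall u hu)
        · rfl
      · rw [ind_neg hall]
        push Not at hall
        obtain ⟨u, hu, hn⟩ := hall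
        symm
        refine Finset.prod_eq_zero (Finset.mem_insert_of_mem hu) ?_
        rw [if_pos hu]
        exact ind_neg hn
  rw [key, ex_prod hExp P.Q top hQ (fun u w => φ u (w % ll u) * ψ u (w / ll u))]
  obtain ⟨_, _, _, E4, _⟩ := hExp P.Q top hQ
  have each : ∀ u ∈ insert a S',
      0 ≤ Ex P.Q top (fun z => φ u (z u % ll u) * ψ u (z u / ll u)) ∧
      Ex P.Q top (fun z => φ u (z u % ll u) * ψ u (z u / ll u)) ≤
        (if u = a then 1 / (ll a : ℝ) else 1) * (if u ∈ S' then (1 / 2 ^ 55 : ℝ) ^ 4 else 1) := by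
    intro u hu
    have hut : u < top := by
      rcases Finset.mem_insert.mp hu with rfl | hu
      · exact hat
      · have := (Finset.mem_Icc.mp (hS hu)).2
        omega
    rw [E4 u hut (fun w => φ u (w % ll u) * ψ u (w / ll u))]
    have hQe : P.Q u = ll u * P.p u := rfl
    rw [hQe, sum_split (ll u) (ll_pos u) (φ u) (ψ u) (P.p u)]
    have hl : (0 : ℝ) < ll u := by exact_mod_cast ll_pos u
    have hpu : (0 : ℝ) < P.p u := by exact_mod_cast hp u
    have f0 : 0 ≤ ∑ r ∈ range (ll u), φ u r := Finset.sum_nonneg fun r _ => by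
      simp only [hφ]; split_ifs
      · exact ind_nonneg _
      · norm_num
    have g0 : 0 ≤ ∑ b ∈ range (P.p u), ψ u b := Finset.sum_nonneg fun r _ => by
      simp only [hψ]; split_ifs
      · exact ind_nonneg _
      · norm_num
    have f1 : ∑ r ∈ range (ll u), φ u r ≤ ll u * (if u = a then 1 / (ll a : ℝ) else 1) := by
      simp only [hφ]
      split_ifs with hua
      · subst hua
        rw [mul_one_div_cancel hl.ne']
        have : ∀ r ∈ range (ll u), ind ((r : ℤ) = P.ω u) = if r = P.ω u then (1 : ℝ) else 0 := by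
          intro r _
          by_cases hr : r = P.ω u
          · rw [if_pos hr, ind_pos (by exact_mod_cast hr)]
          · rw [if_neg hr, ind_neg (by exact_mod_cast hr)]
        rw [Finset.sum_congr rfl this, Finset.sum_ite_eq']
        split_ifs <;> norm_num
      · simp
    have g1 : ∑ b ∈ range (P.p u), ψ u b ≤
        P.p u * (if u ∈ S' then (1 / 2 ^ 55 : ℝ) ^ 4 else 1) := by
      simp only [hψ]
      split_ifs with huS
      · refine three_shift (hP.pat u) _ ?_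
        have d1 := delta_bound a x u y (Finset.mem_Icc.mp (hS huS)).1 hy
        have d2 : (RR : ℤ) ^ (u + 3) ≤ P.p u := by exact_mod_cast hP.pge u
        have d3 : (1 : ℤ) ≤ (RR : ℤ) ^ (u + 2) := one_le_pow₀ (by exact_mod_cast RR_pos)
        have d4 : (RR : ℤ) ^ (u + 3) = (RR : ℤ) ^ (u + 2) * 2 ^ 25 := by
          rw [pow_succ]; unfold RR; norm_num
        rw [d4] at d2
        linarith
      · simp
    push_cast
    refine ⟨by positivity, ?_⟩
    rw [div_le_iff₀ (by positivity)]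
    calc (∑ r ∈ range (ll u), φ u r) * ∑ b ∈ range (P.p u), ψ u b
        ≤ (ll u * (if u = a then 1 / (ll a : ℝ) else 1)) *
          (P.p u * (if u ∈ S' then (1 / 2 ^ 55 : ℝ) ^ 4 else 1)) :=
          mul_le_mul f1 g1 g0 (f0.trans f1)
      _ = _ := by ring
  refine (Finset.prod_le_prod (fun u hu => (each u hu).1) (fun u hu => (each u hu).2)).trans ?_
  rw [Finset.prod_mul_distrib, Finset.prod_ite_eq' (insert a S') a (fun _ => 1 / (ll a : ℝ)),
    if_pos (Finset.mem_insert_self a S'), Finset.prod_ite_mem,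
    Finset.inter_eq_right.mpr (Finset.subset_insert a S'), Finset.prod_const]

theorem geo (n : ℕ) : ∑ x ∈ range n, (1 / 4 : ℝ) ^ x ≤ 4 / 3 := by
  have : ∑ x ∈ range n, (1 / 4 : ℝ) ^ x = 4 / 3 - 4 / 3 * (1 / 4 : ℝ) ^ n := by
    induction n with
    | zero => simp
    | succ n ih => rw [Finset.sum_range_succ, ih, pow_succ]; ring
  rw [this]
  have : (0 : ℝ) ≤ 4 / 3 * (1 / 4 : ℝ) ^ n := by positivity
  linarith

theorem numer (a x : ℕ) :
    ((Icc (-(RR : ℤ) ^ (x + 1)) ((RR : ℤ) ^ (x + 1))).card : ℝ) *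
      (2 * (1 / 2 ^ 55 : ℝ)) ^ (Sx a x).card ≤ 1 / 200 * (1 / 4 : ℝ) ^ x := by
  have c1 : ((Icc (-(RR : ℤ) ^ (x + 1)) ((RR : ℤ) ^ (x + 1))).card : ℝ) ≤
      3 * (2 ^ 25 : ℝ) ^ (x + 1) := by
    have h0 : (1 : ℤ) ≤ (RR : ℤ) ^ (x + 1) := one_le_pow₀ (by exact_mod_cast RR_pos)
    have h1 : ((Icc (-(RR : ℤ) ^ (x + 1)) ((RR : ℤ) ^ (x + 1))).card : ℤ) ≤
        3 * (RR : ℤ) ^ (x + 1) := by
      rw [Int.card_Icc_of_le _ _ (by linarith)]
      linarith
    have h2 : (((Icc (-(RR : ℤ) ^ (x + 1)) ((RR : ℤ) ^ (x + 1))).card : ℤ) : ℝ) ≤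
        ((3 * (RR : ℤ) ^ (x + 1) : ℤ) : ℝ) := by exact_mod_cast h1
    have h3 : ((RR : ℕ) : ℝ) = 2 ^ 25 := by unfold RR; norm_num
    push_cast at h2
    rw [h3] at h2
    exact h2
  have c2 : (2 * (1 / 2 ^ 55 : ℝ)) ^ (Sx a x).card ≤ (1 / 2 ^ 27 : ℝ) ^ (x + 2) := by
    have h1 : x + 2 ≤ 2 * (Sx a x).card := by
      unfold Sx; rw [Nat.card_Icc]; omega
    have h2 : (2 * (1 / 2 ^ 55 : ℝ)) = (1 / 2 ^ 27 : ℝ) ^ 2 := by norm_num
    rw [h2, ← pow_mul]
    exact pow_le_pow_of_le_one (by positivity) (by norm_num) h1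
  calc _ ≤ 3 * (2 ^ 25 : ℝ) ^ (x + 1) * (1 / 2 ^ 27 : ℝ) ^ (x + 2) :=
        mul_le_mul c1 c2 (by positivity) (by positivity)
    _ = 3 * (2 ^ 25 * (1 / 2 ^ 27) ^ 2) * ((2 ^ 25 : ℝ) * (1 / 2 ^ 27)) ^ x := by
        rw [mul_pow]; ring
    _ = 3 * (2 ^ 25 * (1 / 2 ^ 27) ^ 2) * (1 / 4 : ℝ) ^ x := by norm_num
    _ ≤ 1 / 200 * (1 / 4 : ℝ) ^ x := by
        refine mul_le_mul_of_nonneg_right (by norm_num) (by positivity)

end GB

open GB in
theorem GB_proof (hExp : ExpStmt) (_hInt : IntStmt) : GbStmt := by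
  intro P θ εB hP a top xm _ha hxm hat
  have hp : ∀ u, 0 < P.p u := fun u => lt_of_lt_of_le (pow_pos RR_pos _) (hP.pge u)
  have hQ : ∀ u, 0 < P.Q u := fun u => Nat.mul_pos (ll_pos u) (hp u)
  obtain ⟨E1, E2, _, _, _, E6⟩ := hExp P.Q top hQ
  have hl : (0 : ℝ) < ll a := by exact_mod_cast ll_pos a
  set Y : ℕ → Finset ℤ := fun x => Icc (-(RR : ℤ) ^ (x + 1)) ((RR : ℤ) ^ (x + 1)) with hY
  set F : ℕ → ℤ → Sta → ℝ := fun x y z => ind (z a % ll a = P.ω a) *
    ind ((Sx a x).card ≤ 4 * ((Sx a x).filter (fun u => P.Eqv a u y z)).card) with hF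
  have F0 : ∀ x y z, 0 ≤ F x y z := fun x y z => mul_nonneg (ind_nonneg _) (ind_nonneg _)
  have step1 : ∀ z : Sta, ind (z a % ll a = P.ω a) * ind (¬ P.G3 a xm z) ≤
      ∑ x ∈ range xm, ∑ y ∈ Y x, F x y z := by
    intro z
    by_cases hG : P.G3 a xm z
    · rw [ind_neg (not_not.mpr hG), mul_zero]
      exact Finset.sum_nonneg fun x _ => Finset.sum_nonneg fun y _ => F0 x y z
    · rw [ind_pos hG]
      unfold Par.G3 at hG
      push Not at hG
      obtain ⟨x, hx, y, hy, hc⟩ := hG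
      have a1 := Finset.single_le_sum (f := fun y => F x y z) (s := Y x)
        (fun y _ => F0 x y z) (Finset.mem_Icc.mpr (abs_le.mp hy))
      have a2 := Finset.single_le_sum (f := fun x => ∑ y ∈ Y x, F x y z) (s := range xm)
        (fun x _ => Finset.sum_nonneg fun y _ => F0 x y z) (Finset.mem_range.mpr hx)
      have a3 : F x y z = ind (z a % ll a = P.ω a) * 1 := by
        simp only [hF]
        rw [ind_pos hc]
      rw [← a3]
      exact a1.trans a2
  refine ((E1 _ _ 0).2.2.2.1 step1).trans ?_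
  rw [E2 ℕ (range xm) (fun x z => ∑ y ∈ Y x, F x y z)]
  have step2 : ∀ x ∈ range xm, Ex P.Q top (fun z => ∑ y ∈ Y x, F x y z) ≤
      1 / (ll a : ℝ) * (1 / 200 * (1 / 4 : ℝ) ^ x) := by
    intro x hx
    have hx' : x < xm := Finset.mem_range.mp hx
    rw [E2 ℤ (Y x) (fun y z => F x y z)]
    have : ∀ y ∈ Y x, Ex P.Q top (F x y) ≤
        1 / (ll a : ℝ) * (2 * (1 / 2 ^ 55 : ℝ)) ^ (Sx a x).card := by
      intro y hy
      exact E6 (fun z => ind (z a % ll a = P.ω a)) (fun u z => P.Eqv a u y z) (Sx a x)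
        (1 / 2 ^ 55) (1 / (ll a : ℝ)) (by positivity) (fun z => ind_nonneg _)
        (fun S' hS => joint hExp P θ εB hP a top x y hat (by omega)
          (abs_le.mpr (Finset.mem_Icc.mp hy)) S' hS)
    refine (Finset.sum_le_sum this).trans ?_
    rw [Finset.sum_const, nsmul_eq_mul, mul_left_comm]
    exact mul_le_mul_of_nonneg_left (numer a x) (by positivity)
  refine (Finset.sum_le_sum step2).trans ?_
  rw [← Finset.mul_sum, ← Finset.mul_sum]
  have := geo xm
  calc 1 / (ll a : ℝ) * (1 / 200 * ∑ x ∈ range xm, (1 / 4 : ℝ) ^ x)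
      ≤ 1 / (ll a : ℝ) * (1 / 100) :=
        mul_le_mul_of_nonneg_left (by linarith) (by positivity)
    _ = 1 / (100 * ll a) := by field_simp

end Crest.Agent.R113
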