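import Crest.Agent.R113.DefsE

/-! Row 113, task GOOD: good states have probability at least `1 / (4 ll a)`. -/

set_option autoImplicit false

namespace Crest.Agent.R113

open Finset
open scoped Classical

namespace GOOD

lemma ll_pos (u : ℕ) : 0 < ll u := by
  unfold ll; exact pow_pos (by norm_num [RR]) u

lemma emod_eq (P : Par) (u : ℕ) (y y' : ℤ) (h : (P.Q u : ℤ) ∣ y' - y) : y' % ll u = y % ll u := by
  have h2 : (ll u : ℤ) ∣ y' - y := Dvd.dvd.trans ⟨P.p u, by simp [Par.Q]⟩ h
  exact (Int.emod_emod_of_dvd _ dvd_rfl).symm.trans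
    ((Int.emod_emod_of_dvd _ dvd_rfl).trans ((Int.emod_eq_emod_iff_emod_sub_eq_zero).2
      (Int.emod_eq_zero_of_dvd h2)))

lemma ediv_eq (P : Par) (u : ℕ) (y y' : ℤ) (h : (P.Q u : ℤ) ∣ y' - y) :
    ∃ k : ℤ, y' / ll u = y / ll u + k * P.p u := by
  obtain ⟨k, hk⟩ := h
  refine ⟨k, ?_⟩
  have h0 : (ll u : ℤ) ≠ 0 := by exact_mod_cast (ll_pos u).ne'
  have : y' = y + (k * P.p u) * ll u := by
    have : (P.Q u : ℤ) = ll u * P.p u := by simp [Par.Q]
    rw [this] at hk; linarith
  rw [this, Int.add_mul_ediv_right _ _ h0]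

lemma s_per (p : ℕ) (s : ℤ → ℕ) (h : Pat p s) (β k : ℤ) : s (β + k * p) = s β := by
  have hp : Function.Periodic s (p : ℤ) := h.2.1
  exact (hp.int_mul k) β

lemma inv (P : Par) (hp : ∀ u, Pat (P.p u) (P.s u)) (a top xm : ℕ) (h1 : a + xm ≤ top)
    (h2 : a < top) (z z' : Sta) (h : ∀ u < top, (P.Q u : ℤ) ∣ z' u - z u) :
    (P.St a z ∧ P.G1 a top z ∧ G2 a top xm z ∧ P.G3 a xm z) ↔
      (P.St a z' ∧ P.G1 a top z' ∧ G2 a top xm z' ∧ P.G3 a xm z') := by
  have hm : ∀ u < top, z' u % ll u = z u % ll u := fun u hu => emod_eq P u _ _ (h u hu)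
  have hd : ∀ u < top, dst u (z' u) = dst u (z u) := fun u hu => by unfold dst; rw [hm u hu]
  have e1 : P.St a z ↔ P.St a z' := by
    unfold Par.St
    obtain ⟨k, hk⟩ := ediv_eq P a _ _ (h a h2)
    rw [hm a h2, hk, Int.add_mul_emod_self_right]
  have e2 : P.G1 a top z ↔ P.G1 a top z' := by
    unfold Par.G1
    refine forall_congr' fun i => imp_congr_right fun _ => imp_congr_right fun hi => ?_
    rw [hm i hi, hd i hi]
  have e3' : ∀ u, Itf top u z ↔ Itf top u z' := by
    intro u
    unfold Itf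
    refine exists_congr fun i => and_congr_right fun _ => and_congr_right fun hi => ?_
    rw [hd i hi]
  have e3 : G2 a top xm z ↔ G2 a top xm z' := by
    unfold G2
    simp only [e3']
  have e4' : ∀ u < top, ∀ y, P.Eqv a u y z ↔ P.Eqv a u y z' := by
    intro u hu y
    unfold Par.Eqv
    obtain ⟨k, hk⟩ := ediv_eq P u _ _ (h u hu)
    refine exists_congr fun e => and_congr_right fun _ => and_congr_right fun _ => ?_
    have f1 : z' u / ll u + 1 = (z u / ll u + 1) + k * P.p u := by rw [hk]; ring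
    have f2 : z' u / ll u + 1 + (y * ll a / ll u + e) =
        (z u / ll u + 1 + (y * ll a / ll u + e)) + k * P.p u := by rw [hk]; ring
    rw [f2, f1, s_per _ _ (hp u), s_per _ _ (hp u)]
  have e4 : P.G3 a xm z ↔ P.G3 a xm z' := by
    unfold Par.G3
    refine forall_congr' fun x => imp_congr_right fun hx => forall_congr' fun y =>
      imp_congr_right fun _ => ?_
    have : (Sx a x).filter (fun u => P.Eqv a u y z) = (Sx a x).filter (fun u => P.Eqv a u y z') := by
      refine filter_congr fun u hu => e4' u ?_ y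
      have := (mem_Icc.1 hu).2
      omega
    rw [this]
  rw [e1, e2, e3, e4]

lemma count (l p w : ℕ) (hw : w < l) (hp : 3 ≤ p) :
    (p : ℝ) / 3 ≤ ∑ y ∈ range (l * p),
      ind (((y : ℕ) : ℤ) % l = w ∧ ((((y : ℕ) : ℤ) / l) % p) % 2 = 1) := by
  have hl : 0 < l := by omega
  have hinj : Set.InjOn (fun k : ℕ => w + l * (2 * k + 1)) (range (p / 2) : Finset ℕ) := by
    intro k _ k' _ h
    have h' : l * (2 * k + 1) = l * (2 * k' + 1) := by simpa using h
    have := Nat.eq_of_mul_eq_mul_left hl h'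
    omega
  have hsub : (range (p / 2)).image (fun k : ℕ => w + l * (2 * k + 1)) ⊆ range (l * p) := by
    intro y hy
    obtain ⟨k, hk, rfl⟩ := mem_image.1 hy
    have hk' := mem_range.1 hk
    have : 2 * k + 2 ≤ p := by omega
    have := Nat.mul_le_mul_left l this
    rw [mem_range]; nlinarith
  have h1 : ((p / 2 : ℕ) : ℝ) = ∑ y ∈ (range (p / 2)).image (fun k : ℕ => w + l * (2 * k + 1)),
      ind (((y : ℕ) : ℤ) % l = w ∧ ((((y : ℕ) : ℤ) / l) % p) % 2 = 1) := by
    rw [sum_image hinj]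
    have : ∀ k ∈ range (p / 2), ind ((((w + l * (2 * k + 1) : ℕ)) : ℤ) % l = w ∧
        (((((w + l * (2 * k + 1) : ℕ)) : ℤ) / l) % p) % 2 = 1) = 1 := by
      intro k hk
      have hk' := mem_range.1 hk
      have a1 : (w + l * (2 * k + 1)) % l = w := by
        rw [Nat.add_mul_mod_self_left, Nat.mod_eq_of_lt hw]
      have a2 : (w + l * (2 * k + 1)) / l = 2 * k + 1 := by
        rw [Nat.add_mul_div_left _ _ hl, Nat.div_eq_of_lt hw, zero_add]
      have a3 : (2 * k + 1) % p = 2 * k + 1 := Nat.mod_eq_of_lt (by omega)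
      unfold ind
      rw [if_pos]
      constructor
      · rw [← Int.natCast_mod, a1]
      · rw [← Int.natCast_div, a2, ← Int.natCast_mod, a3]; omega
    rw [sum_congr rfl this]; simp
  have h2 : (p : ℝ) / 3 ≤ ((p / 2 : ℕ) : ℝ) := by
    have : p ≤ 3 * (p / 2) := by omega
    have : (p : ℝ) ≤ 3 * ((p / 2 : ℕ) : ℝ) := by exact_mod_cast this
    linarith
  refine h2.trans (h1.le.trans (sum_le_sum_of_subset_of_nonneg hsub fun _ _ _ => ?_))
  unfold ind; split_ifs <;> norm_num

end GOOD

open GOOD in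
theorem GOOD_proof (hExp : ExpStmt) (hGa : GaStmt) (hGb : GbStmt) : GoodStmt := by
  intro P θ εB hP a top xm ha h1 h2
  refine ⟨?_, fun z z' h => ?_, fun z z' h => ?_⟩
  · have hR : 3 ≤ RR := by norm_num [RR]
    have hp3 : ∀ u, 3 ≤ P.p u := fun u =>
      (hR.trans (Nat.le_self_pow (by omega) RR)).trans (hP.pge u)
    have hQ : ∀ u, 0 < P.Q u := fun u => Nat.mul_pos (ll_pos u) (by have := hp3 u; omega)
    obtain ⟨hA, -, -, hM, -⟩ := hExp P.Q top hQ
    obtain ⟨g1, g2⟩ := hGa P θ εB hP a top xm h2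
    have g3 := hGb P θ εB hP a top xm ha h1 h2
    have hw : P.ω a < ll a := by
      refine lt_of_le_of_lt (hP.vis.1 a).2.1 ?_
      unfold ll
      exact Nat.pow_lt_pow_left (by omega) (by omega)
    have hS := hM a h2 (fun y => ind (y % ll a = P.ω a ∧ ((y / ll a) % P.p a) % 2 = 1))
    have hc := count (ll a) (P.p a) (P.ω a) hw (hp3 a)
    have hl : (0 : ℝ) < ll a := by exact_mod_cast ll_pos a
    have hp : (0 : ℝ) < P.p a := by have := hp3 a; exact_mod_cast (by omega : 0 < P.p a)
    have hS2 : 1 / (3 * (ll a : ℝ)) ≤ Ex P.Q top (fun z => ind (P.St a z)) := by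
      have : Ex P.Q top (fun z => ind (P.St a z)) = _ := hS
      rw [this]
      have e : (P.Q a : ℝ) = ll a * P.p a := by simp [Par.Q]
      rw [e, le_div_iff₀ (by positivity)]
      have e2 : 1 / (3 * (ll a : ℝ)) * (ll a * P.p a) = P.p a / 3 := by field_simp
      rw [e2]
      exact hc
    have hle := (hA (fun z => ind (P.St a z))
      (fun z => ((ind (P.St a z ∧ P.G1 a top z ∧ G2 a top xm z ∧ P.G3 a xm z) +
        ind (z a % ll a = P.ω a) * ind (¬ P.G1 a top z)) +
        ind (z a % ll a = P.ω a) * ind (¬ G2 a top xm z)) +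
        ind (z a % ll a = P.ω a) * ind (¬ P.G3 a xm z)) 0).2.2.2.1 (fun z => by
          by_cases s : P.St a z
          · have s1 := s.1
            by_cases t1 : P.G1 a top z <;> by_cases t2 : G2 a top xm z <;>
              by_cases t3 : P.G3 a xm z <;> simp [ind, s, s1, t1, t2, t3]
          · have n : ∀ q : Prop, 0 ≤ ind q := fun q => by unfold ind; split_ifs <;> norm_num
            have : ind (P.St a z) = 0 := by simp [ind, s]
            rw [this]
            have := n (z a % ll a = P.ω a)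
            exact add_nonneg (add_nonneg (add_nonneg (n _) (mul_nonneg this (n _)))
              (mul_nonneg this (n _))) (mul_nonneg this (n _)))
    rw [(hA _ _ 0).1, (hA _ _ 0).1, (hA _ _ 0).1] at hle
    have e1 : 1 / (3 * (ll a : ℝ)) = 1 / 3 * (1 / ll a) := by field_simp
    have e2 : 1 / (4 * (ll a : ℝ)) = 1 / 4 * (1 / ll a) := by field_simp
    have e3 : 1 / (100 * (ll a : ℝ)) = 1 / 100 * (1 / ll a) := by field_simp
    have e4 : 1 / (20 * (ll a : ℝ)) = 1 / 20 * (1 / ll a) := by field_simp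
    have e5 : 0 < 1 / (ll a : ℝ) := by positivity
    rw [e1] at hS2; rw [e3] at g1 g3; rw [e4] at g2; rw [e2]
    linarith
  · have := inv P hP.pat a top xm h1 h2 z z' (fun u _ => h u)
    simp only [this]
  · have := inv P hP.pat a top xm h1 h2 z z' (fun u hu => by rw [h u hu]; simp)
    simp only [this]

end Crest.Agent.R113
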