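import Crest.Agent.R113.DefsE

set_option autoImplicit false

namespace Crest.Agent.R113

open Finset
open scoped Classical

namespace GRID

theorem sum_mul_range (g : ℕ → ℝ) (a b : ℕ) :
    ∑ y ∈ range (a * b), g y = ∑ i ∈ range a, ∑ j ∈ range b, g (b * i + j) := by
  induction a with
  | zero => simp
  | succ a ih =>
    rw [Nat.succ_mul, Finset.sum_range_add, ih, Finset.sum_range_succ, mul_comm a b]

theorem sum_shift_one (g : ℤ → ℝ) (L : ℕ) (hg : ∀ y, g (y + L) = g y) (c : ℤ) :
    ∑ k ∈ range L, g (k + (c + 1)) = ∑ k ∈ range L, g (k + c) := by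
  have h1 := Finset.sum_range_succ (fun k : ℕ => g (k + c)) L
  have h2 := Finset.sum_range_succ' (fun k : ℕ => g (k + c)) L
  have h3 : g ((L : ℤ) + c) = g (((0 : ℕ) : ℤ) + c) := by
    rw [← hg (((0 : ℕ) : ℤ) + c)]; congr 1; push_cast; ring
  have h4 : ∑ k ∈ range L, g (k + (c + 1)) = ∑ k ∈ range L, g (((k + 1 : ℕ) : ℤ) + c) := by
    refine Finset.sum_congr rfl fun k _ => ?_
    congr 1; push_cast; ring
  rw [h4]; linarith

theorem sum_shift (g : ℤ → ℝ) (L : ℕ) (hg : ∀ y, g (y + L) = g y) (c : ℤ) :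
    ∑ k ∈ range L, g (k + c) = ∑ k ∈ range L, g k := by
  induction c using Int.induction_on with
  | zero => simp
  | succ c ih => rw [sum_shift_one g L hg, ih]
  | pred c ih =>
    have := sum_shift_one g L hg (-(c : ℤ) - 1)
    rw [← this, ← ih]
    refine Finset.sum_congr rfl fun k _ => ?_
    congr 1; ring

theorem up_snoc {t : ℕ} (w : Fin t → ℕ) (j : ℕ) :
    up (Fin.snoc (α := fun _ => ℕ) w j : Fin (t + 1) → ℕ) = Function.update (up w) t (j : ℤ) := by
  funext u
  unfold up
  rcases lt_trichotomy u t with h | h | h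
  · rw [dif_pos (by omega : u < t + 1), Function.update_of_ne h.ne, dif_pos h]
    have : (⟨u, by omega⟩ : Fin (t + 1)) = Fin.castSucc ⟨u, h⟩ := rfl
    rw [this, Fin.snoc_castSucc]
  · subst h
    rw [dif_pos (by omega : u < u + 1), Function.update_self]
    have : (⟨u, by omega⟩ : Fin (u + 1)) = Fin.last u := rfl
    rw [this, Fin.snoc_last]
  · rw [dif_neg (by omega), Function.update_of_ne h.ne', dif_neg (by omega)]

theorem sum_succ (Q : ℕ → ℕ) (t : ℕ) (F : Sta → ℝ) :
    ∑ z ∈ Fintype.piFinset (fun u : Fin (t + 1) => range (Q u)), F (up z) =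
      ∑ w ∈ Fintype.piFinset (fun u : Fin t => range (Q u)),
        ∑ j ∈ range (Q t), F (Function.update (up w) t (j : ℤ)) := by
  rw [← Finset.sum_product']
  symm
  refine Finset.sum_nbij' (fun p => (Fin.snoc (α := fun _ => ℕ) p.1 p.2 : Fin (t + 1) → ℕ))
    (fun z => (Fin.init z, z (Fin.last t))) ?_ ?_ ?_ ?_ ?_
  · intro p hp
    simp only [Finset.mem_product, Fintype.mem_piFinset] at hp ⊢
    intro u
    refine Fin.lastCases ?_ (fun i => ?_) u
    · simpa using hp.2
    · simpa using hp.1 i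
  · intro z hz
    simp only [Finset.mem_product, Fintype.mem_piFinset] at hz ⊢
    refine ⟨fun i => ?_, ?_⟩
    · simpa [Fin.init] using hz i.castSucc
    · simpa using hz (Fin.last t)
  · intro p _
    simp
  · intro z _
    simp
  · intro p _
    rw [up_snoc]

theorem Ex_succ (Q : ℕ → ℕ) (t : ℕ) (F : Sta → ℝ) :
    Ex Q (t + 1) F =
      Ex Q t (fun z => ∑ j ∈ range (Q t), F (Function.update z t (j : ℤ))) / Q t := by
  unfold Ex
  rw [sum_succ, Finset.prod_range_succ, div_div]

theorem main (Q N : ℕ → ℕ) (hQ : ∀ u, 0 < Q u) (hN : ∀ u, 0 < N u)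
    (hd : ∀ u t, u < t → N u * Q u ∣ N t) (t : ℕ) :
    ∀ (F : Sta → ℝ), (∀ z z' : Sta, (∀ u < t, (Q u : ℤ) ∣ z' u - z u) → F z = F z') →
      ∀ L : ℕ, 0 < L → (∀ u < t, N u * Q u ∣ L) →
      ∑ y ∈ range L, F (fun u => (y : ℤ) / ((L / (N u * Q u) : ℕ) : ℤ)) = L * Ex Q t F := by
  induction t with
  | zero =>
    intro F hF L _ _
    have h0 : ∀ z, F z = F (fun _ => 0) := fun z => hF _ _ (fun u hu => absurd hu (by omega))
    unfold Ex
    simp [h0]
  | succ t ih =>
    intro F hF L hL hdiv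
    obtain ⟨n, hn⟩ := hdiv t (by omega)
    have hn0 : 0 < n := by
      rcases Nat.eq_zero_or_pos n with h | h
      · rw [h] at hn; omega
      · exact h
    have hL' : L = N t * (Q t * n) := by rw [hn]; ring
    set F' : Sta → ℝ := fun z => ∑ j ∈ range (Q t), F (Function.update z t (j : ℤ)) with hF'
    have hF'p : ∀ z z' : Sta, (∀ u < t, (Q u : ℤ) ∣ z' u - z u) → F' z = F' z' := by
      intro z z' h
      refine Finset.sum_congr rfl fun j _ => hF _ _ fun u hu => ?_
      by_cases hut : u = t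
      · subst hut; simp
      · rw [Function.update_of_ne hut, Function.update_of_ne hut]; exact h u (by omega)
    have key := ih F' hF'p (N t) (hN t) (fun u hu => hd u t hu)
    have hQt : (0 : ℝ) < Q t := by exact_mod_cast hQ t
    rw [Ex_succ, ← hF']
    have e1 : ∑ y ∈ range L, F (fun u => (y : ℤ) / ((L / (N u * Q u) : ℕ) : ℤ)) =
        ∑ i ∈ range (N t), ∑ j ∈ range (Q t), ∑ _r ∈ range n,
          F (Function.update (fun u => (i : ℤ) / ((N t / (N u * Q u) : ℕ) : ℤ)) t (j : ℤ)) := by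
      conv_lhs => rw [show range L = range (N t * (Q t * n)) by rw [← hL']]
      rw [sum_mul_range]
      refine Finset.sum_congr rfl fun i _ => ?_
      rw [sum_mul_range]
      refine Finset.sum_congr rfl fun j hj => Finset.sum_congr rfl fun r hr => ?_
      have hj' := Finset.mem_range.1 hj
      have hr' := Finset.mem_range.1 hr
      refine hF _ _ fun u hu => ?_
      by_cases hut : u = t
      · subst hut
        rw [Function.update_self]
        have h1 : L / (N u * Q u) = n := by
          rw [hn]; exact Nat.mul_div_cancel_left _ (Nat.mul_pos (hN u) (hQ u))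
        have h2 : (Q u * n * i + (n * j + r)) / n = Q u * i + j := by
          have : Q u * n * i + (n * j + r) = r + n * (Q u * i + j) := by ring
          rw [this, Nat.add_mul_div_left _ _ hn0, Nat.div_eq_of_lt hr', zero_add]
        rw [h1, ← Int.natCast_div, h2]
        push_cast
        exact ⟨-(i : ℤ), by ring⟩
      · rw [Function.update_of_ne hut]
        obtain ⟨c, hc⟩ := hd u t (by omega)
        have hpos : 0 < N u * Q u := Nat.mul_pos (hN u) (hQ u)
        have h1 : L / (N u * Q u) = (Q t * n) * c := by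
          rw [hL', hc, mul_assoc (N u * Q u), Nat.mul_div_cancel_left _ hpos, mul_comm]
        have h2 : N t / (N u * Q u) = c := by
          rw [hc, Nat.mul_div_cancel_left _ hpos]
        have h3 : (Q t * n * i + (n * j + r)) / (Q t * n) = i := by
          have hlt : n * j + r < Q t * n := by
            calc n * j + r < n * j + n := by omega
              _ = n * (j + 1) := by ring
              _ ≤ n * Q t := Nat.mul_le_mul_left _ hj'
              _ = Q t * n := mul_comm _ _
          rw [add_comm, Nat.add_mul_div_left _ _ (Nat.mul_pos (hQ t) hn0), Nat.div_eq_of_lt hlt,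
            zero_add]
        rw [h1, h2, ← Int.natCast_div, ← Int.natCast_div, ← Nat.div_div_eq_div_mul, h3]
        simp
    rw [e1]
    have e2 : ∑ i ∈ range (N t), ∑ j ∈ range (Q t), ∑ _r ∈ range n,
          F (Function.update (fun u => (i : ℤ) / ((N t / (N u * Q u) : ℕ) : ℤ)) t (j : ℤ)) =
        n * ∑ i ∈ range (N t), F' (fun u => (i : ℤ) / ((N t / (N u * Q u) : ℕ) : ℤ)) := by
      rw [Finset.mul_sum]
      refine Finset.sum_congr rfl fun i _ => ?_
      rw [hF', Finset.mul_sum]
      refine Finset.sum_congr rfl fun j _ => ?_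
      rw [Finset.sum_const, Finset.card_range, nsmul_eq_mul]
    rw [e2, key, hL']
    push_cast
    field_simp

theorem card_le (s : Finset ℕ) (a l : ℝ) (hl : 0 ≤ l) (h : ∀ k ∈ s, a < k ∧ (k : ℝ) < a + l) :
    (s.card : ℝ) ≤ l + 1 := by
  have h1 : s.card ≤ (Finset.Ioo ⌊a⌋ ⌈a + l⌉).card := by
    refine Finset.card_le_card_of_injOn (fun k : ℕ => (k : ℤ)) ?_ ?_
    · intro k hk
      have := h k (by simpa using hk)
      simp only [Finset.coe_Ioo, Set.mem_Ioo]
      exact ⟨Int.floor_lt.2 (by simpa using this.1), Int.lt_ceil.2 (by simpa using this.2)⟩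
    · intro x _ y _ hxy
      exact Int.natCast_inj.1 hxy
  rw [Int.card_Ioo] at h1
  have h2 : ((⌈a + l⌉ - ⌊a⌋ - 1).toNat : ℝ) ≤ l + 1 := by
    rcases le_total 0 (⌈a + l⌉ - ⌊a⌋ - 1) with h0 | h0
    · have : (((⌈a + l⌉ - ⌊a⌋ - 1).toNat : ℤ) : ℝ) = ((⌈a + l⌉ - ⌊a⌋ - 1 : ℤ) : ℝ) := by
        rw [Int.toNat_of_nonneg h0]
      have h3 := Int.ceil_lt_add_one (a + l)
      have h4 := Int.lt_floor_add_one a
      push_cast at this
      linarith
    · rw [Int.toNat_eq_zero.2 h0]; simp; linarith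
  calc (s.card : ℝ) ≤ ((⌈a + l⌉ - ⌊a⌋ - 1).toNat : ℝ) := by exact_mod_cast h1
    _ ≤ l + 1 := h2

theorem count (M N' : ℕ) (φ η : ℝ) (hM : 0 < M) (hN : 0 < N') (hη : 0 ≤ η) :
    (((range N').filter (fun k : ℕ => nz (M * (k / N' + φ)) < η)).card : ℝ) ≤
      6 * η * N' + 3 * M := by
  have hM' : (0 : ℝ) < M := by exact_mod_cast hM
  have hN' : (0 : ℝ) < N' := by exact_mod_cast hN
  set s := (range N').filter (fun k : ℕ => nz (M * (k / N' + φ)) < η) with hs
  set m0 : ℤ := round ((M : ℝ) * φ) with hm0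
  have hmap : ∀ k ∈ s, round ((M : ℝ) * (k / N' + φ)) ∈ Finset.Icc m0 (m0 + M) := by
    intro k hk
    have hk' : k < N' := Finset.mem_range.1 (Finset.mem_filter.1 hk).1
    have hk'' : (k : ℝ) / N' ≤ 1 := by
      rw [div_le_one hN']; exact_mod_cast hk'.le
    have hk0 : (0 : ℝ) ≤ (k : ℝ) / N' := by positivity
    rw [Finset.mem_Icc, hm0, ← round_add_natCast, round_eq, round_eq, round_eq]
    constructor
    · apply Int.floor_mono; nlinarith
    · apply Int.floor_mono; nlinarith
  have hfib : ∀ m ∈ Finset.Icc m0 (m0 + M),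
      ((s.filter (fun k : ℕ => round ((M : ℝ) * (k / N' + φ)) = m)).card : ℝ) ≤
        2 * η * N' / M + 1 := by
    intro m _
    refine card_le _ (((m - η) / M - φ) * N') _ (by positivity) ?_
    intro k hk
    obtain ⟨hk1, hk2⟩ := Finset.mem_filter.1 hk
    have hk3 := (Finset.mem_filter.1 hk1).2
    unfold nz at hk3
    rw [hk2, abs_lt] at hk3
    have e1 : (k : ℝ) = ((M * (k / N' + φ)) / M - φ) * N' := by field_simp; ring
    have e2 : ((m - η) / M - φ) * N' + 2 * η * N' / M = ((m + η) / M - φ) * N' := by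
      field_simp; ring
    constructor
    · rw [e1]
      have : (m - η) / M < (M * (k / N' + φ)) / M := by
        apply div_lt_div_of_pos_right _ hM'; linarith [hk3.1]
      nlinarith
    · rw [e2, e1]
      have : (M * (k / N' + φ)) / M < (m + η) / M := by
        apply div_lt_div_of_pos_right _ hM'; linarith [hk3.2]
      nlinarith
  have hsum : (s.card : ℝ) = ∑ m ∈ Finset.Icc m0 (m0 + M),
      ((s.filter (fun k : ℕ => round ((M : ℝ) * (k / N' + φ)) = m)).card : ℝ) := by
    rw [Finset.card_eq_sum_card_fiberwise (f := fun k : ℕ => round ((M : ℝ) * (k / N' + φ)))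
      (t := Finset.Icc m0 (m0 + M)) (fun k hk => by simpa using hmap k (by simpa using hk))]
    push_cast; rfl
  have hle := Finset.sum_le_card_nsmul _ _ _ hfib
  rw [Int.card_Icc, show m0 + M + 1 - m0 = ((M + 1 : ℕ) : ℤ) by push_cast; ring, Int.toNat_natCast,
    nsmul_eq_mul] at hle
  rw [hsum]
  refine hle.trans ?_
  have h1 : ((M + 1 : ℕ) : ℝ) ≤ 3 * M := by
    have : (1 : ℝ) ≤ M := by exact_mod_cast hM
    push_cast; linarith
  calc ((M + 1 : ℕ) : ℝ) * (2 * η * N' / M + 1) ≤ 3 * M * (2 * η * N' / M + 1) := by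
        apply mul_le_mul_of_nonneg_right h1; positivity
    _ = 6 * η * N' + 3 * M := by field_simp; ring

end GRID

theorem GRID_proof : GridStmt := by
  refine ⟨?_, fun M N' φ η hM hN hη => GRID.count M N' φ η hM hN hη⟩
  intro P θ εB hP top N' φ F htop hN' hdiv hper hdep
  have hR : 0 < RR := by unfold RR; positivity
  have hQ : ∀ u, 0 < P.Q u := fun u =>
    Nat.mul_pos (pow_pos hR u) (lt_of_lt_of_le (pow_pos hR _) (hP.pge u))
  have hd : ∀ u t, u < t → P.N u * P.Q u ∣ P.N t := by
    intro u t hut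
    induction t, hut using Nat.le_induction with
    | base => exact hP.dvd u
    | succ t _ ih => exact ih.trans ((Dvd.intro _ rfl).trans (hP.dvd t))
  have hF : ∀ z z' : Sta, (∀ u < top, (P.Q u : ℤ) ∣ z' u - z u) → F z = F z' := by
    intro z z' h
    rw [hdep z (fun u => if u < top then z u else z' u) (fun u hu => by
      have : u < top := hu
      simp [this])]
    refine hper _ _ fun u => ?_
    by_cases hu : u < top
    · simpa [hu] using h u hu
    · simp [hu]
  have hL : ∀ u < top, P.N u * P.Q u ∣ N' := by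
    intro u hu
    refine Dvd.dvd.trans ?_ hdiv
    rcases Nat.lt_or_ge u (top - 1) with h | h
    · exact (hd u _ h).trans (Dvd.intro _ rfl)
    · have : u = top - 1 := by omega
      rw [this]; exact dvd_rfl
  have key := GRID.main P.Q P.N hQ hP.npos hd top F hF N' hN' hL
  set G : ℤ → ℝ := fun y => F (fun u => y / ((N' / (P.N u * P.Q u) : ℕ) : ℤ)) with hG
  have hN'' : (0 : ℝ) < N' := by exact_mod_cast hN'
  have hc : ∀ u < top, ∃ c : ℕ, 0 < c ∧ N' = P.N u * P.Q u * c ∧ N' / (P.N u * P.Q u) = c := by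
    intro u hu
    obtain ⟨c, hc⟩ := hL u hu
    refine ⟨c, ?_, hc, ?_⟩
    · rcases Nat.eq_zero_or_pos c with h | h
      · rw [h] at hc; omega
      · exact h
    · rw [hc]; exact Nat.mul_div_cancel_left _ (Nat.mul_pos (hP.npos u) (hQ u))
  have hGp : ∀ y, G (y + N') = G y := by
    intro y
    refine hF _ _ fun u hu => ?_
    obtain ⟨c, hc0, hc1, hc2⟩ := hc u hu
    rw [hc2]
    have : y + (N' : ℤ) = y + ((P.N u * P.Q u : ℕ) : ℤ) * c := by rw [hc1]; push_cast; ring
    rw [this, Int.add_mul_ediv_right _ _ (by exact_mod_cast hc0.ne')]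
    exact ⟨-(P.N u : ℤ), by push_cast; ring⟩
  rw [← key, ← GRID.sum_shift G N' hGp ⌊(N' : ℝ) * φ⌋]
  refine Finset.sum_congr rfl fun k _ => hF _ _ fun u hu => ?_
  obtain ⟨c, hc0, hc1, hc2⟩ := hc u hu
  have hc' : (0 : ℝ) < c := by exact_mod_cast hc0
  have hMu : (0 : ℝ) < P.M u := by exact_mod_cast Nat.mul_pos (hP.npos u) (hQ u)
  have e1 : (N' : ℝ) = P.M u * c := by exact_mod_cast hc1
  have e2 : (P.M u : ℝ) * (k / N' + φ) = ((k : ℝ) + N' * φ) / c := by
    rw [e1]; field_simp
  have e3 : P.st (k / N' + φ) u = ((k : ℤ) + ⌊(N' : ℝ) * φ⌋) / c := by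
    unfold Par.st
    rw [e2, Int.floor_div_natCast, Int.floor_natCast_add]
  rw [e3, hc2]
  simp

end Crest.Agent.R113
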