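import Crest.Agent.R113.DefsE

set_option autoImplicit false

namespace Crest.Agent.R113

open Finset
open scoped Classical

namespace INT

lemma RR_two : (2 : ℝ) ≤ RR := by
  have : (2 : ℕ) ≤ RR := by norm_num [RR]
  exact_mod_cast this

lemma RR_pos : 0 < RR := by norm_num [RR]

lemma ll_pos (u : ℕ) : 0 < ll u := pow_pos RR_pos u

lemma ind_nonneg (q : Prop) : 0 ≤ ind q := by unfold ind; split_ifs <;> norm_num

lemma ind_le_one (q : Prop) : ind q ≤ 1 := by unfold ind; split_ifs <;> norm_num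

lemma ind_true {q : Prop} (h : q) : ind q = 1 := by unfold ind; rw [if_pos h]

lemma ind_false {q : Prop} (h : ¬ q) : ind q = 0 := by unfold ind; rw [if_neg h]

lemma ind_mono {q q' : Prop} (h : q → q') : ind q ≤ ind q' := by
  by_cases hq : q
  · rw [ind_true hq, ind_true (h hq)]
  · rw [ind_false hq]; exact ind_nonneg _

lemma ind_congr {q q' : Prop} (h : q ↔ q') : ind q = ind q' := by
  rw [propext h]

/-- counting residues -/
lemma count (L p : ℕ) (hL : 0 < L) (n lo : ℤ) (m : ℕ) :
    ∑ y ∈ range (L * p), ind (lo ≤ ((y : ℤ) + n) % L ∧ ((y : ℤ) + n) % L < lo + m) ≤ (m : ℝ) * p := by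
  have h1 : ∑ y ∈ range (L * p), ind (lo ≤ ((y : ℤ) + n) % L ∧ ((y : ℤ) + n) % L < lo + m) =
      (((range (L * p)).filter
        (fun y : ℕ => lo ≤ ((y : ℤ) + n) % L ∧ ((y : ℤ) + n) % L < lo + m)).card : ℝ) := by
    rw [card_filter]
    push_cast
    refine sum_congr rfl fun y _ => ?_
    unfold ind
    split_ifs <;> rfl
  rw [h1]
  have h2 : ((range (L * p)).filter
        (fun y : ℕ => lo ≤ ((y : ℤ) + n) % L ∧ ((y : ℤ) + n) % L < lo + m)).card ≤
      ((Ico lo (lo + m)) ×ˢ range p).card := by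
    refine card_le_card_of_injOn (fun y : ℕ => (((y : ℤ) + n) % L, y / L)) ?_ ?_
    · intro y hy
      rw [coe_filter] at hy
      obtain ⟨hy1, hy2, hy3⟩ := hy
      rw [mem_range] at hy1
      rw [mem_coe, mem_product, mem_Ico, mem_range]
      refine ⟨⟨hy2, hy3⟩, ?_⟩
      exact Nat.div_lt_of_lt_mul hy1
    · intro y _ y' _ h
      simp only [Prod.mk.injEq] at h
      obtain ⟨ha, hb⟩ := h
      have h3 : (y : ℤ) % L = (y' : ℤ) % L := by
        have h4 : ((y : ℤ) + n) ≡ ((y' : ℤ) + n) [ZMOD L] := ha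
        exact Int.ModEq.add_right_cancel' n h4
      have h5 : y % L = y' % L := by exact_mod_cast h3
      rw [← Nat.div_add_mod y L, ← Nat.div_add_mod y' L, hb, h5]
  rw [card_product, Int.card_Ico, card_range] at h2
  have h3 : (lo + m - lo).toNat = m := by simp
  rw [h3] at h2
  exact_mod_cast h2

lemma geo (x : ℝ) (hx : 0 ≤ x) (hx2 : x ≤ 1 / 2) (a b : ℕ) :
    ∑ i ∈ Ico a b, x ^ (i - a) ≤ 2 := by
  rw [sum_Ico_eq_sum_range]
  calc ∑ k ∈ range (b - a), x ^ (a + k - a) ≤ ∑ k ∈ range (b - a), (1 / 2 : ℝ) ^ k := by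
        refine sum_le_sum fun k _ => ?_
        rw [Nat.add_sub_cancel_left]
        exact pow_le_pow_left₀ hx hx2 k
    _ ≤ 2 := sum_geometric_two_le _

lemma part1 (hExp : ExpStmt) (P : Par) (top : ℕ) (hp : ∀ u, 0 < P.p u) (i : ℕ) (hi : i < top)
    (n lo : ℤ) (m : ℕ) :
    Ex P.Q top (fun z => ind (lo ≤ (z i + n) % ll i ∧ (z i + n) % ll i < lo + m)) ≤ m / ll i := by
  have hQ : ∀ u, 0 < P.Q u := fun u => Nat.mul_pos (ll_pos u) (hp u)
  have h := (hExp P.Q top hQ).2.2.2.1 i hi
    (fun y => ind (lo ≤ (y + n) % ll i ∧ (y + n) % ll i < lo + m))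
  rw [h]
  have hc := count (ll i) (P.p i) (ll_pos i) n lo m
  have hl : (0 : ℝ) < ll i := by exact_mod_cast ll_pos i
  have hpp : (0 : ℝ) < P.p i := by exact_mod_cast hp i
  have hQe : (P.Q i : ℝ) = ll i * P.p i := by unfold Par.Q; push_cast; ring
  rw [div_le_div_iff₀ (by rw [hQe]; positivity) hl, hQe]
  have : P.Q i = ll i * P.p i := rfl
  rw [this]
  nlinarith [hc, hl]

lemma single (hExp : ExpStmt) (P : Par) (top : ℕ) (hp : ∀ u, 0 < P.p u) (i : ℕ) (hi : i < top)
    (u : ℕ) (hu : u ≤ i) (n : ℤ) :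
    Ex P.Q top (fun z => ind (dst i (z i + n) ≤ ll u)) ≤ (1 / (RR : ℝ)) ^ (i - u) := by
  have hQ : ∀ u, 0 < P.Q u := fun u => Nat.mul_pos (ll_pos u) (hp u)
  have h1 := part1 hExp P top hp i hi n ((ll i : ℤ) - ll u) (ll u)
  have h2 := ((hExp P.Q top hQ).1 (fun z => ind (dst i (z i + n) ≤ ll u))
    (fun z => ind ((ll i : ℤ) - ll u ≤ (z i + n) % ll i ∧
      (z i + n) % ll i < (ll i : ℤ) - ll u + (ll u : ℕ))) 0).2.2.2.1 (fun z => by
        refine ind_mono fun h => ?_
        unfold dst at h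
        have hl : (0 : ℤ) < ll i := by exact_mod_cast ll_pos i
        have := Int.emod_lt_of_pos (z i + n) hl
        constructor <;> omega)
  refine h2.trans (h1.trans (le_of_eq ?_))
  have hR : (0 : ℝ) < RR := by exact_mod_cast RR_pos
  obtain ⟨k, rfl⟩ := Nat.exists_eq_add_of_le hu
  rw [Nat.add_sub_cancel_left]
  unfold ll
  push_cast
  rw [pow_add, one_div, inv_pow]
  field_simp

lemma part2 (hExp : ExpStmt) (P : Par) (top : ℕ) (hp : ∀ u, 0 < P.p u) (u u' : ℕ) (n : ℤ)
    (h : u ≤ u') :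
    Ex P.Q top (fun z => ind (∃ i, u' ≤ i ∧ i < top ∧ dst i (z i + n) ≤ ll u)) ≤
      2 / (RR : ℝ) ^ (u' - u) := by
  have hQ : ∀ u, 0 < P.Q u := fun u => Nat.mul_pos (ll_pos u) (hp u)
  have hE := hExp P.Q top hQ
  have hR : (0 : ℝ) < RR := by exact_mod_cast RR_pos
  have h1 := (hE.1 (fun z => ind (∃ i, u' ≤ i ∧ i < top ∧ dst i (z i + n) ≤ ll u))
    (fun z => ∑ i ∈ Ico u' top, ind (dst i (z i + n) ≤ ll u)) 0).2.2.2.1 (fun z => by
      by_cases hz : ∃ i, u' ≤ i ∧ i < top ∧ dst i (z i + n) ≤ ll u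
      · rw [ind_true hz]
        obtain ⟨i, h1, h2, h3⟩ := hz
        rw [← ind_true h3]
        exact single_le_sum (f := fun i => ind (dst i (z i + n) ≤ ll u))
          (fun j _ => ind_nonneg _) (mem_Ico.2 ⟨h1, h2⟩)
      · rw [ind_false hz]
        exact sum_nonneg fun j _ => ind_nonneg _)
  refine h1.trans ?_
  rw [hE.2.1 ℕ (Ico u' top) (fun i z => ind (dst i (z i + n) ≤ ll u))]
  have hx : (0 : ℝ) ≤ 1 / RR := by positivity
  have hx2 : (1 : ℝ) / RR ≤ 1 / 2 := one_div_le_one_div_of_le (by norm_num) RR_two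
  calc ∑ i ∈ Ico u' top, Ex P.Q top (fun z => ind (dst i (z i + n) ≤ ll u))
      ≤ ∑ i ∈ Ico u' top, (1 / (RR : ℝ)) ^ (u' - u) * (1 / (RR : ℝ)) ^ (i - u') := by
        refine sum_le_sum fun i hi => ?_
        rw [mem_Ico] at hi
        refine (single hExp P top hp i hi.2 u (h.trans hi.1) n).trans (le_of_eq ?_)
        rw [← pow_add]
        congr 1
        omega
    _ = (1 / (RR : ℝ)) ^ (u' - u) * ∑ i ∈ Ico u' top, (1 / (RR : ℝ)) ^ (i - u') := by
        rw [mul_sum]
    _ ≤ (1 / (RR : ℝ)) ^ (u' - u) * 2 :=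
        mul_le_mul_of_nonneg_left (geo _ hx hx2 _ _) (by positivity)
    _ = 2 / (RR : ℝ) ^ (u' - u) := by
        rw [one_div, inv_pow]; field_simp

lemma part3 (hExp : ExpStmt) (P : Par) (top : ℕ) (hp : ∀ u, 0 < P.p u) (k : ℕ) :
    ∀ S : Finset ℕ, S.card = k →
      Ex P.Q top (fun z => ind (∀ u ∈ S, Itf top u z)) ≤ (2 / (RR : ℝ)) ^ S.card := by
  have hQ : ∀ u, 0 < P.Q u := fun u => Nat.mul_pos (ll_pos u) (hp u)
  have hE := hExp P.Q top hQ
  have hR : (0 : ℝ) < RR := by exact_mod_cast RR_pos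
  have hγ : (0 : ℝ) < 2 / RR := by positivity
  have hγ1 : (2 : ℝ) / RR ≤ 1 := by rw [div_le_one hR]; exact RR_two
  induction k using Nat.strong_induction_on with
  | _ k ih =>
  intro S hS
  rcases S.eq_empty_or_nonempty with rfl | hne
  · have h0 : (fun z : Sta => ind (∀ u ∈ (∅ : Finset ℕ), Itf top u z)) = fun _ => (1 : ℝ) := by
      funext z
      exact ind_true (by simp)
    rw [h0, (hE.1 (fun _ => 0) (fun _ => 0) 1).2.2.1]
    simp
  · set u0 := S.min' hne with hu0
    have hu0S : u0 ∈ S := S.min'_mem hne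
    have hmin : ∀ u ∈ S, u0 ≤ u := fun u hu => S.min'_le u hu
    have h1 := (hE.1 (fun z => ind (∀ u ∈ S, Itf top u z))
      (fun z => ∑ i ∈ Ico (u0 + 1) top, ind (dst i (z i + 0) ≤ ll u0) *
        ind (∀ u ∈ S.filter (fun u => i ≤ u), Itf top u z)) 0).2.2.2.1 (fun z => by
        by_cases hz : ∀ u ∈ S, Itf top u z
        · rw [ind_true hz]
          obtain ⟨i, h1, h2, h3⟩ := hz u0 hu0S
          have h4 : ind (dst i (z i + 0) ≤ ll u0) *
              ind (∀ u ∈ S.filter (fun u => i ≤ u), Itf top u z) = 1 := by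
            rw [ind_true (by rw [add_zero]; exact h3),
              ind_true (fun u hu => hz u (mem_filter.1 hu).1), mul_one]
          rw [← h4]
          exact single_le_sum (f := fun i => ind (dst i (z i + 0) ≤ ll u0) *
              ind (∀ u ∈ S.filter (fun u => i ≤ u), Itf top u z))
            (fun j _ => mul_nonneg (ind_nonneg _) (ind_nonneg _)) (mem_Ico.2 ⟨h1, h2⟩)
        · rw [ind_false hz]
          exact sum_nonneg fun j _ => mul_nonneg (ind_nonneg _) (ind_nonneg _))
    refine h1.trans ?_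
    rw [hE.2.1 ℕ (Ico (u0 + 1) top) (fun i z => ind (dst i (z i + 0) ≤ ll u0) *
        ind (∀ u ∈ S.filter (fun u => i ≤ u), Itf top u z))]
    calc ∑ i ∈ Ico (u0 + 1) top, Ex P.Q top (fun z => ind (dst i (z i + 0) ≤ ll u0) *
          ind (∀ u ∈ S.filter (fun u => i ≤ u), Itf top u z))
        ≤ ∑ i ∈ Ico (u0 + 1) top, (2 / (RR : ℝ)) ^ S.card / 2 * (1 / 2 : ℝ) ^ (i - (u0 + 1)) := by
          refine sum_le_sum fun i hi => ?_
          rw [mem_Ico] at hi
          have hind := hE.2.2.1 (fun z => ind (dst i (z i + 0) ≤ ll u0))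
            (fun z => ind (∀ u ∈ S.filter (fun u => i ≤ u), Itf top u z)) {i}
            (fun z z' hz => by
              have := hz i rfl
              simp only [this])
            (fun z z' hz => by
              refine ind_congr (forall_congr' fun u => forall_congr' fun hu => ?_)
              have hiu := (mem_filter.1 hu).2
              unfold Itf
              refine exists_congr fun j => and_congr_right fun hj => ?_
              have : z j = z' j := hz j (by
                simp only [Set.mem_compl_iff, Set.mem_singleton_iff]; omega)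
              rw [this])
          rw [hind]
          have hlt : (S.filter (fun u => i ≤ u)).card < k := by
            rw [← hS]
            refine card_lt_card ⟨filter_subset _ _, fun hsub => ?_⟩
            have := (mem_filter.1 (hsub hu0S)).2
            omega
          have hB := ih _ hlt (S.filter (fun u => i ≤ u)) rfl
          have hA := single hExp P top hp i hi.2 u0 (by omega) 0
          have hB0 : 0 ≤ Ex P.Q top (fun z => ind (∀ u ∈ S.filter (fun u => i ≤ u), Itf top u z)) := by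
            have := (hE.1 (fun _ => 0)
              (fun z => ind (∀ u ∈ S.filter (fun u => i ≤ u), Itf top u z)) 0).2.2.2.1
              (fun z => ind_nonneg _)
            rwa [(hE.1 (fun _ => 0) (fun _ => 0) 0).2.2.1] at this
          have hcard : S.card ≤ (S.filter (fun u => i ≤ u)).card + (i - u0) := by
            have h5 : S ⊆ S.filter (fun u => i ≤ u) ∪ Ico u0 i := by
              intro u hu
              rw [mem_union, mem_filter, mem_Ico]
              have := hmin u hu
              by_cases hiu : i ≤ u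
              · exact Or.inl ⟨hu, hiu⟩
              · exact Or.inr ⟨this, by omega⟩
            have h6 := (card_le_card h5).trans (card_union_le _ _)
            rwa [Nat.card_Ico] at h6
          have h7 : (2 / (RR : ℝ)) ^ ((S.filter (fun u => i ≤ u)).card + (i - u0)) ≤
              (2 / (RR : ℝ)) ^ S.card := pow_le_pow_of_le_one hγ.le hγ1 hcard
          have h8 : (1 / (RR : ℝ)) ^ (i - u0) = (2 / (RR : ℝ)) ^ (i - u0) * (1 / 2) ^ (i - u0) := by
            rw [← mul_pow]
            congr 1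
            field_simp
          have h9 : (1 / 2 : ℝ) ^ (i - u0) = 1 / 2 * (1 / 2) ^ (i - (u0 + 1)) := by
            rw [← pow_succ']
            congr 1
            omega
          calc Ex P.Q top (fun z => ind (dst i (z i + 0) ≤ ll u0)) *
                Ex P.Q top (fun z => ind (∀ u ∈ S.filter (fun u => i ≤ u), Itf top u z))
              ≤ (1 / (RR : ℝ)) ^ (i - u0) * (2 / (RR : ℝ)) ^ (S.filter (fun u => i ≤ u)).card :=
                mul_le_mul hA hB hB0 (by positivity)
            _ = (2 / (RR : ℝ)) ^ ((S.filter (fun u => i ≤ u)).card + (i - u0)) *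
                  (1 / 2) ^ (i - u0) := by rw [h8, pow_add]; ring
            _ ≤ (2 / (RR : ℝ)) ^ S.card * (1 / 2) ^ (i - u0) :=
                mul_le_mul_of_nonneg_right h7 (by positivity)
            _ = (2 / (RR : ℝ)) ^ S.card / 2 * (1 / 2 : ℝ) ^ (i - (u0 + 1)) := by rw [h9]; ring
      _ = (2 / (RR : ℝ)) ^ S.card / 2 * ∑ i ∈ Ico (u0 + 1) top, (1 / 2 : ℝ) ^ (i - (u0 + 1)) := by
          rw [mul_sum]
      _ ≤ (2 / (RR : ℝ)) ^ S.card / 2 * 2 :=
          mul_le_mul_of_nonneg_left (geo _ (by norm_num) le_rfl _ _) (by positivity)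
      _ = (2 / (RR : ℝ)) ^ S.card := by ring

end INT

theorem INT_proof (hExp : ExpStmt) : IntStmt := by
  intro P top hp
  exact ⟨fun i hi n lo m => INT.part1 hExp P top hp i hi n lo m,
    fun u u' n h => INT.part2 hExp P top hp u u' n h,
    fun S => INT.part3 hExp P top hp _ S rfl⟩

end Crest.Agent.R113
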