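import Crest.Agent.R113.DefsE

set_option autoImplicit false

namespace Crest.Agent.R113

open Finset
open scoped Classical

namespace OKE

lemma VV_one : (1 : ℝ) ≤ VV := by
  have : 1 ≤ VV := Nat.one_le_two_pow
  exact_mod_cast this

lemma RR_four : 4 ≤ RR := by norm_num [RR]

lemma ratio (u : ℕ) : (2 / (RR : ℝ)) ^ u ≤ (1 / 2) ^ u := by
  have h : (4 : ℝ) ≤ RR := by exact_mod_cast RR_four
  refine pow_le_pow_left₀ (by positivity) ?_ u
  rw [div_le_iff₀ (by linarith)]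
  linarith

lemma ll_big (a : ℕ) (ha : 1 ≤ a) : 2 * 2 ^ a ≤ ll a := by
  have h1 : 4 ^ a ≤ ll a := Nat.pow_le_pow_left RR_four a
  have h2 : 2 ^ 1 ≤ 2 ^ a := Nat.pow_le_pow_right (by norm_num) ha
  have h3 : 4 ^ a = 2 ^ a * 2 ^ a := by rw [← mul_pow]; rfl
  nlinarith

lemma geo (a b : ℕ) : ∑ u ∈ Ico a b, (1 / 2 : ℝ) ^ u ≤ 2 * (1 / 2) ^ a := by
  refine (geom_sum_Ico_le_of_lt_one (by norm_num) (by norm_num)).trans (le_of_eq ?_)
  ring

lemma sqs (a U : ℕ) (hU : 1 ≤ U) (n : ℕ) :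
    ∑ u ∈ Ico (a + U) (a + U + n), (4 / (((u - a : ℕ) : ℝ) + 1)) ^ 2 ≤
      16 / (U : ℝ) - 16 / ((U : ℝ) + (n : ℝ)) := by
  have hU' : (1 : ℝ) ≤ U := by exact_mod_cast hU
  induction n with
  | zero => simp
  | succ n ih =>
    rw [← add_assoc, Finset.sum_Ico_succ_top (by omega), show a + U + n - a = U + n by omega]
    have hn : (0 : ℝ) ≤ n := Nat.cast_nonneg n
    have h : (4 / (((U + n : ℕ) : ℝ) + 1)) ^ 2 ≤ 16 / (U + n) - 16 / (U + (n + 1 : ℕ)) := by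
      push_cast
      rw [div_pow, div_sub_div _ _ (by positivity) (by positivity), div_le_div_iff₀ (by positivity)
        (by positivity)]
      nlinarith
    linarith

lemma sqrt_sqs (a U b : ℕ) (hU : 1 ≤ U) (hb : a + U ≤ b) :
    √(∑ u ∈ Ico (a + U) b, (4 / (((u - a : ℕ) : ℝ) + 1)) ^ 2) ≤ 4 / √U := by
  obtain ⟨n, rfl⟩ := Nat.exists_eq_add_of_le hb
  have hU' : (1 : ℝ) ≤ U := by exact_mod_cast hU
  have h := sqs a U hU n
  have h2 : (0 : ℝ) ≤ 16 / (U + n) := by positivity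
  refine Real.sqrt_le_iff.2 ⟨by positivity, ?_⟩
  rw [div_pow, Real.sq_sqrt (by positivity)]
  linarith

end OKE

set_option maxHeartbeats 1600000 in
open OKE in
theorem OKE_proof (hTst : TstStmt) (hCel : CelStmt) (hSep : SepStmt) (hFlw : FlwStmt) :
    OkeStmt := by
  intro P θ εB hP top u₁ a U N' N η δ τ hL ha hN' hdvd hδ hτ h1 h2 h3 h4 h5 h6 h7 e
  obtain ⟨t1, t2, t3, t4⟩ := hTst P θ εB hP top u₁ a U N' N hL
  obtain ⟨c1, c2⟩ := hCel P θ εB hP top u₁ a U N' N hL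
  have s1 := hSep P θ εB hP top u₁ a U N' N hL
  obtain ⟨hU1, hUa, haU, htop⟩ := hL
  have hV := VV_one
  set V : ℝ := (VV : ℝ) with hVdef
  set n : ℝ := (Fintype.card (Ix N' N) : ℝ) with hn
  have hn0 : 0 ≤ n := Nat.cast_nonneg _
  have hq : (2 : ℝ) ^ a * (1 / 2) ^ a = 1 := by rw [← mul_pow]; norm_num
  set q : ℝ := (1 / 2 : ℝ) ^ a with hqdef
  have hq0 : 0 < q := by positivity
  have hqη : 300 * V * q ≤ η := by
    have := mul_le_mul_of_nonneg_right h2 hq0.le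
    rwa [mul_assoc η, hq, mul_one] at this
  have hη : 0 < η := lt_of_lt_of_le (by positivity) hqη
  have hsU : (1 : ℝ) ≤ √U := Real.one_le_sqrt.2 (by exact_mod_cast hU1)
  have hVU : V * (4 / √U) ≤ η / 8 := by
    rw [← mul_div_assoc, div_le_iff₀ (by linarith)]
    linarith
  have hu₁ : (1 : ℝ) ≤ u₁ := by exact_mod_cast (show 1 ≤ u₁ by omega)
  -- the condition number
  have hκ1 : ∀ u, 1 ≤ P.κ u := fun u =>
    le_trans (one_le_pow₀ (by norm_num)) (hP.kap.2 u).1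
  have hLc : e.L.card = U * VV := by
    show (Ico a (a + U) ×ˢ Icc 1 VV).card = U * VV
    rw [Finset.card_product, Nat.card_Ico, Nat.card_Icc]
    congr 1 <;> omega
  have hκt : ∀ u, a ≤ u → e.κt ≤ P.κ u ^ (2 * VV * u + 2) := by
    intro u hu
    show P.κ a ^ (2 * e.L.card + 2) ≤ _
    rw [hLc]
    refine (pow_le_pow_left₀ (by linarith [hκ1 a]) (hP.kap.1 hu) _).trans
      (pow_le_pow_right₀ (hκ1 u) ?_)
    have : U * VV ≤ u * VV := Nat.mul_le_mul_right _ (hUa.trans hu)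
    nlinarith
  have hκt0 : 0 ≤ e.κt := pow_nonneg (by linarith [hκ1 a] : 0 ≤ P.κ a) _
  have hw : 2 ^ a ≤ e.w ∧ ll a ≤ 2 * e.w ∧ e.w ≤ ll a := by
    have h8 := ll_big a (by omega)
    have h9 := (hP.vis.1 a).2.1
    show 2 ^ a ≤ ll a - P.ω a ∧ ll a ≤ 2 * (ll a - P.ω a) ∧ ll a - P.ω a ≤ ll a
    omega
  -- the flow statement
  set l : ℕ → ℝ := fun u => 4 / (((u - a : ℕ) : ℝ) + 1) with hl
  have hl0 : ∀ u, 0 ≤ l u := fun u => by positivity
  have hl4 : ∀ u, l u ≤ 4 := fun u => by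
    show 4 / (((u - a : ℕ) : ℝ) + 1) ≤ 4
    rw [div_le_iff₀ (by positivity)]
    have : (0 : ℝ) ≤ ((u - a : ℕ) : ℝ) := Nat.cast_nonneg _
    linarith
  obtain ⟨⟨c, hc⟩, hfl⟩ := hFlw P θ εB hP top N' N (Ico (a + U) u₁) l (by omega) hN' hdvd
    (fun u hu => ⟨(Finset.mem_Ico.1 hu).2.trans htop, hl0 u⟩)
  have hsq : √(∑ u ∈ Ico (a + U) u₁, l u ^ 2) ≤ 4 / √U := sqrt_sqs a U u₁ hU1 haU
  have hnX : ∀ u < u₁, (P.nX θ top u N' N : ℝ) ≤ (10 * (1 / 2) ^ u + τ) * n := by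
    intro u hu
    refine (h6 u hu).trans (mul_le_mul_of_nonneg_right ?_ hn0)
    linarith [ratio u]
  have herr : ∀ u, a ≤ u → u < u₁ → ∀ t ∈ Icc 1 VV, 0 ≤ e.err δ (u, t) ∧
      e.err δ (u, t) ≤ (13 * (1 / 2) ^ u + 2 * τ) * n := by
    intro u hu hu' t ht
    have e0 : e.err δ (u, t) = (P.nX θ top u N' N : ℝ) + n * ((ll u : ℝ) ^ 2 * δ /
        ((P.lam u * P.d u (t - 1)) ^ ll u * P.ε u ^ 2) ^ 2 + 4 * P.ε u +
          2 * (e.κt * P.ε u) ^ 2) := rfl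
    obtain ⟨hε0, hε1⟩ := hP.eps.2 u
    have e1 : (1 : ℝ) / 2 ^ (u + 1) = (1 / 2) ^ u / 2 := by rw [pow_succ, one_div_pow]; ring
    rw [e1] at hε1
    have e2 : P.ε u ≤ (1 / 2) ^ u / 2 :=
      le_trans (le_mul_of_one_le_left hε0.le (one_le_pow₀ (hκ1 u))) hε1
    have e3 : e.κt * P.ε u ≤ (1 / 2) ^ u / 2 :=
      le_trans (mul_le_mul_of_nonneg_right (hκt u hu) hε0.le) hε1
    have e4 : (1 / 2 : ℝ) ^ u ≤ 1 := pow_le_one₀ (by norm_num) (by norm_num)
    have e5 : (0 : ℝ) < (1 / 2) ^ u := by positivity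
    have e6 : (e.κt * P.ε u) ^ 2 ≤ (1 / 2) ^ u / 2 := by
      have := pow_le_pow_left₀ (mul_nonneg hκt0 hε0.le) e3 2
      nlinarith
    rw [e0]
    refine ⟨by positivity, ?_⟩
    have e7 := h4 u hu' t ht
    have e8 := hnX u hu'
    have e9 : (ll u : ℝ) ^ 2 * δ / ((P.lam u * P.d u (t - 1)) ^ ll u * P.ε u ^ 2) ^ 2 + 4 * P.ε u +
        2 * (e.κt * P.ε u) ^ 2 ≤ τ + 3 * (1 / 2) ^ u := by linarith
    have := mul_le_mul_of_nonneg_left e9 hn0
    linarith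
  have hcardV : ((Icc 1 VV).card : ℝ) = V := by
    rw [Nat.card_Icc, Nat.add_sub_cancel]
  have hsum : ∀ (b b' : ℕ) (x y : ℝ), b' ≤ u₁ → 0 ≤ x → 0 ≤ y →
      ∑ u ∈ Ico b b', (x * (1 / 2) ^ u + y) ≤ 2 * x * (1 / 2) ^ b + u₁ * y := by
    intro b b' x y hb hx hy
    rw [Finset.sum_add_distrib, ← Finset.mul_sum, Finset.sum_const, Nat.card_Ico, nsmul_eq_mul]
    have g1 := mul_le_mul_of_nonneg_left (geo b b') hx
    have g2 : ((b' - b : ℕ) : ℝ) ≤ u₁ := by exact_mod_cast (show b' - b ≤ u₁ by omega)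
    have g3 := mul_le_mul_of_nonneg_right g2 hy
    linarith
  have hτη : 16 * V * (u₁ * τ) ≤ η := by linarith
  refine ⟨⟨t1, t2, t3, t4, c1, c2, s1, ⟨c, ?_⟩, ?_, ?_, ⟨?_, (hP.lamp a).1, (hP.kap.2 a).2, ?_, ?_⟩,
    ⟨?_, ?_, ?_⟩⟩, hκt a le_rfl, hw.1, fun ρ hρ => ?_⟩
  · -- conc
    have g1 : ∀ j, (∑ t ∈ e.H, if j ∈ e.Z t then e.wg t else 0) =
        ∑ u ∈ Ico (a + U) u₁, ∑ t ∈ Icc 1 VV,
          if j ∈ P.Zs θ top N' N (u, t) then l u else 0 := by
      intro j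
      exact Finset.sum_product _ _ _
    simp_rw [g1]
    refine le_trans (by convert hc) (mul_le_mul_of_nonneg_right ?_ hn0)
    have := mul_le_mul_of_nonneg_left hsq (by linarith : 0 ≤ 2 * V)
    linarith
  · -- errs
    have g1 : ∑ t ∈ e.L, e.err δ t ≤ ∑ u ∈ Ico a (a + U), 4 * V * n * (13 * (1 / 2) ^ u + 2 * τ) := by
      have : ∑ t ∈ e.L, e.err δ t = ∑ u ∈ Ico a (a + U), ∑ t ∈ Icc 1 VV, e.err δ (u, t) :=
        Finset.sum_product _ _ _
      rw [this]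
      refine Finset.sum_le_sum fun u hu => ?_
      obtain ⟨hu1, hu2⟩ := Finset.mem_Ico.1 hu
      refine (Finset.sum_le_card_nsmul _ _ _ fun t ht => (herr u hu1 (by omega) t ht).2).trans ?_
      rw [nsmul_eq_mul, hcardV]
      have : 0 ≤ V * n * (13 * (1 / 2) ^ u + 2 * τ) := by positivity
      linarith
    have g2 : ∑ t ∈ e.H, e.wg t * e.err δ t ≤
        ∑ u ∈ Ico (a + U) u₁, 4 * V * n * (13 * (1 / 2) ^ u + 2 * τ) := by
      have : ∑ t ∈ e.H, e.wg t * e.err δ t =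
          ∑ u ∈ Ico (a + U) u₁, ∑ t ∈ Icc 1 VV, l u * e.err δ (u, t) :=
        Finset.sum_product _ _ _
      rw [this]
      refine Finset.sum_le_sum fun u hu => ?_
      obtain ⟨hu1, hu2⟩ := Finset.mem_Ico.1 hu
      refine (Finset.sum_le_card_nsmul _ _ (4 * ((13 * (1 / 2) ^ u + 2 * τ) * n)) fun t ht => ?_).trans
        ?_
      · obtain ⟨k1, k2⟩ := herr u (by omega) hu2 t ht
        exact mul_le_mul (hl4 u) k2 k1 (by norm_num)
      · rw [nsmul_eq_mul, hcardV]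
        exact le_of_eq (by ring)
    refine (add_le_add g1 g2).trans ?_
    rw [Finset.sum_Ico_consecutive _ (by omega) haU, ← Finset.mul_sum]
    have g3 := hsum a u₁ 13 (2 * τ) le_rfl (by norm_num) (by linarith)
    have g4 : 4 * V * (2 * 13 * q + u₁ * (2 * τ)) ≤ η := by linarith
    have g5 := mul_le_mul_of_nonneg_left g3 (by positivity : 0 ≤ 4 * V * n)
    have g6 := mul_le_mul_of_nonneg_right g4 hn0
    linarith
  · -- x0
    have g1 : e.X₀.card ≤ P.nX θ top a N' N := by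
      refine Finset.card_le_card fun j hj => ?_
      have hj' : N ≤ j.2.val + ll a ∨ (∃ i, a ≤ i ∧ i < top ∧ ¬ P.reg i (pos θ j)) ∨
          ∃ i, a ≤ i ∧ i < top ∧ P.st (pos θ j) i % ll i < P.ω i := (Finset.mem_filter.1 hj).2
      refine Finset.mem_filter.2 ⟨Finset.mem_univ _, ?_⟩
      rcases hj' with h | h | ⟨i, k1, k2, k3⟩
      · exact Or.inl h
      · exact Or.inr (Or.inl h)
      · exact Or.inr (Or.inr (Or.inl ⟨i, k1, k2, Or.inl k3⟩))
    have g2 : (e.X₀.card : ℝ) ≤ P.nX θ top a N' N := by exact_mod_cast g1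
    refine g2.trans ((hnX a (by omega)).trans (mul_le_mul_of_nonneg_right ?_ hn0))
    have g3 : τ ≤ V * (u₁ * τ) := by
      have : τ ≤ u₁ * τ := le_mul_of_one_le_left hτ hu₁
      exact this.trans (le_mul_of_one_le_left (by positivity) hV)
    have g4 : q ≤ V * q := le_mul_of_one_le_left hq0.le hV
    linarith
  · exact le_trans (le_self_pow₀ (by norm_num) (by omega)) (hP.kap.2 a).1
  · show (2 / P.κ a) ^ 2 ≤ η
    have g1 : 2 / P.κ a ≤ q := by
      rw [div_le_iff₀ (by linarith [hκ1 a])]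
      have := mul_le_mul_of_nonneg_left (hP.kap.2 a).1 hq0.le
      rw [pow_succ] at this
      nlinarith
    have g2 : q ≤ 1 := pow_le_one₀ (by norm_num) (by norm_num)
    have g3 := pow_le_pow_left₀ (div_nonneg (by norm_num) (by linarith [hκ1 a])) g1 2
    have g4 : q ≤ V * q := le_mul_of_one_le_left hq0.le hV
    nlinarith
  · refine le_trans ?_ h5
    have g1 : (e.w : ℝ) ≤ ll a := by exact_mod_cast hw.2.2
    exact mul_le_mul (mul_le_mul_of_nonneg_right (pow_le_pow_left₀ (Nat.cast_nonneg _) g1 2) hδ)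
      (pow_le_pow_left₀ hκt0 (hκt a le_rfl) 2) (by positivity) (by positivity)
  · refine h7.trans ?_
    have g1 : (ll a : ℝ) ≤ 2 * e.w := by exact_mod_cast hw.2.1
    show 5 * (ll a : ℝ) * e.B.card ≤ _
    refine mul_le_mul_of_nonneg_right (by linarith) (Nat.cast_nonneg _)
  · have g1 : 2 ^ 2 ≤ 2 ^ a := Nat.pow_le_pow_right (by norm_num) ha
    have := hw.1
    omega
  · have g1 : (2 : ℝ) ^ a ≤ e.w := by exact_mod_cast hw.1
    have := mul_le_mul_of_nonneg_left g1 hη.le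
    linarith
  · have g1 : ∑ t ∈ e.H, e.wg t * flow e.σ ρ (e.r t) (e.Z t) =
        ∑ u ∈ Ico (a + U) u₁, l u * ∑ t ∈ Icc 1 VV,
          flow (sg N' N) ρ (ll u) (P.Zs θ top N' N (u, t)) := by
      simp_rw [Finset.mul_sum]
      exact Finset.sum_product _ _ _
    rw [g1]
    refine (hfl ρ hρ).trans ?_
    have g2 : ∑ u ∈ Ico (a + U) u₁, l u * P.nX θ top u N' N ≤
        ∑ u ∈ Ico (a + U) u₁, 4 * n * (10 * (1 / 2) ^ u + τ) := by
      refine Finset.sum_le_sum fun u hu => ?_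
      refine (mul_le_mul (hl4 u) (hnX u (Finset.mem_Ico.1 hu).2) (Nat.cast_nonneg _)
        (by norm_num)).trans (le_of_eq (by ring))
    rw [← Finset.mul_sum] at g2
    have g3 := hsum (a + U) u₁ 10 τ le_rfl (by norm_num) hτ
    have g4 : (1 / 2 : ℝ) ^ (a + U) ≤ q / 2 := by
      refine (pow_le_pow_of_le_one (by norm_num) (by norm_num)
        (show a + 1 ≤ a + U by omega)).trans (le_of_eq ?_)
      rw [pow_succ]; ring
    have g5 : ∑ u ∈ Ico (a + U) u₁, (10 * (1 / 2 : ℝ) ^ u + τ) ≤ 10 * q + u₁ * τ := by linarith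
    have g6 := mul_le_mul_of_nonneg_left
      (g2.trans (mul_le_mul_of_nonneg_left g5 (by positivity))) (by linarith : 0 ≤ V)
    have g7 : 4 * V * √(∑ u ∈ Ico (a + U) u₁, l u ^ 2) ≤ η / 2 := by
      have := mul_le_mul_of_nonneg_left hsq (by linarith : 0 ≤ 4 * V)
      linarith
    have g8 := mul_le_mul_of_nonneg_right g7 hn0
    have g9 : V * (4 * (10 * q + u₁ * τ)) ≤ η / 2 := by linarith
    have g10 := mul_le_mul_of_nonneg_right g9 hn0
    linarith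

end Crest.Agent.R113
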