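import Crest.Agent.R113.DefsE

/-! Row 113, task PAR. -/

set_option autoImplicit false

namespace Crest.Agent.R113

open Finset

namespace PAR

variable (e : ℕ → ℝ → ℝ) (l : ℕ → ℕ) (V : ℕ) (c : ℕ → ℝ)

/-- the next `κ` -/
noncomputable def kap (u : ℕ) (x : ℝ × ℝ × ℝ) : ℝ := max x.2.1 (max (2 ^ (u + 1)) (100 / e u x.1))

/-- the next `ε` -/
noncomputable def eps (u : ℕ) (x : ℝ × ℝ × ℝ) : ℝ :=
  min x.2.2 (1 / (2 ^ (u + 1) * kap e u x ^ (2 * V * u + 2)))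

/-- the depths -/
noncomputable def dd (u : ℕ) (x : ℝ × ℝ × ℝ) : ℕ → ℝ
  | 0 => min (x.1 ^ l u * eps e V u x ^ 2) (1 / kap e u x ^ (2 * V * u))
  | t + 1 => (x.1 * dd u x t) ^ l u * eps e V u x ^ 2

/-- the state -/
noncomputable def T : ℕ → ℝ × ℝ × ℝ
  | 0 => (1, 1, 1)
  | u + 1 => ((T u).1 * dd e l V u (T u) (V - 1) * c u, kap e u (T u), eps e V u (T u))

lemma kap_ge (u : ℕ) (x : ℝ × ℝ × ℝ) : (2 : ℝ) ^ (u + 1) ≤ kap e u x :=
  (le_max_left _ _).trans (le_max_right _ _)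

lemma kap_pos (u : ℕ) (x : ℝ × ℝ × ℝ) : 0 < kap e u x :=
  lt_of_lt_of_le (by positivity) (kap_ge e u x)

lemma eps_pos (u : ℕ) {x : ℝ × ℝ × ℝ} (h : 0 < x.2.2) : 0 < eps e V u x := by
  have := kap_pos e u x
  exact lt_min h (by positivity)

lemma dd_mem (hl : ∀ u, 0 < l u) (u : ℕ) {x : ℝ × ℝ × ℝ} (h1 : 0 < x.1 ∧ x.1 ≤ 1)
    (h2 : 0 < x.2.2 ∧ x.2.2 ≤ 1) (t : ℕ) : (0 < dd e l V u x t ∧ dd e l V u x t ≤ 1) ∧
      dd e l V u x (t + 1) ≤ dd e l V u x t := by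
  have e0 := eps_pos e V u h2.1
  have e1 : eps e V u x ^ 2 ≤ 1 := pow_le_one₀ e0.le ((min_le_left _ _).trans h2.2)
  have k0 := kap_pos e u x
  have x0 := h1.1
  have step : ∀ y : ℝ, 0 < y → y ≤ 1 → (x.1 * y) ^ l u * eps e V u x ^ 2 ≤ y := by
    intro y y0 y1
    have a1 : x.1 * y ≤ y := mul_le_of_le_one_left y0.le h1.2
    have a2 : (x.1 * y) ^ l u ≤ x.1 * y :=
      pow_le_of_le_one (by positivity) (a1.trans y1) (hl u).ne'
    exact (mul_le_of_le_one_right (by positivity) e1).trans (a2.trans a1)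
  have main : 0 < dd e l V u x t ∧ dd e l V u x t ≤ 1 := by
    induction t with
    | zero =>
      refine ⟨lt_min (by positivity) (by positivity), (min_le_left _ _).trans ?_⟩
      exact mul_le_one₀ (pow_le_one₀ x0.le h1.2) (by positivity) e1
    | succ t ih =>
      have := ih.1
      exact ⟨by rw [dd]; positivity, (step _ ih.1 ih.2).trans ih.2⟩
  exact ⟨main, step _ main.1 main.2⟩

lemma T_mem (hl : ∀ u, 0 < l u) (hc : ∀ u, 0 < c u ∧ c u ≤ 1) (u : ℕ) :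
    (0 < (T e l V c u).1 ∧ (T e l V c u).1 ≤ 1) ∧
      (0 < (T e l V c u).2.2 ∧ (T e l V c u).2.2 ≤ 1) := by
  induction u with
  | zero => simp [T]
  | succ u ih =>
    obtain ⟨⟨d0, d1⟩, -⟩ := dd_mem e l V hl u ih.1 ih.2 (V - 1)
    exact ⟨⟨mul_pos (mul_pos ih.1.1 d0) (hc u).1,
      mul_le_one₀ (mul_le_one₀ ih.1.2 d0.le d1) (hc u).1.le (hc u).2⟩,
      eps_pos e V u ih.2.1, (min_le_left _ _).trans ih.2.2⟩

lemma approx (hDen : DenStmt) {θ : ℝ} (hθ : Irrational θ) (Q : ℕ) (hQ : 0 < Q) (τ : ℝ) (hτ : 0 < τ)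
    (m : ℕ) : ∃ k : ℕ, 0 < k ∧ (0 < m → ∃ n : ℤ, |((k * m * Q : ℕ) : ℝ) * θ - Q * n - 1| ≤ τ) := by
  rcases Nat.eq_zero_or_pos m with rfl | hm
  · exact ⟨1, one_pos, fun h => absurd h (lt_irrefl _)⟩
  have hQ' : (0 : ℝ) < Q := by exact_mod_cast hQ
  obtain ⟨w, hw⟩ := (hDen (m * θ) (hθ.natCast_mul hm.ne')).1 (τ / Q) (by positivity)
  obtain ⟨j, -, hj⟩ := hw (m * θ - 1 / Q)
  refine ⟨j + 1, by omega, fun _ => ⟨round (m * θ - 1 / Q + m * θ * j), ?_⟩⟩
  rw [nz, le_div_iff₀ hQ'] at hj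
  refine le_trans (le_of_eq ?_) hj
  generalize round (m * θ - 1 / Q + m * θ * j) = n
  rw [show (((j + 1) * m * Q : ℕ) : ℝ) * θ - Q * n - 1 = (m * θ - 1 / Q + m * θ * j - n) * Q by
    push_cast; field_simp; ring, abs_mul, abs_of_pos hQ']

end PAR

open PAR in
theorem PAR_proof (hPat : PatStmt) (hDen : DenStmt) : ParStmt := by
  intro θ εB hθ hB
  have hR : 0 < RR := by norm_num [RR]
  have hl : ∀ u, 0 < ll u := fun u => pow_pos hR u
  choose p hp s hs using fun u : ℕ => hPat (RR ^ (u + 3))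
  have hQ : ∀ u, 0 < ll u * p u := fun u => mul_pos (hl u) (lt_of_lt_of_le (pow_pos hR _) (hp u))
  have hτ : ∀ u, 0 < ze u / (2 * rg u) := fun u => by
    have h1 : (0 : ℝ) < RR := by exact_mod_cast hR
    have h2 : (0 : ℝ) < rg u := by exact_mod_cast pow_pos hR _
    unfold ze
    positivity
  choose k hk0 hk using fun u m => approx hDen hθ _ (hQ u) _ (hτ u) m
  obtain ⟨ω, r, hv⟩ := (hDen θ hθ).2
  let N : ℕ → ℕ := fun u => Nat.rec (k 0 1 * 1)
    (fun u x => k (u + 1) (x * (ll u * p u)) * (x * (ll u * p u))) u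
  have hN : ∀ u, 0 < N u := fun u => by
    induction u with
    | zero => exact mul_pos (hk0 0 1) one_pos
    | succ u ih => exact mul_pos (hk0 _ _) (mul_pos ih (hQ u))
  obtain ⟨e, he⟩ : ∃ e : ℕ → ℝ → ℝ, e = fun u x => εB (ll u - ω u) x := ⟨_, rfl⟩
  obtain ⟨c, hc⟩ : ∃ c : ℕ → ℝ, c = fun u => Real.exp (-(RR : ℝ) ^ (3 * u + 5)) := ⟨_, rfl⟩
  have hc' : ∀ u, 0 < c u ∧ c u ≤ 1 := fun u => by
    rw [hc]
    exact ⟨Real.exp_pos _, Real.exp_le_one_iff.mpr (neg_nonpos.mpr (by positivity))⟩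
  have hT := T_mem e ll VV c hl hc'
  have hd := fun u => dd_mem e ll VV hl u (hT u).1 (hT u).2
  refine ⟨⟨p, s, N, ω, r, fun u => (T e ll VV c u).1, fun u => dd e ll VV u (T e ll VV c u),
    fun u => kap e u (T e ll VV c u), fun u => eps e VV u (T e ll VV c u)⟩, hp, hs, hN,
    fun u => Dvd.intro_left _ rfl, fun u => ?_, hv, rfl, fun u => ?_, fun u => (hT u).1,
    fun u t => (hd u t).1, fun u => antitone_nat_of_succ_le fun t => (hd u t).2,
    fun u => ⟨min_le_left _ _, ?_⟩, fun u t => le_rfl,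
    ⟨monotone_nat_of_le_succ fun u => le_max_left _ _, fun u => ⟨kap_ge e u _, ?_⟩⟩,
    antitone_nat_of_succ_le fun u => min_le_left _ _, fun u => ⟨eps_pos e VV u (hT u).2.1, ?_⟩⟩
  · cases u with
    | zero => exact hk 0 1 one_pos
    | succ u => exact hk (u + 1) _ (mul_pos (hN u) (hQ u))
  · rw [show Real.exp (-(RR : ℝ) ^ (3 * u + 5)) = c u by rw [hc]]
    rfl
  · have := kap_pos e u (T e ll VV c u)
    exact (le_div_iff₀ (by positivity)).mp (min_le_right _ _)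
  · have h1 := kap_pos e u (T e ll VV c u)
    have h2 : 100 / e u (T e ll VV c u).1 ≤ kap e u (T e ll VV c u) :=
      (le_max_right _ _).trans (le_max_right _ _)
    have h3 : 0 < e u (T e ll VV c u).1 := by rw [he]; exact hB _ _ (he ▸ (hT u).1.1)
    have h4 : εB (ll u - ω u) (T e ll VV c u).1 = e u (T e ll VV c u).1 := by
      generalize (T e ll VV c u).1 = x
      rw [he]
    change 100 / kap e u (T e ll VV c u) ≤ εB (ll u - ω u) (T e ll VV c u).1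
    rw [h4, div_le_iff₀ h1]
    rwa [div_le_iff₀' h3] at h2
  · have h1 := kap_pos e u (T e ll VV c u)
    have h2 : eps e VV u (T e ll VV c u) ≤
        1 / (2 ^ (u + 1) * kap e u (T e ll VV c u) ^ (2 * VV * u + 2)) := min_le_right _ _
    rw [le_div_iff₀ (by positivity)] at h2
    change kap e u (T e ll VV c u) ^ (2 * VV * u + 2) * eps e VV u (T e ll VV c u) ≤ _
    rw [le_div_iff₀ (by positivity)]
    linarith

end Crest.Agent.R113
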