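import Crest.Agent.R113.DefsE

/-! Row 113, task PAT: a pseudo-random pattern. -/

set_option autoImplicit false

namespace Crest.Agent.R113

open Finset

namespace PAT

lemma close {a b V p : ℕ} (hp : 0 < p) (h : a * V / p = b * V / p) (hab : a ≤ b) :
    (b - a) * V < p := by
  have h1 := Nat.div_add_mod (a * V) p
  have h2 := Nat.div_add_mod (b * V) p
  have h3 := Nat.mod_lt (b * V) hp
  have h4 : (b - a) * V = b * V - a * V := Nat.sub_mul b a V
  rw [h] at h1
  omega

lemma main (V p : ℕ) (hV : 0 < V) (hp : p.Prime) (h2 : 2 < p) (hVp : V ≤ p) (δ : ℤ) (hδ : δ ≠ 0)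
    (hδp : |δ| < p) :
    V * ((range p).filter (fun β : ℕ => (((β : ℤ) ^ 2 % p).toNat * V) / p =
      ((((β : ℤ) + δ) ^ 2 % p).toNat * V) / p)).card ≤ 3 * p := by
  have hp0 : 0 < p := hp.pos
  have hpz : (0 : ℤ) < p := by exact_mod_cast hp0
  have hcard : ((range p).filter (fun β : ℕ => (((β : ℤ) ^ 2 % p).toNat * V) / p =
      ((((β : ℤ) + δ) ^ 2 % p).toNat * V) / p)).card ≤
      (Icc (-((p / V : ℕ) : ℤ)) ((p / V : ℕ) : ℤ)).card := by
    refine card_le_card_of_injOn (fun β : ℕ => ((β : ℤ) + δ) ^ 2 % p - (β : ℤ) ^ 2 % p) ?_ ?_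
    · intro β hβ
      have hβ' := (mem_filter.1 (mem_coe.1 hβ)).2
      set a := ((β : ℤ) ^ 2 % p).toNat with ha
      set b := (((β : ℤ) + δ) ^ 2 % p).toNat with hb
      have ha' : (β : ℤ) ^ 2 % p = a := by
        rw [ha, Int.toNat_of_nonneg (Int.emod_nonneg _ hpz.ne')]
      have hb' : ((β : ℤ) + δ) ^ 2 % p = b := by
        rw [hb, Int.toNat_of_nonneg (Int.emod_nonneg _ hpz.ne')]
      simp only [coe_Icc, Set.mem_Icc]
      rw [ha', hb']
      rcases le_total a b with hab | hab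
      · have h1 := close hp0 hβ' hab
        have h3 : b - a ≤ p / V := (Nat.le_div_iff_mul_le hV).2 h1.le
        constructor <;> omega
      · have h1 := close hp0 hβ'.symm hab
        have h3 : a - b ≤ p / V := (Nat.le_div_iff_mul_le hV).2 h1.le
        constructor <;> omega
    · intro β hβ β' hβ' he
      have hb := mem_range.1 (mem_filter.1 (mem_coe.1 hβ)).1
      have hb' := mem_range.1 (mem_filter.1 (mem_coe.1 hβ')).1
      simp only at he
      have e1 := Int.emod_add_mul_ediv (((β : ℤ) + δ) ^ 2) p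
      have e2 := Int.emod_add_mul_ediv ((β : ℤ) ^ 2) p
      have e3 := Int.emod_add_mul_ediv (((β' : ℤ) + δ) ^ 2) p
      have e4 := Int.emod_add_mul_ediv ((β' : ℤ) ^ 2) p
      have hd : (p : ℤ) ∣ 2 * δ * ((β : ℤ) - β') := by
        refine ⟨((β : ℤ) + δ) ^ 2 / p - (β : ℤ) ^ 2 / p - ((β' : ℤ) + δ) ^ 2 / p + (β' : ℤ) ^ 2 / p, ?_⟩
        linear_combination he - e1 + e2 + e3 - e4
      have hpr : Prime (p : ℤ) := Nat.prime_iff_prime_int.1 hp
      rcases hpr.dvd_or_dvd hd with h | h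
      · rcases hpr.dvd_or_dvd h with h | h
        · have := Int.le_of_dvd (by norm_num) h
          omega
        · have := Int.le_of_dvd (abs_pos.2 hδ) ((dvd_abs _ _).2 h)
          omega
      · have := Int.eq_zero_of_abs_lt_dvd h (by rw [abs_lt]; constructor <;> omega)
        omega
  have hc : (Icc (-((p / V : ℕ) : ℤ)) ((p / V : ℕ) : ℤ)).card = 2 * (p / V) + 1 := by
    rw [Int.card_Icc]
    omega
  rw [hc] at hcard
  have h5 : V * (p / V) ≤ p := Nat.mul_div_le p V
  calc V * _ ≤ V * (2 * (p / V) + 1) := Nat.mul_le_mul_left V hcard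
    _ = 2 * (V * (p / V)) + V := by ring
    _ ≤ 3 * p := by omega

end PAT

theorem PAT_proof : PatStmt := by
  intro n
  obtain ⟨p, hp1, hp⟩ := Nat.exists_infinite_primes (n + VV + 3)
  have hV : 0 < VV := by unfold VV; positivity
  refine ⟨p, by omega, fun β => ((β ^ 2 % p).toNat * VV) / p, ?_, ?_, ?_⟩
  · intro β
    have hpz : (0 : ℤ) < p := by exact_mod_cast hp.pos
    have h1 : (β ^ 2 % p).toNat < p := by
      have := Int.emod_lt_of_pos (β ^ 2) hpz
      have := Int.emod_nonneg (β ^ 2) hpz.ne'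
      omega
    rw [Nat.div_lt_iff_lt_mul hp.pos, mul_comm VV p]
    exact Nat.mul_lt_mul_of_pos_right h1 hV
  · intro β
    have : (β + p) ^ 2 % p = β ^ 2 % p := by
      have : (β + p) ^ 2 = β ^ 2 + p * (2 * β + p) := by ring
      rw [this, Int.add_mul_emod_self_left]
    simp only [this]
  · intro δ hδ hδp
    exact PAT.main VV p hV hp (by omega) (by omega) δ hδ hδp

end Crest.Agent.R113
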