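import Crest.Agent.R113.DefsE

set_option autoImplicit false

namespace Crest.Agent.R113

open Finset
open scoped Classical

namespace SEP

theorem RR_pos : 0 < RR := by norm_num [RR]

theorem ll_pos (u : ℕ) : 0 < ll u := pow_pos RR_pos u

theorem ll_mono {u v : ℕ} (h : u ≤ v) : ll u ≤ ll v := Nat.pow_le_pow_right RR_pos h

theorem per {s : ℤ → ℕ} {p : ℕ} (h : ∀ β, s (β + p) = s β) (β m : ℤ) : s (β + p * m) = s β := by
  have hp : Function.Periodic s (p : ℤ) := h
  have := hp.int_mul m β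
  rw [Int.cast_id, mul_comm] at this
  exact this

theorem div_add (z y L : ℤ) (hL : 0 < L) : (z + y) / L = z / L + (z % L + y) / L := by
  have : z + y = z % L + y + L * (z / L) := by have := Int.emod_add_mul_ediv z L; linarith
  rw [this, Int.add_mul_ediv_left _ _ hL.ne', add_comm]

theorem div_three (A t L : ℤ) (hL : 0 < L) (h0 : 0 ≤ t) (h2 : t < 2 * L) :
    ∃ e : ℕ, e < 3 ∧ (A + t) / L = A / L + e := by
  rw [div_add A t L hL]
  have h1 := Int.emod_nonneg A hL.ne'
  have h3 := Int.emod_lt_of_pos A hL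
  have h4 : 0 ≤ (A % L + t) / L := Int.ediv_nonneg (by omega) hL.le
  have h5 : (A % L + t) / L < 3 := Int.ediv_lt_of_lt_mul hL (by omega)
  exact ⟨((A % L + t) / L).toNat, by omega, by rw [Int.toNat_of_nonneg h4]⟩

theorem div_ne {r y L : ℤ} (hL : 0 < L) (h0 : 0 ≤ r) (h1 : r < L) (hy : L ≤ |y|) :
    (r + y) / L ≠ 0 := by
  intro h
  have h2 := Int.emod_add_mul_ediv (r + y) L
  have h3 := Int.emod_nonneg (r + y) hL.ne'
  have h4 := Int.emod_lt_of_pos (r + y) hL
  rw [h, mul_zero, add_zero] at h2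
  rcases abs_cases y with h5 | h5 <;> omega

/-- a test of level `u` separates -/
theorem sep_test (P : Par) {top a u : ℕ} {z z' : Sta} {y : ℤ} (hp : Pat (P.p u) (P.s u))
    (hau : a ≤ u) (hd : (P.Q u : ℤ) ∣ z' u - (z u + y)) (hne : (z u % ll u + y) / ll u ≠ 0)
    (hI : ¬ Itf top u z) (hE : ¬ P.Eqv a u (y / ll a) z) :
    ∃ t ∈ Icc 1 VV, ¬ (P.Zt top (u, t) z ↔ P.Zt top (u, t) z') := by
  have hL : (0 : ℤ) < ll u := by exact_mod_cast ll_pos u
  have hA : (0 : ℤ) < ll a := by exact_mod_cast ll_pos a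
  have hAL : (ll a : ℤ) ≤ ll u := by exact_mod_cast ll_mono hau
  obtain ⟨m, hm⟩ := hd
  have h1 : z' u / ll u + 1 = z u / ll u + 1 + (z u % ll u + y) / ll u + P.p u * m := by
    have : z' u = z u + y + ll u * (P.p u * m) := by
      rw [Par.Q] at hm; push_cast at hm; linarith
    rw [this, Int.add_mul_ediv_left _ _ hL.ne', div_add _ _ _ hL]; ring
  have h2 : P.sym u z' = P.s u (z u / ll u + 1 + (z u % ll u + y) / ll u) := by
    rw [Par.sym, h1, per hp.2.1]
  obtain ⟨e, he, h3⟩ := div_three (y / ll a * ll a) (y % ll a + z u % ll u) (ll u) hL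
    (add_nonneg (Int.emod_nonneg _ hA.ne') (Int.emod_nonneg _ hL.ne'))
    (by have := Int.emod_lt_of_pos y hA; have := Int.emod_lt_of_pos (z u) hL; omega)
  have h4 : y / ll a * ll a + (y % ll a + z u % ll u) = z u % ll u + y := by
    have := Int.emod_add_mul_ediv y (ll a); linarith
  rw [h4] at h3
  have h5 : P.sym u z ≠ P.sym u z' := fun h => hE ⟨e, he, h3 ▸ hne, by rw [← h3, ← h2, ← h]; rfl⟩
  have h6 : P.sym u z < VV := hp.1 _
  have h7 : P.sym u z' < VV := hp.1 _
  by_cases hI' : Itf top u z'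
  · refine ⟨VV, mem_Icc.2 ⟨by omega, le_rfl⟩, fun h => ?_⟩
    rcases h.2 (Or.inr hI') with h | h
    · exact absurd h (not_le.2 h6)
    · exact hI h
  · refine ⟨max (P.sym u z) (P.sym u z'), mem_Icc.2 ⟨by omega, by omega⟩, fun h => ?_⟩
    simp only [Par.Zt, hI, hI', or_false] at h
    omega

theorem card_good {S : Finset ℕ} {A B : ℕ → Prop} (hA : 4 * (S.filter A).card < S.card)
    (hB : 4 * (S.filter B).card < S.card) :
    S.card < 2 * (S.filter (fun u => ¬ A u ∧ ¬ B u)).card := by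
  have h : S ⊆ S.filter (fun u => ¬ A u ∧ ¬ B u) ∪ (S.filter A ∪ S.filter B) := by
    intro u hu
    simp only [mem_union, mem_filter]
    tauto
  have h1 := card_le_card h
  have h2 := card_union_le (S.filter (fun u => ¬ A u ∧ ¬ B u)) (S.filter A ∪ S.filter B)
  have h3 := card_union_le (S.filter A) (S.filter B)
  omega

end SEP

open SEP in
theorem SEP_proof (hFun2 : Fun2Stmt) : SepStmt := by
  intro P θ εB hP top u₁ a U N' N hLev e b hb k hk hc hch
  obtain ⟨hU1, hUa, hau, hut⟩ := hLev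
  obtain ⟨-, -, hSt, -, hG2, hG3, hreg⟩ := (mem_filter.1 hb).2
  have hk' : ¬ ∃ i, a ≤ i ∧ i < top ∧ P.st (pos θ k) i % ll i < P.ω i :=
    fun h => hk (mem_filter.2 ⟨mem_univ _, Or.inr (Or.inr h)⟩)
  have hch' : (k.1.val, k.2.val / ll u₁) = (b.1.val, b.2.val / ll u₁) := hch
  obtain ⟨h1, h2⟩ := Prod.mk.inj hch'
  set z := P.st (pos θ b) with hz
  set z' := P.st (pos θ k) with hz'
  set y : ℤ := (k.2.val : ℤ) - b.2.val with hy
  have hpos : pos θ k = pos θ b + θ * y := by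
    rw [pos, pos, h1, hy]; push_cast; ring
  have hyl : |y| < ll u₁ := by
    have e1 := Nat.div_add_mod k.2.val (ll u₁)
    have e2 := Nat.div_add_mod b.2.val (ll u₁)
    have e3 := Nat.mod_lt k.2.val (ll_pos u₁)
    have e4 := Nat.mod_lt b.2.val (ll_pos u₁)
    rw [h2] at e1
    rw [abs_lt]; constructor <;> omega
  have hex : ∃ x, |y| < ll (a + x + 1) := ⟨u₁ - a - 1, by
    rwa [show a + (u₁ - a - 1) + 1 = u₁ by omega]⟩
  set x := Nat.find hex with hx
  have hx1 : |y| < ll (a + x + 1) := Nat.find_spec hex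
  have hx2 : x < u₁ - a := by
    have : x ≤ u₁ - a - 1 := Nat.find_min' hex (by
      rwa [show a + (u₁ - a - 1) + 1 = u₁ by omega])
    omega
  have hx3 : x ≠ 0 → (ll (a + x) : ℤ) ≤ |y| := fun h => by
    have := Nat.find_min hex (show x - 1 < x by omega)
    rwa [show a + (x - 1) + 1 = a + x by omega, not_lt] at this
  have hA : (0 : ℤ) < ll a := by exact_mod_cast ll_pos a
  have hy0 : |y / ll a| ≤ (RR : ℤ) ^ (x + 1) := by
    have e1 : (ll (a + x + 1) : ℤ) = (RR : ℤ) ^ (x + 1) * ll a := by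
      simp only [ll]; push_cast; ring
    rw [e1, abs_lt] at hx1
    rw [abs_le]
    exact ⟨Int.le_ediv_of_mul_le hA (by linarith [hx1.1]),
      (Int.ediv_lt_of_lt_mul hA hx1.2).le⟩
  have hdv : ∀ u ∈ Sx a x, (P.Q u : ℤ) ∣ z' u - (z u + y) := fun u hu => by
    obtain ⟨hu1, hu2⟩ := mem_Icc.1 hu
    have r := (hreg 0 (ll_pos a)).1 u (by omega) (by omega)
    rw [Nat.cast_zero, mul_zero, add_zero] at r
    have : |y| ≤ rg u := hx1.le.trans (by
      exact_mod_cast Nat.pow_le_pow_right RR_pos (show a + x + 1 ≤ 2 * u + 4 by omega))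
    rw [hz', hpos]
    exact ((hFun2.1 P θ εB hP).2.2.2.1 u _ y r this).1
  have hne : ∀ u ∈ Sx a x, (z u % ll u + y) / ll u ≠ 0 := fun u hu => by
    obtain ⟨hu1, hu2⟩ := mem_Icc.1 hu
    have hL : (0 : ℤ) < ll u := by exact_mod_cast ll_pos u
    by_cases h0 : x = 0
    · obtain rfl : u = a := by omega
      intro h
      have e1 := Int.emod_add_mul_ediv (z u % ll u + y) (ll u)
      have e2 := Int.emod_nonneg (z u % ll u + y) hL.ne'
      have e3 := Int.emod_lt_of_pos (z u % ll u + y) hL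
      have e4 : z u % ll u = P.ω u := hSt.1
      rw [h, mul_zero, add_zero] at e1
      rcases lt_or_ge y 0 with hy1 | hy1
      · refine hk' ⟨u, le_rfl, by omega, ?_⟩
        obtain ⟨m, hm⟩ := hdv u hu
        have : z' u = z u + y + ll u * (P.p u * m) := by
          rw [Par.Q] at hm; push_cast at hm; linarith
        rw [this, Int.add_mul_emod_self_left, ← Int.emod_add_emod, e1]
        omega
      · have hlt := k.2.isLt
        obtain ⟨f1, f2, -⟩ := hFun2.2 θ N' N (k.2.val - b.2.val) b (by omega)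
        refine hc (mem_image.2 ⟨k.2.val - b.2.val, mem_range.2 ?_, ?_⟩)
        · show _ < ll u - P.ω u
          omega
        · refine Prod.ext (f1.trans (Fin.ext h1.symm)) (Fin.ext (f2.trans ?_))
          omega
    · refine div_ne hL (Int.emod_nonneg _ hL.ne') (Int.emod_lt_of_pos _ hL) (le_trans ?_ (hx3 h0))
      exact_mod_cast ll_mono hu2
  set Gd := (Sx a x).filter (fun u => ¬ Itf top u z ∧ ¬ P.Eqv a u (y / ll a) z) with hGd
  have hcard : (Sx a x).card < 2 * Gd.card := by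
    have := card_good (hG2 x hx2) (hG3 x hx2 _ hy0)
    convert this
  have hS : (Sx a x).card = a + x + 1 - (a + x / 2) := Nat.card_Icc _ _
  have hsep : ∀ u ∈ Gd, ∃ t ∈ Icc 1 VV, ¬ (b ∈ e.Z (u, t) ↔ k ∈ e.Z (u, t)) := fun u hu => by
    obtain ⟨hu1, hu2, hu3⟩ := mem_filter.1 hu
    obtain ⟨t, ht, h⟩ := sep_test P (hP.pat u) (by have := (mem_Icc.1 hu1).1; omega) (hdv u hu1)
      (hne u hu1) hu2 hu3
    refine ⟨t, ht, fun h' => h ?_⟩
    simpa only [e, Par.env, Par.Zs, mem_filter, mem_univ, true_and] using h'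
  by_cases hlow : ∃ u ∈ Gd, u < a + U
  · obtain ⟨u, hu, hlt⟩ := hlow
    obtain ⟨t, ht, h⟩ := hsep u hu
    have := (mem_Icc.1 (mem_filter.1 hu).1).1
    exact Or.inl ⟨(u, t), mem_product.2 ⟨mem_Ico.2 ⟨by omega, hlt⟩, ht⟩, h⟩
  right
  push Not at hlow
  have hw : ∀ t, 0 ≤ e.wg t := fun t => by show (0 : ℝ) ≤ 4 / _; positivity
  have hnn : ∀ t, 0 ≤ if (b ∈ e.Z t ↔ k ∈ e.Z t) then 0 else e.wg t := fun t => by
    split_ifs
    exacts [le_rfl, hw t]
  have hsub : Gd ⊆ Ico (a + U) u₁ := fun u hu => by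
    have := (mem_Icc.1 (mem_filter.1 hu).1).2
    exact mem_Ico.2 ⟨hlow u hu, by omega⟩
  have hH : e.H = Ico (a + U) u₁ ×ˢ Icc 1 VV := rfl
  rw [hH, sum_product]
  refine le_trans ?_ (sum_le_sum_of_subset_of_nonneg hsub fun u _ _ => sum_nonneg fun t _ => hnn _)
  have hx0 : (0 : ℝ) < (x : ℝ) + 1 := by positivity
  calc (1 : ℝ) ≤ Gd.card • (4 / ((x : ℝ) + 1)) := by
        rw [nsmul_eq_mul, ← mul_div_assoc, le_div_iff₀ hx0]
        have : x + 1 ≤ Gd.card * 4 := by omega
        exact_mod_cast (by simpa using this : 1 * (x + 1) ≤ Gd.card * 4)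
    _ ≤ _ := card_nsmul_le_sum _ _ _ fun u hu => by
        obtain ⟨t, ht, h⟩ := hsep u hu
        refine le_trans ?_ (single_le_sum (fun t _ => hnn (u, t)) ht)
        rw [if_neg h]
        show _ ≤ (4 : ℝ) / (((u - a : ℕ) : ℝ) + 1)
        have : u - a ≤ x := by have := (mem_Icc.1 (mem_filter.1 hu).1).2; omega
        have : ((u - a : ℕ) : ℝ) ≤ x := by exact_mod_cast this
        gcongr

end Crest.Agent.R113
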