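import Crest.Agent.R113.DefsE

set_option autoImplicit false

namespace Crest.Agent.R113

open Finset
open scoped Classical

namespace TST

lemma one_le_RR : 1 ≤ RR := by unfold RR; exact Nat.one_le_two_pow

lemma ll_pos (u : ℕ) : 0 < ll u := by unfold ll; exact pow_pos one_le_RR u

lemma ll_mono {u i : ℕ} (h : u ≤ i) : ll u ≤ ll i := Nat.pow_le_pow_right one_le_RR h

lemma ll_le_rg {u i : ℕ} (h : u ≤ i) : ll u ≤ rg i :=
  Nat.pow_le_pow_right one_le_RR (by omega)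

lemma small (y l n : ℤ) (hl : 0 < l) (hn : 0 ≤ n) (h : y % l + n < l) :
    (y + n) / l = y / l ∧ (y + n) % l = y % l + n := by
  rw [Int.ediv_emod_unique hl]
  have h1 := Int.emod_add_mul_ediv y l
  have h2 := Int.emod_nonneg y hl.ne'
  refine ⟨by linarith, by linarith, h⟩

lemma big (y l n : ℤ) (hl : 0 < l) (hn : n ≤ l) (h : l ≤ y % l + n) :
    (y + n) / l = y / l + 1 ∧ (y + n) % l = y % l + n - l := by
  rw [Int.ediv_emod_unique hl]
  have h1 := Int.emod_add_mul_ediv y l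
  have h2 := Int.emod_lt_of_pos y hl
  refine ⟨by linarith, by linarith, by linarith⟩

lemma coh {P : Par} {θ : ℝ} {εB : ℕ → ℝ → ℝ} (hP : P.Ok θ εB) (u : ℕ) (z' y : ℤ)
    (h : (P.Q u : ℤ) ∣ z' - y) :
    z' % ll u = y % ll u ∧ ∀ c, P.s u (z' / ll u + c) = P.s u (y / ll u + c) := by
  obtain ⟨k, hk⟩ := h
  have hl : (0 : ℤ) < ll u := by exact_mod_cast ll_pos u
  have hz : z' = y + (ll u : ℤ) * (P.p u * k) := by
    have : (P.Q u : ℤ) = ll u * P.p u := by unfold Par.Q; push_cast; ring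
    rw [this] at hk; linarith
  refine ⟨by rw [hz, Int.add_mul_emod_self_left], fun c => ?_⟩
  rw [hz, Int.add_mul_ediv_left _ _ hl.ne']
  have hper : Function.Periodic (P.s u) (P.p u : ℤ) := (hP.pat u).2.1
  have := hper.int_mul k (y / ll u + c)
  rw [← this]
  congr 1
  simp only [Int.cast_id]; ring

lemma lam_anti {P : Par} {θ : ℝ} {εB : ℕ → ℝ → ℝ} (hP : P.Ok θ εB) : Antitone P.lam := by
  refine antitone_nat_of_succ_le fun u => ?_
  rw [hP.lams u]
  have h1 := hP.lamp u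
  have h2 := hP.dp u (VV - 1)
  have h3 : Real.exp (-(RR : ℝ) ^ (3 * u + 5)) ≤ 1 := by
    rw [Real.exp_le_one_iff]
    have : (0 : ℝ) ≤ (RR : ℝ) ^ (3 * u + 5) := by positivity
    linarith
  have h4 := Real.exp_pos (-(RR : ℝ) ^ (3 * u + 5))
  have h6 : P.lam u * P.d u (VV - 1) ≤ P.lam u * 1 := mul_le_mul_of_nonneg_left h2.2 h1.1.le
  have h7 : 0 ≤ P.lam u * P.d u (VV - 1) := mul_nonneg h1.1.le h2.1.le
  nlinarith

lemma lam_succ_le {P : Par} {θ : ℝ} {εB : ℕ → ℝ → ℝ} (hP : P.Ok θ εB) (u t : ℕ) (ht : t ≤ VV) :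
    P.lam (u + 1) ≤ P.lam u * P.d u (t - 1) := by
  rw [hP.lams u]
  have h1 := hP.lamp u
  have h2 := hP.dp u (VV - 1)
  have h3 : Real.exp (-(RR : ℝ) ^ (3 * u + 5)) ≤ 1 := by
    rw [Real.exp_le_one_iff]
    have : (0 : ℝ) ≤ (RR : ℝ) ^ (3 * u + 5) := by positivity
    linarith
  have h5 : P.d u (VV - 1) ≤ P.d u (t - 1) := hP.danti u (by omega)
  have h6 : P.lam u * P.d u (VV - 1) ≤ P.lam u * P.d u (t - 1) :=
    mul_le_mul_of_nonneg_left h5 h1.1.le
  have h7 : 0 ≤ P.lam u * P.d u (VV - 1) := mul_nonneg h1.1.le h2.1.le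
  nlinarith

lemma one_le_kap {P : Par} {θ : ℝ} {εB : ℕ → ℝ → ℝ} (hP : P.Ok θ εB) (u : ℕ) : 1 ≤ P.κ u :=
  le_trans (one_le_pow₀ (by norm_num)) (hP.kap.2 u).1

lemma wt_eq (hFun2 : Fun2Stmt) (P : Par) (θ : ℝ) (N' N n : ℕ) (j : Ix N' N)
    (h : j.2.val + n ≤ N) :
    wt (sg N' N) (fun j => P.Fn (pos θ j)) n j = ∏ i ∈ range n, P.Fn (pos θ j + θ * i) := by
  unfold wt
  refine Finset.prod_congr rfl fun i hi => ?_
  have hi' := Finset.mem_range.1 hi
  show P.Fn (pos θ ((sg N' N ^ i) j)) = _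
  rw [(hFun2.2 θ N' N i j (by omega)).2.2]

/-- coherence for natural numbers of steps -/
lemma coh' (hFun2 : Fun2Stmt) {P : Par} {θ : ℝ} {εB : ℕ → ℝ → ℝ} (hP : P.Ok θ εB) (i n : ℕ)
    (x : ℝ) (hr : P.reg i x) (hn : n ≤ rg i) :
    P.st (x + θ * n) i % ll i = (P.st x i + n) % ll i ∧
      ∀ c, P.s i (P.st (x + θ * n) i / ll i + c) = P.s i ((P.st x i + n) / ll i + c) := by
  have h := ((hFun2.1 P θ εB hP).2.2.2.1 i x (n : ℤ) hr (by
    rw [abs_of_nonneg (by positivity)]; exact_mod_cast hn)).1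
  rw [Int.cast_natCast] at h
  exact coh hP i _ _ h

lemma tilt_neg (hFun2 : Fun2Stmt) {P : Par} {θ : ℝ} {εB : ℕ → ℝ → ℝ} (hP : P.Ok θ εB)
    (top u t : ℕ) (x : ℝ) (hu : u < top)
    (x2 : ∀ i, u ≤ i → i < top → P.reg i x)
    (x3 : ∀ i, u ≤ i → i < top → (P.ω i : ℤ) ≤ P.st x i % ll i)
    (x4 : ∀ n < ll u, max (ze u) (P.r top) ≤ nz (x + θ * n))
    (hZ : ¬ P.Zt top (u, t) (P.st x)) :
    (P.lam u * P.d u (t - 1)) ^ ll u ≤ ∏ i ∈ range (ll u), P.Fn (x + θ * i) := by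
  unfold Par.Zt Itf at hZ
  push Not at hZ
  obtain ⟨hs, hI⟩ := hZ
  simp only at hs hI
  have hpos : 0 ≤ P.lam u * P.d u (t - 1) := mul_nonneg (hP.lamp u).1.le (hP.dp u _).1.le
  rw [← Finset.card_range (ll u), ← Finset.prod_const, Finset.card_range]
  refine Finset.prod_le_prod (fun _ _ => hpos) fun n hn => ?_
  have hn' := Finset.mem_range.1 hn
  have hn'' : (n : ℤ) < ll u := by exact_mod_cast hn'
  have hhi : ∀ i, u < i → i < top → (P.ω i : ℤ) ≤ P.st (x + θ * n) i % ll i := by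
    intro i hi hi'
    have hl : (0 : ℤ) < ll i := by exact_mod_cast ll_pos i
    rw [(coh' hFun2 hP i n x (x2 i hi.le hi') (hn'.le.trans (ll_le_rg hi.le))).1]
    have h1 := hI i hi hi'
    unfold dst at h1
    rw [(small _ _ n hl (by positivity) (by linarith)).2]
    have := x3 i hi.le hi'
    have : (0 : ℤ) ≤ n := by positivity
    linarith
  have hl : (0 : ℤ) < ll u := by exact_mod_cast ll_pos u
  have hc := coh' hFun2 hP u n x (x2 u le_rfl hu) (hn'.le.trans (ll_le_rg le_rfl))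
  by_cases hcase : P.st x u % ll u + n < ll u
  · have h1 : P.lam u ≤ P.Fn (x + θ * n) := by
      refine (hFun2.1 P θ εB hP).1 top u _ (x4 n hn') fun i hi hi' => ?_
      rcases hi.eq_or_lt with rfl | hi
      · rw [hc.1, (small _ _ n hl (by positivity) hcase).2]
        have := x3 u le_rfl hu
        have : (0 : ℤ) ≤ n := by positivity
        linarith
      · exact hhi i hi hi'
    have h2 : P.lam u * P.d u (t - 1) ≤ P.lam u * 1 :=
      mul_le_mul_of_nonneg_left (hP.dp u _).2 (hP.lamp u).1.le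
    linarith
  · push Not at hcase
    have h1 := (hFun2.1 P θ εB hP).2.1 top u _ (x4 n hn') hhi
    have h2 := hc.2 0
    rw [add_zero, add_zero, (big _ _ n hl hn''.le hcase).1] at h2
    rw [h2] at h1
    have h3 : P.d u (t - 1) ≤ P.d u (P.s u (P.st x u / ll u + 1)) := by
      apply hP.danti u
      unfold Par.sym at hs
      omega
    exact (mul_le_mul_of_nonneg_left h3 (hP.lamp u).1.le).trans h1

lemma tilt_pos (hFun2 : Fun2Stmt) {P : Par} {θ : ℝ} {εB : ℕ → ℝ → ℝ} (hP : P.Ok θ εB)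
    (top u t : ℕ) (x : ℝ) (hu : u < top) (ht1 : 1 ≤ t) (ht2 : t ≤ VV)
    (x2 : ∀ i, u ≤ i → i < top → P.reg i x)
    (x3 : ∀ i, u ≤ i → i < top → (P.ω i : ℤ) ≤ P.st x i % ll i)
    (x3' : ∀ i, u ≤ i → i < top → (P.ω i : ℤ) ≤ (P.st x i + ll u) % ll i)
    (hZ : P.Zt top (u, t) (P.st x)) :
    ∏ i ∈ range (ll u), P.Fn (x + θ * i) ≤ (P.lam u * P.d u (t - 1)) ^ ll u * P.ε u ^ 2 := by
  rcases hZ with hs | ⟨i, hi, hi', hd⟩
  · simp only at hs
    have h1 := (hFun2.1 P θ εB hP).2.2.2.2 u (ll u) x (x2 u le_rfl hu) (by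
      unfold dst
      have := x3 u le_rfl hu
      linarith)
    have h2 : P.d u (P.sym u (P.st x)) ≤ P.d u (t - 1 + 1) := hP.danti u (by omega)
    exact h1.trans (h2.trans (hP.ds u (t - 1)))
  · simp only at hi hd
    have hl : (0 : ℤ) < ll i := by exact_mod_cast ll_pos i
    have hll : (ll u : ℤ) ≤ ll i := by exact_mod_cast ll_mono hi.le
    have h0 := x3' i hi.le hi'
    unfold dst at hd
    rw [(big _ _ _ hl hll (by linarith)).2] at h0
    have h1 := (hFun2.1 P θ εB hP).2.2.2.2 i (ll u) x (x2 i hi.le hi') (by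
      unfold dst
      linarith)
    have h2 : P.d i (P.sym i (P.st x)) ≤ P.d i 0 := hP.danti i (Nat.zero_le _)
    have h3 := (hP.d0 i).1
    have h4 : P.lam i ≤ P.lam u * P.d u (t - 1) :=
      (lam_anti hP (Nat.succ_le_of_lt hi)).trans (lam_succ_le hP u t ht2)
    have h5 : P.lam i ^ ll i ≤ (P.lam u * P.d u (t - 1)) ^ ll u :=
      (pow_le_pow_of_le_one (hP.lamp i).1.le (hP.lamp i).2 (ll_mono hi.le)).trans
        (pow_le_pow_left₀ (hP.lamp i).1.le h4 _)
    have h6 : P.ε i ^ 2 ≤ P.ε u ^ 2 :=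
      pow_le_pow_left₀ (hP.eps.2 i).1.le (hP.eps.1 hi.le) 2
    have h7 : P.lam i ^ ll i * P.ε i ^ 2 ≤ (P.lam u * P.d u (t - 1)) ^ ll u * P.ε u ^ 2 :=
      mul_le_mul h5 h6 (sq_nonneg _)
        (pow_nonneg (mul_nonneg (hP.lamp u).1.le (hP.dp u _).1.le) _)
    linarith

lemma stay (hFun2 : Fun2Stmt) {P : Par} {θ : ℝ} {εB : ℕ → ℝ → ℝ} (hP : P.Ok θ εB)
    (top a u t n : ℕ) (x : ℝ) (hau : a ≤ u) (hu : u < top) (hn : n ≤ ll a)
    (x2 : ∀ i, a ≤ i → i < top → P.reg i x)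
    (hd : ∀ i, a ≤ i → i < top → (n : ℤ) < dst i (P.st x i))
    (hZ : P.Zt top (u, t) (P.st x)) : P.Zt top (u, t) (P.st (x + θ * n)) := by
  rcases hZ with hs | ⟨i, hi, hi', hd'⟩
  · left
    simp only at hs ⊢
    have hl : (0 : ℤ) < ll u := by exact_mod_cast ll_pos u
    have hc := (coh' hFun2 hP u n x (x2 u hau hu) (hn.trans (ll_le_rg hau))).2 1
    have h1 := hd u hau hu
    unfold dst at h1
    rw [(small _ _ n hl (by positivity) (by linarith)).1] at hc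
    unfold Par.sym at hs ⊢
    rw [hc]; exact hs
  · right
    simp only at hi hd'
    refine ⟨i, hi, hi', ?_⟩
    have hai : a ≤ i := hau.trans hi.le
    have hl : (0 : ℤ) < ll i := by exact_mod_cast ll_pos i
    have hc := (coh' hFun2 hP i n x (x2 i hai hi') (hn.trans (ll_le_rg hai))).1
    have h1 := hd i hai hi'
    unfold dst at h1 hd' ⊢
    rw [hc, (small _ _ n hl (by positivity) (by linarith)).2]
    have : (0 : ℤ) ≤ n := by positivity
    simp only
    linarith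

end TST

open TST in
theorem TST_proof (hFun0 : Fun0Stmt) (hFun2 : Fun2Stmt) : TstStmt := by
  intro P θ εB hP top u₁ a U N' N hLev e
  obtain ⟨hU1, hUa, haU, hu₁⟩ := hLev
  have hmem : ∀ t ∈ e.L ∪ e.H, a ≤ t.1 ∧ t.1 < top ∧ 1 ≤ t.2 ∧ t.2 ≤ VV := by
    intro t ht
    rcases Finset.mem_union.1 ht with h | h
    · have h' : t ∈ Ico a (a + U) ×ˢ Icc 1 VV := h
      rw [Finset.mem_product, Finset.mem_Ico, Finset.mem_Icc] at h'
      omega
    · have h' : t ∈ Ico (a + U) u₁ ×ˢ Icc 1 VV := h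
      rw [Finset.mem_product, Finset.mem_Ico, Finset.mem_Icc] at h'
      omega
  refine ⟨fun j => (hFun0 P θ εB hP).2.2.1 _, ?_, ?_, ?_⟩
  · intro t _
    refine ⟨pow_pos (mul_pos (hP.lamp t.1).1 (hP.dp t.1 _).1) _, (hP.eps.2 t.1).1, ?_, ?_⟩
    · show P.ε t.1 ≤ 1 / 2
      have h1 := (hP.eps.2 t.1).2
      have h2 : (1 : ℝ) ≤ P.κ t.1 ^ (2 * VV * t.1 + 2) := one_le_pow₀ (one_le_kap hP _)
      have h3 : (1 : ℝ) / 2 ^ (t.1 + 1) ≤ 1 / 2 := by
        apply one_div_le_one_div_of_le (by norm_num)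
        calc (2 : ℝ) = 2 ^ 1 := by norm_num
          _ ≤ 2 ^ (t.1 + 1) := pow_le_pow_right₀ (by norm_num) (by omega)
      have h4 := mul_le_mul_of_nonneg_right h2 (hP.eps.2 t.1).1.le
      linarith
    · show (0 : ℝ) ≤ 4 / (((t.1 - a : ℕ) : ℝ) + 1)
      positivity
  · rintro ⟨u, t⟩ ht j hj
    obtain ⟨-, hu, ht1, ht2⟩ := hmem _ ht
    simp only at hu ht1 ht2
    have hj' : ¬ P.Xb θ top u j := by
      intro h
      exact hj (Finset.mem_filter.2 ⟨Finset.mem_univ _, h⟩)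
    unfold Par.Xb at hj'
    push Not at hj'
    obtain ⟨x1, x2, x3, x4⟩ := hj'
    have hw : wt e.σ e.f (e.r (u, t)) j = ∏ i ∈ range (ll u), P.Fn (pos θ j + θ * i) :=
      wt_eq hFun2 P θ N' N (ll u) j x1.le
    have hZ : j ∈ e.Z (u, t) ↔ P.Zt top (u, t) (P.st (pos θ j)) := by
      show j ∈ P.Zs θ top N' N (u, t) ↔ _
      unfold Par.Zs
      rw [Finset.mem_filter]
      exact ⟨fun h => h.2, fun h => ⟨Finset.mem_univ _, h⟩⟩
    rw [hw, hZ]
    exact ⟨fun h => tilt_neg hFun2 hP top u t _ hu x2 (fun i h1 h2 => (x3 i h1 h2).1) x4 h,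
      fun h => tilt_pos hFun2 hP top u t _ hu ht1 ht2 x2 (fun i h1 h2 => (x3 i h1 h2).1)
        (fun i h1 h2 => (x3 i h1 h2).2) h⟩
  · intro n hn j hj hj'
    have hn' : n < ll a - P.ω a := hn
    have hna : n ≤ ll a := by omega
    have hX : ∀ k : Ix N' N, k ∉ e.X₀ → k.2.val + ll a < N ∧
        (∀ i, a ≤ i → i < top → P.reg i (pos θ k)) ∧
        ∀ i, a ≤ i → i < top → (P.ω i : ℤ) ≤ P.st (pos θ k) i % ll i := by
      intro k hk
      have hk' : ¬ (N ≤ k.2.val + ll a ∨ (∃ i, a ≤ i ∧ i < top ∧ ¬ P.reg i (pos θ k)) ∨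
          ∃ i, a ≤ i ∧ i < top ∧ P.st (pos θ k) i % ll i < P.ω i) := by
        intro h
        exact hk (Finset.mem_filter.2 ⟨Finset.mem_univ _, h⟩)
      push Not at hk'
      exact hk'
    obtain ⟨x1, x2, x3⟩ := hX j hj
    obtain ⟨-, -, y3⟩ := hX _ hj'
    have hpos : pos θ ((e.σ ^ n) j) = pos θ j + θ * n :=
      (hFun2.2 θ N' N n j (by omega)).2.2
    by_cases hd : ∀ i, a ≤ i → i < top → (n : ℤ) < dst i (P.st (pos θ j) i)
    · left
      unfold Env.Θ
      apply Finset.card_le_card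
      intro t ht
      rw [Finset.mem_filter] at ht ⊢
      refine ⟨ht.1, ?_⟩
      obtain ⟨h1, h2, -, -⟩ := hmem t (Finset.mem_union_left _ ht.1)
      have h3 : P.Zt top t (P.st (pos θ j)) := (Finset.mem_filter.1 ht.2).2
      refine Finset.mem_filter.2 ⟨Finset.mem_univ _, ?_⟩
      rw [hpos]
      exact stay hFun2 hP top a t.1 t.2 n _ h1 h2 hna x2 hd h3
    · right
      push Not at hd
      obtain ⟨i, hi, hi', hd⟩ := hd
      have hw : wt e.σ e.f n j = ∏ k ∈ range n, P.Fn (pos θ j + θ * k) :=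
        wt_eq hFun2 P θ N' N n j (by omega)
      have hl : (0 : ℤ) < ll i := by exact_mod_cast ll_pos i
      have hnl : (n : ℤ) ≤ ll i := by exact_mod_cast hna.trans (ll_mono hi)
      have h0 := y3 i hi hi'
      rw [hpos, (coh' hFun2 hP i n _ (x2 i hi hi') (hna.trans (ll_le_rg hi))).1] at h0
      unfold dst at hd
      rw [(big _ _ _ hl hnl (by linarith)).2] at h0
      have h1 := (hFun2.1 P θ εB hP).2.2.2.2 i n _ (x2 i hi hi') (by
        unfold dst
        linarith)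
      have h2 : P.d i (P.sym i (P.st (pos θ j))) ≤ P.d i 0 := hP.danti i (Nat.zero_le _)
      have h3 := (hP.d0 i).2
      have hc : e.L.card = U * VV := by
        show (Ico a (a + U) ×ˢ Icc 1 VV).card = U * VV
        rw [Finset.card_product, Nat.card_Ico, Nat.card_Icc, Nat.add_sub_cancel_left,
          Nat.add_sub_cancel]
      have h4 : e.κ ^ (2 * e.L.card) ≤ P.κ i ^ (2 * VV * i) := by
        rw [hc]
        show P.κ a ^ (2 * (U * VV)) ≤ _
        calc P.κ a ^ (2 * (U * VV)) ≤ P.κ i ^ (2 * (U * VV)) :=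
              pow_le_pow_left₀ (zero_le_one.trans (one_le_kap hP a)) (hP.kap.1 hi) _
          _ ≤ P.κ i ^ (2 * VV * i) := by
              apply pow_le_pow_right₀ (one_le_kap hP i)
              calc 2 * (U * VV) = 2 * VV * U := by ring
                _ ≤ 2 * VV * i := Nat.mul_le_mul_left _ (hUa.trans hi)
      rw [hw]
      have h5 : 0 ≤ e.κ ^ (2 * e.L.card) :=
        pow_nonneg (zero_le_one.trans (one_le_kap hP a)) _
      calc _ ≤ P.d i 0 * P.κ i ^ (2 * VV * i) :=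
            mul_le_mul (h1.trans h2) h4 h5 (hP.dp i 0).1.le
        _ ≤ 1 := h3

end Crest.Agent.R113
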