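import Crest.Agent.R113.DefsE

set_option autoImplicit false

namespace Crest.Agent.R113

open Finset
open scoped Classical

namespace XCT

lemma ind_nonneg (p : Prop) : 0 ≤ ind p := by unfold ind; split_ifs <;> norm_num

lemma ind_le_one (p : Prop) : ind p ≤ 1 := by unfold ind; split_ifs <;> norm_num

lemma ind_pos {p : Prop} (h : p) : ind p = 1 := by unfold ind; simp [h]

lemma ind_neg {p : Prop} (h : ¬ p) : ind p = 0 := by unfold ind; simp [h]

lemma card_eq {α : Type} (s : Finset α) (p : α → Prop) [DecidablePred p] :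
    ((s.filter p).card : ℝ) = ∑ x ∈ s, ind (p x) := by
  rw [Finset.card_filter]; push_cast
  refine Finset.sum_congr rfl fun x _ => ?_
  by_cases h : p x <;> simp [ind, h]

lemma one_le_sum {α : Type} (s : Finset α) (f : α → ℝ) (h0 : ∀ x ∈ s, 0 ≤ f x) {a : α} (ha : a ∈ s)
    (h1 : 1 ≤ f a) : 1 ≤ ∑ x ∈ s, f x := h1.trans (Finset.single_le_sum h0 ha)

lemma RR_ge : (6 : ℝ) ≤ RR := by norm_num [RR]

lemma ll_cast (u : ℕ) : (ll u : ℝ) = (RR : ℝ) ^ u := by simp [ll]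

lemma ll_pos (u : ℕ) : 0 < ll u := by
  have : (0 : ℝ) < ll u := by rw [ll_cast]; have := RR_ge; positivity
  exact_mod_cast this

lemma ze_pos (u : ℕ) : 0 < ze u := by unfold ze; have := RR_ge; positivity

lemma ze_le (u : ℕ) : 6 * (ll u * ze u) ≤ (2 / (RR : ℝ)) ^ u := by
  have hR := RR_ge
  have h1 : (1 : ℝ) ≤ RR := by linarith
  have hp : (0 : ℝ) < (RR : ℝ) ^ u := by positivity
  rw [ll_cast, ze, div_pow, le_div_iff₀ hp]
  have e : (RR : ℝ) ^ (3 * u + 5) = (RR : ℝ) ^ u * (RR : ℝ) ^ u * ((RR : ℝ) ^ (u + 4) * RR) := by ring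
  have h2 : (1 : ℝ) ≤ (RR : ℝ) ^ (u + 4) := one_le_pow₀ h1
  have h3 : (6 : ℝ) ≤ (RR : ℝ) ^ (u + 4) * RR := by nlinarith
  have h4 : (1 : ℝ) ≤ 2 ^ u := one_le_pow₀ (by norm_num)
  rw [e]
  calc 6 * ((RR : ℝ) ^ u * (1 / ((RR : ℝ) ^ u * (RR : ℝ) ^ u * ((RR : ℝ) ^ (u + 4) * RR)))) *
        (RR : ℝ) ^ u = 6 / ((RR : ℝ) ^ (u + 4) * RR) := by field_simp
    _ ≤ 1 := by rw [div_le_one (by positivity)]; exact h3
    _ ≤ _ := h4

lemma ze_le' (u : ℕ) : 6 * ze u ≤ (2 / (RR : ℝ)) ^ u := by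
  have h1 : (1 : ℝ) ≤ ll u := by exact_mod_cast ll_pos u
  have := ze_le u
  have h2 := ze_pos u
  nlinarith

lemma geo (u top : ℕ) : ∑ i ∈ Ico u top, (2 / (RR : ℝ)) ^ i ≤ 2 * (2 / (RR : ℝ)) ^ u := by
  have hR := RR_ge
  have h0 : (0 : ℝ) ≤ 2 / RR := by positivity
  have h1 : (2 : ℝ) / RR ≤ 1 / 2 := by rw [div_le_div_iff₀ (by linarith) (by norm_num)]; linarith
  refine (geom_sum_Ico_le_of_lt_one h0 (by linarith)).trans ?_
  rw [div_le_iff₀ (by linarith)]
  have : 0 ≤ (2 / (RR : ℝ)) ^ u := by positivity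
  nlinarith

/-- the bound for one point -/
noncomputable def gg (P : Par) (θ : ℝ) (top u N' N k n : ℕ) : ℝ :=
  ind (N ≤ n + ll u) +
    (∑ i ∈ Ico u top, ind (nz ((P.M i : ℝ) * ((k : ℝ) / N' + θ * n)) < ze i) +
    (∑ i ∈ Ico u top, (ind (0 ≤ (P.st ((k : ℝ) / N' + θ * n) i + 0) % ll i ∧
        (P.st ((k : ℝ) / N' + θ * n) i + 0) % ll i < 0 + (P.ω i : ℕ)) +
      ind (0 ≤ (P.st ((k : ℝ) / N' + θ * n) i + ll u) % ll i ∧
        (P.st ((k : ℝ) / N' + θ * n) i + ll u) % ll i < 0 + (P.ω i : ℕ))) +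
    ∑ m ∈ range (ll u), ind (nz (((1 : ℕ) : ℝ) * ((k : ℝ) / N' + (θ * n + θ * m))) <
      max (ze u) (P.r top))))

lemma ind_le (P : Par) (θ : ℝ) (top u N' N : ℕ) (j : Ix N' N) :
    ind (P.Xb θ top u j) ≤ gg P θ top u N' N j.1.val j.2.val := by
  have s1 : 0 ≤ ind (N ≤ j.2.val + ll u) := ind_nonneg _
  have s2 : 0 ≤ ∑ i ∈ Ico u top,
      ind (nz ((P.M i : ℝ) * ((j.1.val : ℝ) / N' + θ * j.2.val)) < ze i) :=
    Finset.sum_nonneg fun _ _ => ind_nonneg _
  have s3 : 0 ≤ ∑ i ∈ Ico u top, (ind (0 ≤ (P.st ((j.1.val : ℝ) / N' + θ * j.2.val) i + 0) % ll i ∧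
        (P.st ((j.1.val : ℝ) / N' + θ * j.2.val) i + 0) % ll i < 0 + (P.ω i : ℕ)) +
      ind (0 ≤ (P.st ((j.1.val : ℝ) / N' + θ * j.2.val) i + ll u) % ll i ∧
        (P.st ((j.1.val : ℝ) / N' + θ * j.2.val) i + ll u) % ll i < 0 + (P.ω i : ℕ))) :=
    Finset.sum_nonneg fun _ _ => add_nonneg (ind_nonneg _) (ind_nonneg _)
  have s4 : 0 ≤ ∑ m ∈ range (ll u), ind (nz (((1 : ℕ) : ℝ) * ((j.1.val : ℝ) / N' +
      (θ * j.2.val + θ * m))) < max (ze u) (P.r top)) :=
    Finset.sum_nonneg fun _ _ => ind_nonneg _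
  unfold gg
  by_cases h : P.Xb θ top u j
  · rw [ind_pos h]
    rcases h with h | ⟨i, h1, h2, h3⟩ | ⟨i, h1, h2, h3⟩ | ⟨m, h1, h2⟩
    · rw [ind_pos h]; linarith
    · have := one_le_sum (Ico u top)
        (fun i => ind (nz ((P.M i : ℝ) * ((j.1.val : ℝ) / N' + θ * j.2.val)) < ze i))
        (fun _ _ => ind_nonneg _) (mem_Ico.mpr ⟨h1, h2⟩) (by
          rw [ind_pos]
          simpa [Par.reg, pos] using h3)
      linarith
    · have hl : ((ll i : ℕ) : ℤ) ≠ 0 := by exact_mod_cast (ll_pos i).ne'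
      have := one_le_sum (Ico u top)
        (fun i => ind (0 ≤ (P.st ((j.1.val : ℝ) / N' + θ * j.2.val) i + 0) % ll i ∧
          (P.st ((j.1.val : ℝ) / N' + θ * j.2.val) i + 0) % ll i < 0 + (P.ω i : ℕ)) +
          ind (0 ≤ (P.st ((j.1.val : ℝ) / N' + θ * j.2.val) i + ll u) % ll i ∧
          (P.st ((j.1.val : ℝ) / N' + θ * j.2.val) i + ll u) % ll i < 0 + (P.ω i : ℕ)))
        (fun _ _ => add_nonneg (ind_nonneg _) (ind_nonneg _)) (mem_Ico.mpr ⟨h1, h2⟩) (by
          rcases h3 with h3 | h3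
          · rw [ind_pos (p := 0 ≤ (P.st ((j.1.val : ℝ) / N' + θ * j.2.val) i + 0) % ll i ∧ _)
              ⟨Int.emod_nonneg _ hl, by simpa [pos] using h3⟩]
            exact le_add_of_nonneg_right (ind_nonneg _)
          · rw [ind_pos (p := 0 ≤ (P.st ((j.1.val : ℝ) / N' + θ * j.2.val) i + ll u) % ll i ∧ _)
              ⟨Int.emod_nonneg _ hl, by simpa [pos] using h3⟩]
            exact le_add_of_nonneg_left (ind_nonneg _))
      linarith
    · have := one_le_sum (range (ll u))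
        (fun m => ind (nz (((1 : ℕ) : ℝ) * ((j.1.val : ℝ) / N' +
          (θ * j.2.val + θ * m))) < max (ze u) (P.r top)))
        (fun _ _ => ind_nonneg _) (mem_range.mpr h1) (by
          rw [ind_pos]
          rw [Nat.cast_one, one_mul, ← add_assoc]
          exact h2)
      linarith
  · rw [ind_neg h]; linarith

lemma col (hInt : IntStmt) (hGrid : GridStmt) (P : Par) (θ : ℝ) (εB : ℕ → ℝ → ℝ) (hP : P.Ok θ εB)
    (top N' : ℕ) (φ : ℝ) (i : ℕ) (c : ℤ) (hi : i < top) (hN' : 0 < N') (hd : P.M (top - 1) ∣ N') :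
    ∑ k ∈ range N', ind (0 ≤ (P.st ((k : ℝ) / N' + φ) i + c) % ll i ∧
        (P.st ((k : ℝ) / N' + φ) i + c) % ll i < 0 + (P.ω i : ℕ)) ≤ (2 / (RR : ℝ)) ^ i * N' := by
  have hp : ∀ u, 0 < P.p u := fun u =>
    lt_of_lt_of_le (by have := ll_pos (u + 3); simpa [ll] using this) (hP.pge u)
  have h1 := hGrid.1 P θ εB hP top N' φ
    (fun z => ind (0 ≤ (z i + c) % ll i ∧ (z i + c) % ll i < 0 + (P.ω i : ℕ))) (by omega) hN' hd
    (by
      intro z z' hz
      have h : ((ll i : ℕ) : ℤ) ∣ z' i - z i := by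
        refine Dvd.dvd.trans ?_ (hz i)
        unfold Par.Q; push_cast; exact Dvd.intro _ rfl
      have : (z i + c) % ll i = (z' i + c) % ll i := by
        exact Int.modEq_iff_dvd.mpr (by simpa using h)
      simp only [this])
    (by
      intro z z' hz
      simp only [hz i hi])
  have h2 := (hInt P top hp).1 i hi c 0 (P.ω i)
  rw [h1, mul_comm]
  refine mul_le_mul_of_nonneg_right (h2.trans ?_) (Nat.cast_nonneg _)
  rw [ll_cast, div_pow]
  have hR := RR_ge
  refine div_le_div_of_nonneg_right ?_ (by positivity)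
  exact_mod_cast (hP.vis.1 i).2.1

lemma colsum (hInt : IntStmt) (hGrid : GridStmt) (P : Par) (θ : ℝ) (εB : ℕ → ℝ → ℝ)
    (hP : P.Ok θ εB) (top u N' N n : ℕ) (hN' : 0 < N') (hd : P.M (top - 1) ∣ N') :
    ∑ k ∈ range N', gg P θ top u N' N k n ≤ N' * ind (N ≤ n + ll u) +
      ((7 * (2 / (RR : ℝ)) ^ u + 6 * ll u * P.r top) * N' +
        (3 * ∑ i ∈ Ico u top, (P.M i : ℝ) + 3 * ll u)) := by
  have hp : ∀ u, 0 < P.p u := fun u =>
    lt_of_lt_of_le (by have := ll_pos (u + 3); simpa [ll] using this) (hP.pge u)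
  have hM : ∀ i, 0 < P.M i := fun i =>
    Nat.mul_pos (hP.npos i) (Nat.mul_pos (ll_pos i) (hp i))
  have hN0 : (0 : ℝ) ≤ N' := Nat.cast_nonneg _
  unfold gg
  rw [Finset.sum_add_distrib, Finset.sum_add_distrib, Finset.sum_add_distrib, Finset.sum_const,
    card_range, nsmul_eq_mul]
  have b1 : ∑ k ∈ range N', ∑ i ∈ Ico u top,
      ind (nz ((P.M i : ℝ) * ((k : ℝ) / N' + θ * n)) < ze i) ≤
      2 * (2 / (RR : ℝ)) ^ u * N' + 3 * ∑ i ∈ Ico u top, (P.M i : ℝ) := by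
    rw [Finset.sum_comm]
    calc _ ≤ ∑ i ∈ Ico u top, ((2 / (RR : ℝ)) ^ i * N' + 3 * (P.M i : ℝ)) := by
          refine Finset.sum_le_sum fun i _ => ?_
          have := hGrid.2 (P.M i) N' (θ * n) (ze i) (hM i) hN' (ze_pos i).le
          rw [card_eq] at this
          have h2 := mul_le_mul_of_nonneg_right (ze_le' i) hN0
          linarith
      _ = (∑ i ∈ Ico u top, (2 / (RR : ℝ)) ^ i) * N' + 3 * ∑ i ∈ Ico u top, (P.M i : ℝ) := by
          rw [Finset.sum_add_distrib, Finset.sum_mul, Finset.mul_sum]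
      _ ≤ _ := by
          have := mul_le_mul_of_nonneg_right (geo u top) hN0
          linarith
  have b2 : ∑ k ∈ range N', ∑ i ∈ Ico u top,
      (ind (0 ≤ (P.st ((k : ℝ) / N' + θ * n) i + 0) % ll i ∧
        (P.st ((k : ℝ) / N' + θ * n) i + 0) % ll i < 0 + (P.ω i : ℕ)) +
      ind (0 ≤ (P.st ((k : ℝ) / N' + θ * n) i + ll u) % ll i ∧
        (P.st ((k : ℝ) / N' + θ * n) i + ll u) % ll i < 0 + (P.ω i : ℕ))) ≤
      4 * (2 / (RR : ℝ)) ^ u * N' := by
    rw [Finset.sum_comm]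
    calc _ ≤ ∑ i ∈ Ico u top, (2 * (2 / (RR : ℝ)) ^ i * N') := by
          refine Finset.sum_le_sum fun i hi => ?_
          rw [Finset.sum_add_distrib]
          have h1 := col hInt hGrid P θ εB hP top N' (θ * n) i 0 (mem_Ico.mp hi).2 hN' hd
          have h2 := col hInt hGrid P θ εB hP top N' (θ * n) i (ll u) (mem_Ico.mp hi).2 hN' hd
          linarith
      _ = 2 * ((∑ i ∈ Ico u top, (2 / (RR : ℝ)) ^ i) * N') := by
          rw [Finset.sum_mul, Finset.mul_sum]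
          exact Finset.sum_congr rfl fun _ _ => by ring
      _ ≤ _ := by
          have := mul_le_mul_of_nonneg_right (geo u top) hN0
          linarith
  have b3 : ∑ k ∈ range N', ∑ m ∈ range (ll u),
      ind (nz (((1 : ℕ) : ℝ) * ((k : ℝ) / N' + (θ * n + θ * m))) < max (ze u) (P.r top)) ≤
      ((2 / (RR : ℝ)) ^ u + 6 * ll u * P.r top) * N' + 3 * ll u := by
    rw [Finset.sum_comm]
    have hr : 0 < P.r top := (hP.vis.1 top).2.2.1
    have hz := ze_pos u
    calc _ ≤ ∑ _m ∈ range (ll u), (6 * (ze u + P.r top) * N' + 3) := by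
          refine Finset.sum_le_sum fun m _ => ?_
          have := hGrid.2 1 N' (θ * n + θ * m) (max (ze u) (P.r top)) one_pos hN'
            (le_max_of_le_left hz.le)
          rw [card_eq] at this
          have h2 : max (ze u) (P.r top) ≤ ze u + P.r top := max_le (by linarith) (by linarith)
          have h3 := mul_le_mul_of_nonneg_right h2 hN0
          push_cast at this ⊢
          linarith
      _ = (6 * (ll u * ze u) + 6 * ll u * P.r top) * N' + 3 * ll u := by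
          rw [Finset.sum_const, card_range, nsmul_eq_mul]; ring
      _ ≤ _ := by
          have := mul_le_mul_of_nonneg_right (ze_le u) hN0
          linarith
  linarith

lemma rowcnt (N l : ℕ) : ∑ n ∈ range N, ind (N ≤ n + l) ≤ l := by
  rw [← card_eq]
  have : (range N).filter (fun n => N ≤ n + l) ⊆ Ico (N - l) N := by
    intro n hn
    simp only [mem_filter, mem_range, mem_Ico] at hn ⊢
    omega
  have h := Finset.card_le_card this
  rw [Nat.card_Ico] at h
  have : ((range N).filter (fun n => N ≤ n + l)).card ≤ l := by omega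
  exact_mod_cast this

lemma evt_and (P : Par) (Φ Ψ : ℕ → ℕ → ℕ → Prop) (h1 : P.Evt Φ) (h2 : P.Evt Ψ) :
    P.Evt (fun t N N' => Φ t N N' ∧ Ψ t N N') := by
  obtain ⟨t₁, h1⟩ := h1
  obtain ⟨t₂, h2⟩ := h2
  refine ⟨max t₁ t₂, fun top ht => ?_⟩
  obtain ⟨a₁, h1⟩ := h1 top (le_of_max_le_left ht)
  obtain ⟨a₂, h2⟩ := h2 top (le_of_max_le_right ht)
  refine ⟨max a₁ a₂, fun N hN => ?_⟩
  obtain ⟨b₁, h1⟩ := h1 N (le_of_max_le_left hN)
  obtain ⟨b₂, h2⟩ := h2 N (le_of_max_le_right hN)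
  exact ⟨max b₁ b₂, fun N' hN' hd =>
    ⟨h1 N' (le_of_max_le_left hN') hd, h2 N' (le_of_max_le_right hN') hd⟩⟩

end XCT

open XCT in
theorem XCT_proof (hExp : ExpStmt) (hInt : IntStmt) (hGrid : GridStmt) : XctStmt := by
  intro P θ εB hP
  refine ⟨fun u τ hτ => ?_, evt_and P, fun S Φ => ?_⟩
  · have hl : (0 : ℝ) < ll u := by exact_mod_cast ll_pos u
    have ht := hP.vis.2.2
    have hev : ∀ᶠ top in Filter.atTop, P.r top < τ / (18 * ll u) :=
      ht.eventually (gt_mem_nhds (by positivity))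
    obtain ⟨t₀, ht₀⟩ := Filter.eventually_atTop.mp hev
    refine ⟨t₀, fun top htop => ?_⟩
    obtain ⟨N₀, hN₀⟩ := exists_nat_ge (3 * (ll u : ℝ) / τ)
    refine ⟨N₀, fun N hN => ?_⟩
    obtain ⟨N₁, hN₁⟩ := exists_nat_ge (3 * (3 * ∑ i ∈ Ico u top, (P.M i : ℝ) + 3 * ll u) / τ)
    refine ⟨N₁ + 1, fun N' hN' hd => ?_⟩
    have hN'0 : 0 < N' := by omega
    have e1 : (3 * (ll u : ℝ)) ≤ τ * N := by
      have : (N₀ : ℝ) ≤ N := by exact_mod_cast hN
      rw [div_le_iff₀ hτ] at hN₀; nlinarith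
    have e2 : 3 * (3 * ∑ i ∈ Ico u top, (P.M i : ℝ) + 3 * ll u) ≤ τ * N' := by
      have : (N₁ : ℝ) ≤ N' := by exact_mod_cast (by omega : N₁ ≤ N')
      rw [div_le_iff₀ hτ] at hN₁; nlinarith
    have e3 : 6 * ll u * P.r top ≤ τ / 3 := by
      have := ht₀ top htop
      rw [lt_div_iff₀ (by positivity)] at this
      linarith
    have hN0 : (0 : ℝ) ≤ N := Nat.cast_nonneg _
    have hN'1 : (0 : ℝ) ≤ N' := Nat.cast_nonneg _
    have hq : 0 ≤ (2 / (RR : ℝ)) ^ u := by positivity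
    show (P.nX θ top u N' N : ℝ) ≤ _
    unfold Par.nX
    rw [card_eq]
    calc ∑ j : Ix N' N, ind (P.Xb θ top u j) ≤ ∑ j : Ix N' N, gg P θ top u N' N j.1.val j.2.val :=
          Finset.sum_le_sum fun j _ => ind_le P θ top u N' N j
      _ = ∑ n ∈ range N, ∑ k ∈ range N', gg P θ top u N' N k n := by
          rw [Fintype.sum_prod_type_right, ← Fin.sum_univ_eq_sum_range
            (fun n => ∑ k ∈ range N', gg P θ top u N' N k n) N]
          refine Finset.sum_congr rfl fun n _ => ?_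
          exact Fin.sum_univ_eq_sum_range (fun k => gg P θ top u N' N k n.val) N'
      _ ≤ ∑ n ∈ range N, (N' * ind (N ≤ n + ll u) + (7 * (2 / (RR : ℝ)) ^ u + 2 * τ / 3) * N') := by
          refine Finset.sum_le_sum fun n _ => ?_
          refine (colsum hInt hGrid P θ εB hP top u N' N n hN'0 hd).trans ?_
          have := mul_le_mul_of_nonneg_right e3 hN'1
          linarith
      _ = N' * ∑ n ∈ range N, ind (N ≤ n + ll u) + N * ((7 * (2 / (RR : ℝ)) ^ u + 2 * τ / 3) * N') := by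
          rw [Finset.sum_add_distrib, Finset.mul_sum, Finset.sum_const, card_range, nsmul_eq_mul]
      _ ≤ _ := by
          have h1 := mul_le_mul_of_nonneg_left (rowcnt N (ll u)) hN'1
          have h2 := mul_le_mul_of_nonneg_left e1 hN'1
          have h3 : 0 ≤ (2 / (RR : ℝ)) ^ u * (N' * N) := by positivity
          simp only [Fintype.card_prod, Fintype.card_fin, Nat.cast_mul]
          nlinarith
  · induction S using Finset.induction_on with
    | empty => intro _; exact ⟨0, fun _ _ => ⟨0, fun _ _ => ⟨0, fun _ _ _ => by simp⟩⟩⟩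
    | insert a S ha ih =>
      intro h
      obtain ⟨t₀, h0⟩ := evt_and P _ _ (h a (mem_insert_self _ _))
        (ih fun u hu => h u (mem_insert_of_mem hu))
      refine ⟨t₀, fun top ht => ?_⟩
      obtain ⟨N₀, h0⟩ := h0 top ht
      refine ⟨N₀, fun N hN => ?_⟩
      obtain ⟨N₁, h0⟩ := h0 N hN
      refine ⟨N₁, fun N' hN' hd => ?_⟩
      have := h0 N' hN' hd
      intro u hu
      rcases mem_insert.mp hu with rfl | hu
      · exact this.1
      · exact this.2 u hu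

end Crest.Agent.R113
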