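import Crest.Agent.R113.ALL1
import Crest.Agent.R113.PAT
import Crest.Agent.R113.DEN
import Crest.Agent.R113.PAR
import Crest.Agent.R113.FUN0
import Crest.Agent.R113.FUN1
import Crest.Agent.R113.FUN2
import Crest.Agent.R113.EXP
import Crest.Agent.R113.GRID
import Crest.Agent.R113.INT
import Crest.Agent.R113.GA
import Crest.Agent.R113.GB
import Crest.Agent.R113.GOOD
import Crest.Agent.R113.COV
import Crest.Agent.R113.TST
import Crest.Agent.R113.CEL
import Crest.Agent.R113.SEP
import Crest.Agent.R113.XCT
import Crest.Agent.R113.BCT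
import Crest.Agent.R113.FLW
import Crest.Agent.R113.OKE
import Crest.Agent.R113.ENVP

/-! Row 113 (S0149): final assembly. -/

set_option autoImplicit false

namespace Crest.Agent.R113

theorem flw_all : FlwStmt :=
  FLW_proof EXP_proof FUN2_proof GRID_proof (COV_proof EXP_proof (INT_proof EXP_proof))

theorem envp_all : EnvpStmt :=
  ENVP_proof (XCT_proof EXP_proof (INT_proof EXP_proof) GRID_proof)
    (BCT_proof GRID_proof (GOOD_proof EXP_proof (GA_proof EXP_proof (INT_proof EXP_proof))
      (GB_proof EXP_proof (INT_proof EXP_proof))))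
    flw_all
    (OKE_proof (TST_proof FUN0_proof FUN2_proof) (CEL_proof FUN2_proof) (SEP_proof FUN2_proof)
      flw_all)

theorem main_all : MainStmt :=
  main_of (env_of (PAR_proof PAT_proof DEN_proof) FUN0_proof FUN1_proof envp_all)

end Crest.Agent.R113
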