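import Crest.Agent.R113.DefsR

/-!
Row 113: approximate eigenvectors of a unitary are approximate eigenvectors of its functions.
-/

set_option autoImplicit false

namespace Crest.Agent.R113

open scoped ComplexOrder

namespace APE

theorem unif (f : ℂ → ℝ) (hf : Continuous f) (ε : ℝ) (hε : 0 < ε) :
    ∃ C : ℝ, 0 ≤ C ∧ ∀ z l : ℂ, ‖z‖ = 1 → ‖l‖ = 1 → (f z - f l) ^ 2 ≤ ε + C * ‖z - l‖ ^ 2 := by
  have hK : IsCompact (Metric.sphere (0 : ℂ) 1) := isCompact_sphere _ _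
  obtain ⟨M, hM⟩ := hK.exists_bound_of_continuousOn hf.continuousOn
  obtain ⟨δ, hδ, h⟩ := Metric.uniformContinuousOn_iff.1
    (hK.uniformContinuousOn_of_continuous hf.continuousOn) (√ε) (Real.sqrt_pos.2 hε)
  refine ⟨(2 * M) ^ 2 / δ ^ 2, by positivity, fun z l hz hl => ?_⟩
  have hz' : z ∈ Metric.sphere (0 : ℂ) 1 := by simpa using hz
  have hl' : l ∈ Metric.sphere (0 : ℂ) 1 := by simpa using hl
  by_cases hd : dist z l < δ
  · have h1 := h z hz' l hl' hd
    rw [Real.dist_eq] at h1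
    have h2 : (f z - f l) ^ 2 ≤ √ε ^ 2 := by
      rw [← sq_abs]
      exact pow_le_pow_left₀ (abs_nonneg _) h1.le 2
    rw [Real.sq_sqrt hε.le] at h2
    have : 0 ≤ (2 * M) ^ 2 / δ ^ 2 * ‖z - l‖ ^ 2 := by positivity
    linarith
  · rw [not_lt, dist_eq_norm] at hd
    have h1 := hM z hz'
    have h2 := hM l hl'
    rw [Real.norm_eq_abs] at h1 h2
    have h3 : |f z - f l| ≤ 2 * M := by
      have := abs_sub (f z) (f l)
      linarith
    have h4 : (f z - f l) ^ 2 ≤ (2 * M) ^ 2 := by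
      rw [← sq_abs]
      exact pow_le_pow_left₀ (abs_nonneg _) h3 2
    have h5 : (2 * M) ^ 2 ≤ (2 * M) ^ 2 / δ ^ 2 * ‖z - l‖ ^ 2 := by
      rw [div_mul_eq_mul_div, le_div_iff₀ (by positivity)]
      exact mul_le_mul_of_nonneg_left (pow_le_pow_left₀ hδ.le hd 2) (by positivity)
    linarith

variable {H : Type*} [NormedAddCommGroup H] [InnerProductSpace ℂ H] [CompleteSpace H]

theorem re_inner (G : H →L[ℂ] H) (v : H) : (inner ℂ v ((star G * G) v)).re = ‖G v‖ ^ 2 := by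
  have : (star G * G) v = ContinuousLinearMap.adjoint G (G v) := rfl
  rw [this, ContinuousLinearMap.adjoint_inner_right, inner_self_eq_norm_sq_to_K]
  norm_cast

theorem gen (V : H →L[ℂ] H) (hV : V ∈ unitary (H →L[ℂ] H)) (f : ℂ → ℝ) (hf : Continuous f) :
    ((∀ z : ℂ, ‖z‖ = 1 → |f z| ≤ 1) → ‖cfc (fun z : ℂ => (f z : ℂ)) V‖ ≤ 1) ∧
    ∀ ε : ℝ, 0 < ε → ∃ C : ℝ, 0 ≤ C ∧ ∀ (l : ℂ) (v : H), ‖l‖ = 1 →
      ‖cfc (fun z : ℂ => (f z : ℂ)) V v - (f l : ℂ) • v‖ ^ 2 ≤ ε * ‖v‖ ^ 2 + C * ‖V v - l • v‖ ^ 2 := by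
  have hsp : ∀ z ∈ spectrum ℂ V, ‖z‖ = 1 := fun z hz => by
    simpa using spectrum.subset_circle_of_unitary hV hz
  have hn : IsStarNormal V := isStarNormal_of_mem_unitary hV
  refine ⟨fun h => norm_cfc_le zero_le_one fun z hz => ?_, fun ε hε => ?_⟩
  · rw [Complex.norm_real, Real.norm_eq_abs]
    exact h z (hsp z hz)
  obtain ⟨C, hC, h⟩ := unif f hf ε hε
  refine ⟨C, hC, fun l v hl => ?_⟩
  have hf' : Continuous fun z : ℂ => (f z : ℂ) := Complex.continuous_ofReal.comp hf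
  have e1 : cfc (fun z : ℂ => (f z : ℂ) - f l) V =
      cfc (fun z : ℂ => (f z : ℂ)) V - algebraMap ℂ _ (f l : ℂ) := by
    rw [cfc_sub (fun z : ℂ => (f z : ℂ)) (fun _ => (f l : ℂ)) V, cfc_const (f l : ℂ) V]
  have e2 : cfc (fun z : ℂ => z - l) V = V - algebraMap ℂ _ l := by
    rw [cfc_sub (fun z : ℂ => z) (fun _ => l) V, cfc_const l V, cfc_id' ℂ V]
  have hle : cfc (fun z : ℂ => star ((f z : ℂ) - f l) * ((f z : ℂ) - f l)) V ≤
      cfc (fun z : ℂ => (ε : ℂ) + (C : ℂ) * (star (z - l) * (z - l))) V := by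
    refine cfc_mono fun z hz => ?_
    have h1 := h z l (hsp z hz) hl
    rw [Complex.star_def, Complex.conj_mul', Complex.conj_mul', ← Complex.ofReal_sub,
      Complex.norm_real, Real.norm_eq_abs]
    rw [← sq_abs] at h1
    exact_mod_cast h1
  rw [cfc_mul (fun z : ℂ => star ((f z : ℂ) - f l)) (fun z : ℂ => (f z : ℂ) - f l) V,
    cfc_star (fun z : ℂ => (f z : ℂ) - f l) V,
    cfc_const_add (ε : ℂ) (fun z : ℂ => (C : ℂ) * (star (z - l) * (z - l))) V,
    cfc_const_mul (C : ℂ) (fun z : ℂ => star (z - l) * (z - l)) V,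
    cfc_mul (fun z : ℂ => star (z - l)) (fun z : ℂ => z - l) V, cfc_star (fun z : ℂ => z - l) V,
    e1, e2] at hle
  have h2 := ((ContinuousLinearMap.le_def _ _).1 hle).re_inner_nonneg_right v
  rw [sub_apply, add_apply, smul_apply, inner_sub_right, inner_add_right, inner_smul_right,
    Algebra.algebraMap_eq_smul_one (ε : ℂ), smul_apply, inner_smul_right] at h2
  simp only [RCLike.re_to_complex, Complex.sub_re, Complex.add_re, Complex.re_ofReal_mul,
    re_inner] at h2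
  have e3 : (inner ℂ v ((1 : H →L[ℂ] H) v)).re = ‖v‖ ^ 2 := by
    have := re_inner (1 : H →L[ℂ] H) v
    rwa [star_one, one_mul] at this
  rw [e3] at h2
  simp only [Algebra.algebraMap_eq_smul_one] at h2
  have e4 : ∀ (X : H →L[ℂ] H) (a : ℂ), (X - a • 1) v = X v - a • v := fun X a => rfl
  rw [e4, e4] at h2
  linarith

end APE

theorem APE_proof : ApeStmt := fun V hV f hf => APE.gen V hV f hf

end Crest.Agent.R113
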