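import Mathlib

/-!
Row 113 (S0149), part L: finite dimensional linear algebra. `K` is a subspace of `ℂ^ι` that is almost
invariant under a weighted permutation.
-/

set_option autoImplicit false

namespace Crest.Agent.R113

open Finset Module

/-- the finite dimensional Hilbert space -/
abbrev E (ι : Type) : Type := EuclideanSpace ℂ ι

section L

variable {ι : Type} [Fintype ι] [DecidableEq ι]

/-- basis vector -/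
noncomputable def ev (j : ι) : E ι := EuclideanSpace.single j (1 : ℂ)

/-- weighted permutation: `ev j ↦ a j • ev (π j)` -/
noncomputable def wp (π : Equiv.Perm ι) (a : ι → ℝ) : E ι →ₗ[ℂ] E ι where
  toFun v := WithLp.toLp 2 (fun i => (a (π⁻¹ i) : ℂ) * v (π⁻¹ i))
  map_add' v w := by ext i; simp [mul_add]
  map_smul' c v := by ext i; simp; ring

@[simp] lemma wp_apply (π : Equiv.Perm ι) (a : ι → ℝ) (v : E ι) (i : ι) :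
    wp π a v i = (a (π⁻¹ i) : ℂ) * v (π⁻¹ i) := rfl

/-- coordinate projection -/
noncomputable def cut (Y : Finset ι) : E ι →ₗ[ℂ] E ι where
  toFun v := WithLp.toLp 2 (fun i => if i ∈ Y then v i else 0)
  map_add' v w := by ext i; by_cases h : i ∈ Y <;> simp [h]
  map_smul' c v := by ext i; by_cases h : i ∈ Y <;> simp [h]

@[simp] lemma cut_apply (Y : Finset ι) (v : E ι) (i : ι) :
    cut Y v i = if i ∈ Y then v i else 0 := rfl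

/-- orthogonal projection, as a linear map -/
noncomputable def pr (K : Submodule ℂ (E ι)) : E ι →ₗ[ℂ] E ι := K.starProjection.toLinearMap

lemma pr_apply (K : Submodule ℂ (E ι)) (v : E ι) : pr K v = K.starProjection v := rfl

/-- squared Hilbert–Schmidt norm -/
noncomputable def hs (B : E ι →ₗ[ℂ] E ι) : ℝ := ∑ j, ‖B (ev j)‖ ^ 2

/-- diagonal entry of the projection -/
noncomputable def rho (K : Submodule ℂ (E ι)) (j : ι) : ℝ := ‖pr K (ev j)‖ ^ 2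

/-- squared modulus of an entry of the projection -/
noncomputable def ent (K : Submodule ℂ (E ι)) (j k : ι) : ℝ := ‖pr K (ev j) k‖ ^ 2

/-- `tr (1_Y P)` -/
noncomputable def mass (K : Submodule ℂ (E ι)) (Y : Finset ι) : ℝ := ∑ j ∈ Y, rho K j

/-- `‖1_{Yᶜ} P 1_Y‖₂²` -/
noncomputable def cross (K : Submodule ℂ (E ι)) (Y : Finset ι) : ℝ := ∑ j ∈ Y, ∑ k ∈ Yᶜ, ent K j k

/-- mass of the entries between different chunks -/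
noncomputable def far (K : Submodule ℂ (E ι)) (ch : ι → ℕ × ℕ) : ℝ :=
  ∑ j, ∑ k, if ch j = ch k then 0 else ent K j k

/-- `‖(1 - P) B P‖₂²` -/
noncomputable def dfc (K : Submodule ℂ (E ι)) (B : E ι →ₗ[ℂ] E ι) : ℝ := hs (pr Kᗮ ∘ₗ B ∘ₗ pr K)

/-- two sided bound -/
def Bd (g : E ι →ₗ[ℂ] E ι) (lo hi : ℝ) : Prop := ∀ v, lo * ‖v‖ ≤ ‖g v‖ ∧ ‖g v‖ ≤ hi * ‖v‖

/-- `g` commutes with the coordinate projection -/
def Cm (g : E ι →ₗ[ℂ] E ι) (Y : Finset ι) : Prop := ∀ v, g (cut Y v) = cut Y (g v)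

/-- pairwise disjoint cells -/
def Dj (C : Finset (Finset ι)) : Prop := ∀ c ∈ C, ∀ c' ∈ C, c ≠ c' → Disjoint c c'

/-- the union of the cells -/
def un (C : Finset (Finset ι)) : Finset ι := C.biUnion id

/-- block diagonal for the cells, the identity outside -/
def Blk (C : Finset (Finset ι)) (g : E ι →ₗ[ℂ] E ι) : Prop :=
  (∀ c ∈ C, Cm g c) ∧ ∀ v, g (cut (un C)ᶜ v) = cut (un C)ᶜ v

/-- a subspace graded by the cells -/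
def Gr (C : Finset (Finset ι)) (G : Submodule ℂ (E ι)) : Prop :=
  (∀ c ∈ C, ∀ v ∈ G, cut c v ∈ G) ∧ ∀ v ∈ G, cut (un C) v = v

/-- product of the weights along `n` steps -/
def wt (σ : Equiv.Perm ι) (f : ι → ℝ) (n : ℕ) (j : ι) : ℝ := ∏ i ∈ range n, f ((σ ^ i) j)

/-- the cell of length `w` starting at `b` -/
def cell (σ : Equiv.Perm ι) (w : ℕ) (b : ι) : Finset ι := (range w).image (fun i => (σ ^ i) b)

/-- restriction to a cell -/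
noncomputable def res (σ : Equiv.Perm ι) (w : ℕ) (b : ι) : E ι →ₗ[ℂ] E (Fin w) where
  toFun v := WithLp.toLp 2 (fun i => v ((σ ^ i.val) b))
  map_add' v w := by ext i; simp
  map_smul' c v := by ext i; simp

@[simp] lemma res_apply (σ : Equiv.Perm ι) (w : ℕ) (b : ι) (v : E ι) (i : Fin w) :
    res σ w b v i = v ((σ ^ i.val) b) := rfl

/-- the cells are injective, disjoint, and far from each other -/
def Far (σ : Equiv.Perm ι) (w : ℕ) (B : Finset ι) : Prop :=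
  ∀ b ∈ B, ∀ b' ∈ B, ∀ i < 2 * w, ∀ i' < w, (σ ^ i) b = (σ ^ i') b' → b = b' ∧ i = i'

/-- the result of the scaling argument: `K` is close in rank to the graded space `G` on the cells -/
def Close (C : Finset (Finset ι)) (K G G' F F' : Submodule ℂ (E ι)) (γ ε : ℝ) : Prop :=
  Gr C G ∧ Gr C G' ∧ G ≤ G'ᗮ ∧ ((un C).card : ℝ) - γ ≤ finrank ℂ G + finrank ℂ G' ∧
    F ≤ K ∧ F' ≤ Kᗮ ∧ (finrank ℂ G : ℝ) - γ ≤ finrank ℂ F ∧ (finrank ℂ G' : ℝ) - γ ≤ finrank ℂ F' ∧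
    (∀ v ∈ F, ‖v - pr G v‖ ≤ ε * ‖v‖) ∧ ∀ u ∈ F', ‖u - pr G' u‖ ≤ ε * ‖u‖

/-- the flow through a cut -/
noncomputable def flow (σ : Equiv.Perm ι) (ρ : ι → ℝ) (r : ℕ) (Z : Finset ι) : ℝ :=
  ∑ j ∈ Zᶜ, (ρ ((σ ^ r) j) - ρ j)

end L

/-- truncated weighted shift by `n` steps on `ℂ^w` -/
noncomputable def ts {w : ℕ} (a : ℕ → ℝ) (n : ℕ) : E (Fin w) →ₗ[ℂ] E (Fin w) where
  toFun v := WithLp.toLp 2 (fun k => if h : n ≤ k.val then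
    ((∏ i ∈ range n, a (k.val - n + i) : ℝ) : ℂ) * v ⟨k.val - n, by omega⟩ else 0)
  map_add' v w := by ext i; by_cases h : n ≤ i.val <;> simp [h, mul_add]
  map_smul' c v := by ext i; by_cases h : n ≤ i.val <;> simp [h]; ring

lemma ts_apply {w : ℕ} (a : ℕ → ℝ) (n : ℕ) (v : E (Fin w)) (k : Fin w) :
    ts a n v k = if h : n ≤ k.val then
      ((∏ i ∈ range n, a (k.val - n + i) : ℝ) : ℂ) * v ⟨k.val - n, by omega⟩ else 0 := rfl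

/-- first half -/
def hd (w : ℕ) : Finset (Fin w) := univ.filter (fun i => i.val < w / 2)

/-- **BAS**. Elementary facts. (`hs B = hs B*`; `∑_j ‖B e_j‖² ≥ ∑_i ‖B u_i‖²` for an orthonormal
basis `u` of `F`, since `hs (B ∘ pr F) = hs (pr F ∘ B*) ≤ hs B*`.) -/
def BasStmt : Prop :=
  ∀ (ι : Type) [Fintype ι] [DecidableEq ι],
    (∀ (K : Submodule ℂ (E ι)) (j : ι), 0 ≤ rho K j ∧ rho K j ≤ 1 ∧ ∑ k, ent K j k = rho K j ∧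
      ent K j j = rho K j ^ 2 ∧ rho Kᗮ j = 1 - rho K j ∧ pr K (ev j) j = (rho K j : ℂ) ∧
      ∀ k, ent K j k = ent K k j ∧ (j ≠ k → ent Kᗮ j k = ent K j k)) ∧
    (∀ K : Submodule ℂ (E ι), ∑ j, rho K j = finrank ℂ K) ∧
    (∀ (K : Submodule ℂ (E ι)) (Y : Finset ι), mass K Y = hs (pr K ∘ₗ cut Y) ∧
      mass K Y = hs (cut Y ∘ₗ pr K) ∧ cross K Y = hs (cut Yᶜ ∘ₗ pr K ∘ₗ cut Y) ∧
      cross K Y = hs (pr Kᗮ ∘ₗ cut Y ∘ₗ pr K) ∧ cross K Y = mass K Y - hs (pr K ∘ₗ cut Y ∘ₗ pr K) ∧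
      cross Kᗮ Y = cross K Y) ∧
    (∀ B : E ι →ₗ[ℂ] E ι, hs (LinearMap.adjoint B) = hs B ∧
      (∀ (A : E ι →ₗ[ℂ] E ι) (c : ℝ), (∀ v, ‖A v‖ ≤ c * ‖v‖) →
        hs (A ∘ₗ B) ≤ c ^ 2 * hs B ∧ hs (B ∘ₗ A) ≤ c ^ 2 * hs B) ∧
      (∀ A : E ι →ₗ[ℂ] E ι, √(hs (A + B)) ≤ √(hs A) + √(hs B)) ∧
      ∀ (F : Submodule ℂ (E ι)) (c : ℝ), (∀ v ∈ F, c * ‖v‖ ^ 2 ≤ ‖B v‖ ^ 2) → c * finrank ℂ F ≤ hs B) ∧
    (∀ (σ : Equiv.Perm ι) (f : ι → ℝ) (n : ℕ), wp σ f ^ n = wp (σ ^ n) (wt σ f n)) ∧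
    (∀ (π : Equiv.Perm ι) (a : ι → ℝ) (c : ℝ) (v : E ι), 0 ≤ c → (∀ j, v j ≠ 0 → |a j| ≤ c) →
      ‖wp π a v‖ ≤ c * ‖v‖) ∧
    (∀ (π : Equiv.Perm ι) (a : ι → ℝ) (c : ℝ) (v : E ι), 0 ≤ c → (∀ j, v j ≠ 0 → c ≤ |a j|) →
      c * ‖v‖ ≤ ‖wp π a v‖) ∧
    (∀ (F : Submodule ℂ (E ι)) (X : Finset ι),
      (finrank ℂ F : ℝ) - X.card ≤ finrank ℂ (F ⊓ LinearMap.ker (cut X) : Submodule ℂ (E ι))) ∧
    ∀ (K F G : Submodule ℂ (E ι)), F ≤ K → G ≤ K →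
      (finrank ℂ F : ℝ) + finrank ℂ G - finrank ℂ K ≤ finrank ℂ (F ⊓ G : Submodule ℂ (E ι))

/-- **SPEC**. Spectral splitting: orthonormal eigenbasis of the symmetric operator
`pr K B* B` on `K`; `K₁` is spanned by the eigenvectors with eigenvalue `≤ t²`, `K₂` by the others. -/
def SpecStmt : Prop :=
  ∀ (ι : Type) [Fintype ι] [DecidableEq ι] (K : Submodule ℂ (E ι)) (B : E ι →ₗ[ℂ] E ι) (t : ℝ),
    0 ≤ t → ∃ K₁ K₂ : Submodule ℂ (E ι), K₁ ≤ K ∧ K₂ ≤ K ∧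
      finrank ℂ K₁ + finrank ℂ K₂ = finrank ℂ K ∧
      (∀ v ∈ K₁, ‖B v‖ ≤ t * ‖v‖) ∧ ∀ v ∈ K₂, t * ‖v‖ ≤ ‖B v‖

/-- **MONO** (uses BAS). Lowering `Y` lowers its mass. Step A: if `h` is injective, commutes with
`cut Y`, is the identity on `Yᶜ` and a contraction on `Y`, then for `j ∉ Y`, `v = pr K (ev j)`:
`‖v‖² = ⟪ev j, v⟫ = ⟪ev j, h v⟫ ≤ ‖pr (hK) (ev j)‖ ‖v‖`, so `mass (hK) Yᶜ ≥ mass K Yᶜ`, and the total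
mass is the dimension. Write `g/c = h₁ ∘ h₂`, `h₁ = g/c` on `Y` and `1` on `Yᶜ`, `h₂ = 1` on `Y` and
`g/c` on `Yᶜ`; apply step A to `h₁`, and (with `Y`, `Yᶜ` exchanged) to the inverse of `h₂`. -/
def MonoStmt : Prop :=
  ∀ (ι : Type) [Fintype ι] [DecidableEq ι] (K : Submodule ℂ (E ι)) (g : E ι →ₗ[ℂ] E ι) (Y : Finset ι)
    (c : ℝ), 0 < c → Function.Injective g → Cm g Y → (∀ v, ‖g (cut Y v)‖ ≤ c * ‖cut Y v‖) →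
    (∀ v, c * ‖cut Yᶜ v‖ ≤ ‖g (cut Yᶜ v)‖) → mass (K.map g) Y ≤ mass K Y

/-- **COND** (uses BAS). `e = g P g⁻¹`, `q = pr (gK)`: `(1-q) e = 0`, `e q = q`, so
`(1-q) Y q = (1-q) g (Y P - P Y) g⁻¹ q`; `hs (Y P - P Y) = 2 cross K Y`. Second part: sum over the
chunks `Y = {j | ch j = c}`. Third part: `(1-P) T^(n+1) P = (1-P) T^n (1-P) T P + (1-P) T^n P T P`. -/
def CondStmt : Prop :=
  ∀ (ι : Type) [Fintype ι] [DecidableEq ι] (K : Submodule ℂ (E ι)),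
    (∀ (g : E ι →ₗ[ℂ] E ι) (lo hi : ℝ), 0 < lo → Bd g lo hi →
      (∀ Y, Cm g Y → cross (K.map g) Y ≤ 2 * (hi / lo) ^ 2 * cross K Y) ∧
      ∀ ch : ι → ℕ × ℕ, (∀ c, Cm g (univ.filter (fun j => ch j = c))) →
        far (K.map g) ch ≤ 2 * (hi / lo) ^ 2 * far K ch) ∧
    ∀ (T : E ι →ₗ[ℂ] E ι) (n : ℕ), (∀ v, ‖T v‖ ≤ ‖v‖) → dfc K (T ^ n) ≤ (n : ℝ) ^ 2 * dfc K T

/-- **CRS** (uses BAS). With `x = (hi/lo · ε)²`: on `g K₁ ≤ g K`, `‖cut Zᶜ u‖² ≤ x ‖u‖²`, so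
`‖q Z q u‖ ‖u‖ ≥ ⟪u, Z u⟫ ≥ (1-x) ‖u‖²` and `hs (q Z q) ≥ (1-x)² dim K₁` if `x ≤ 1`; if `x > 1` the
claim follows from `cross ≤ mass`, `dim ≤ card`. -/
def CrsStmt : Prop :=
  ∀ (ι : Type) [Fintype ι] [DecidableEq ι] (K K₁ : Submodule ℂ (E ι)) (g : E ι →ₗ[ℂ] E ι)
    (Z : Finset ι) (lo hi ε : ℝ), 0 < lo → Bd g lo hi → Cm g Z → 0 ≤ ε → K₁ ≤ K →
    (∀ v ∈ K₁, ‖cut Zᶜ v‖ ≤ ε * ‖v‖) →
    cross (K.map g) Z ≤ mass (K.map g) Z - finrank ℂ K₁ + 2 * (hi / lo * ε) ^ 2 * Fintype.card ι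

/-- **TILT** (uses BAS, SPEC). SPEC for `B = cut Zᶜ`, `t = ε` gives `K₁, K₂`. SPEC for
`B = pr Kᗮ ∘ W ∘ pr K` (`W = wp π a`), `t = m ε²` gives `K₃` of codimension `≤ dfc / t²` in `K`.
For `v ∈ K₂ ⊓ K₃ ⊓ ker (cut X)`, `u = W v`, `A' = π (Zᶜ)`: `‖u‖ ≥ m ε ‖v‖`,
`‖cut A'ᶜ u‖ ≤ m ε² ‖v‖ ≤ ε ‖u‖`, `‖pr Kᗮ u‖ ≤ ε ‖u‖`, so `‖pr K (cut A' u)‖ ≥ (1 - 2ε) ‖u‖` and
`mass K A' ≥ (1 - 4ε) dim`. -/
def TiltStmt : Prop :=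
  ∀ (ι : Type) [Fintype ι] [DecidableEq ι] (K : Submodule ℂ (E ι)) (π : Equiv.Perm ι) (a : ι → ℝ)
    (Z X : Finset ι) (m ε : ℝ), 0 < m → 0 < ε → ε ≤ 1 / 2 →
    (∀ j ∉ X, (j ∉ Z → m ≤ a j) ∧ (j ∈ Z → |a j| ≤ m * ε ^ 2)) →
    ∃ K₁ : Submodule ℂ (E ι), K₁ ≤ K ∧ (∀ v ∈ K₁, ‖cut Zᶜ v‖ ≤ ε * ‖v‖) ∧
      mass K Z - ∑ j ∈ Zᶜ, (rho K (π j) - rho K j) - X.card - dfc K (wp π a) / (m * ε ^ 2) ^ 2 -
        4 * ε * Fintype.card ι ≤ finrank ℂ K₁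

/-- **SUB** (uses BAS, SPEC). `q = pr K`, `D = ∑_c cut cᶜ ∘ q ∘ cut c`, `hs D = ∑_c cross K c`.
For `v ∈ G`: `⟪v, q v⟫ = ∑_c ⟪v_c, q v_c⟫ + ⟪v, D v⟫`. SPEC on `G` with `t = 1/4`: on `G₁`,
`‖q v‖² ≥ ‖v‖²/4`; `F = q G₁`; for `u = q v`: `‖u‖² = ⟪u, v⟫ = ⟪pr G u, v⟫ ≤ ‖pr G u‖ · 2 ‖u‖`. -/
def SubStmt : Prop :=
  ∀ (ι : Type) [Fintype ι] [DecidableEq ι] (C : Finset (Finset ι)) (K G : Submodule ℂ (E ι)),
    Dj C → Gr C G → (∀ c ∈ C, ∀ w ∈ G, cut c w = w → ‖w‖ ^ 2 / 2 ≤ ‖pr K w‖ ^ 2) →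
    ∃ F : Submodule ℂ (E ι), F ≤ K ∧ (finrank ℂ G : ℝ) - 16 * ∑ c ∈ C, cross K c ≤ finrank ℂ F ∧
      ∀ u ∈ F, ‖u‖ ≤ 2 * ‖pr G u‖

/-- **SCL** (operator scaling). Minimise `J g = det (Gram of g on K) / |det g|` over the compact set
`{g | Blk C g ∧ Bd g κ⁻¹ κ}` (matrices; `Gram g = (g B)ᴴ (g B)`, the columns of `B` a basis of `K`).
For a unit vector `w` in a cell and real `t > -1`, `g_t = (1 + t w w*) g` is block diagonal,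
`det Gram g_t = det Gram g · (1 + (2t + t²) ‖pr (gK) w‖²)` (matrix determinant lemma) and
`|det g_t| = (1 + t) |det g|`. `‖g_t x‖² = ‖g x‖² + (2t + t²) |⟪g* w, x⟫|²`. If `w ⊥ ker (κ² - g g*)`
then `g* w ⊥ ker (κ² - g* g)`, so `g* w = (κ² - g* g) z` and by Cauchy–Schwarz for the nonnegative
form `|⟪g* w, x⟫|² ≤ c (κ² ‖x‖² - ‖g x‖²)`: `g_t` is feasible for small `t > 0`, so
`(2 + t) ‖pr (gK) w‖² ≥ 1`. The same for small `t < 0` with `g* g - κ⁻²`. -/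
def SclStmt : Prop :=
  ∀ (ι : Type) [Fintype ι] [DecidableEq ι] (C : Finset (Finset ι)) (K : Submodule ℂ (E ι)) (κ : ℝ),
    Dj C → 1 < κ → ∃ g : E ι →ₗ[ℂ] E ι, Blk C g ∧ Bd g κ⁻¹ κ ∧
      ∀ c ∈ C, ∀ w : E ι, cut c w = w →
        ((∀ y, g (LinearMap.adjoint g y) = ((κ ^ 2 : ℝ) : ℂ) • y → inner ℂ y w = 0) →
          ‖w‖ ^ 2 / 2 ≤ ‖pr (K.map g) w‖ ^ 2) ∧
        ((∀ y, g (LinearMap.adjoint g y) = ((κ⁻¹ ^ 2 : ℝ) : ℂ) • y → inner ℂ y w = 0) →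
          ‖pr (K.map g) w‖ ^ 2 ≤ ‖w‖ ^ 2 / 2)

/-- **GRD** (uses BAS, SCL, SUB). `g` from SCL, `E₊ = ker (g g* - κ²)`, `E₋ = ker (g g* - κ⁻²)`,
`E₀ = (vectors supported on un C) ⊓ E₊ᗮ ⊓ E₋ᗮ`; all graded (`g*` is block diagonal too). For
`w ∈ E₀` in the cell `c` the form `⟪x, (q - 1/2) x⟫` vanishes at `w`, is `≥ 0` on `E₊ᗮ` and `≤ 0` on
`E₋ᗮ` (inside the cell), so `cut c (q w) = w/2`, `‖cut cᶜ (q w)‖² = ‖w‖²/4`; hence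
`dim E₀ ≤ 4 μ` (use `D = ∑_c cut cᶜ q cut c` or sum over the cells). SUB for `(gK, E₋)` and
`((gK)ᗮ, E₊)`; intersect with `E₀ᗮ`; `F = g⁻¹ F₁`, `G = g⁻¹ E₋ = ker (g* g - κ⁻²)`, `F' = g* F₁'`,
`G' = g* E₊ = ker (g* g - κ²)`. For `u = u₋ + u₊ + u_out`: `‖g⁻¹ u₋‖ = κ ‖u₋‖ ≥ κ ‖u‖/2`, and
`‖g⁻¹ u₊ + u_out‖ ≤ ‖u‖` is orthogonal to `G`. -/
def GrdStmt : Prop :=
  ∀ (ι : Type) [Fintype ι] [DecidableEq ι] (C : Finset (Finset ι)) (K : Submodule ℂ (E ι)) (κ μ : ℝ),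
    Dj C → 1 < κ → (∀ g : E ι →ₗ[ℂ] E ι, Blk C g → Bd g κ⁻¹ κ → ∑ c ∈ C, cross (K.map g) c ≤ μ) →
    ∃ G G' F F' : Submodule ℂ (E ι), Close C K G G' F F' (20 * μ) (2 / κ)

/-- **DIA** (uses BAS). `Π = cut (un C)`, `q = pr K`, `P = pr G`, `P' = pr G'`:
`hs (q P) ≥ hs (P ∘ pr F) ≥ (1 - ε²) dim F`, so `tr P(1-q) ≤ γ + ε² N`, `tr P' q ≤ γ + ε² N`;
`G₀ = (supported on un C) ⊓ Gᗮ ⊓ G'ᗮ` has dimension `≤ γ`;
`∑_j (q_jj - P_jj)² ≤ hs (Π q Π - P) ≤ tr Π q - 2 tr P q + tr P`. The second part is the first one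
for `Kᗮ, G', G, F', F`. -/
def DiaStmt : Prop :=
  ∀ (ι : Type) [Fintype ι] [DecidableEq ι] (C : Finset (Finset ι)) (K G G' F F' : Submodule ℂ (E ι))
    (γ ε : ℝ), 0 ≤ γ → 0 ≤ ε → Close C K G G' F F' γ ε →
    ∑ j ∈ un C, (rho K j - rho G j) ^ 2 ≤ 3 * γ + 2 * ε ^ 2 * Fintype.card ι ∧
    ∑ j ∈ un C, (1 - rho K j - rho G' j) ^ 2 ≤ 3 * γ + 2 * ε ^ 2 * Fintype.card ι

/-- **PIV** (uses BAS). `I` = the set of first nonzero coordinates of vectors of `G`, `I'` = the set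
of last nonzero coordinates of vectors of `G'`. `dim (G ⊓ {v_i = 0, i < j})` drops by at most one at
each `j`, and only at `j ∈ I`, so `mass G (hd w) ≤ #(I ∩ hd w)`; likewise for `G'`. `Y n` is spanned
by chosen `v_j ∈ G` (first nonzero coordinate `j`), `j ∈ I`, `j + n ∈ I'`. If `0 ≠ v ∈ Y n` has first
nonzero coordinate `j`, pair `ts a n v` with `u ∈ G'` whose last nonzero coordinate is `j + n`. -/
def PivStmt : Prop :=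
  ∀ (w : ℕ) (G G' : Submodule ℂ (E (Fin w))) (a : ℕ → ℝ), (∀ i < w, 0 < a i) →
    ∃ Y : ℕ → Submodule ℂ (E (Fin w)), (∀ n, ∀ v ∈ Y n, pr G' (ts a n (pr G v)) = 0 → v = 0) ∧
      mass G (hd w) * mass G' (hd w)ᶜ ≤ ∑ n ∈ range w, (finrank ℂ (Y n) : ℝ)

/-- the conclusion of BLK -/
def BlkP (εB : ℕ → ℝ → ℝ) : Prop :=
  ∀ (w : ℕ) (lam : ℝ), 0 < lam → 0 < εB w lam ∧
    ∀ (G G' : Submodule ℂ (E (Fin w))) (a : ℕ → ℝ), (∀ i < w, lam ≤ a i ∧ a i ≤ 1) →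
      ∃ Y : ℕ → Submodule ℂ (E (Fin w)),
        (∀ n < w, ∀ v ∈ Y n, εB w lam * ‖v‖ ≤ ‖pr G' (ts a n (pr G v))‖) ∧
        mass G (hd w) * mass G' (hd w)ᶜ - 1 ≤ ∑ n ∈ range w, (finrank ℂ (Y n) : ℝ)

/-- **BLK** (uses PIV). Compactness of the set of triples `(P, P', a)`: two star projections in
`E (Fin w) →L[ℂ] E (Fin w)` (closed, norm `≤ 1`; a star projection is the projection onto its range)
and `a ∈ [lam, 1]^w`. At a point take `Y` from PIV and `ε` with `2ε ‖v‖ ≤ ‖P' ts P v‖` on `Y n`,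
`n < w`; the same `Y` works with `ε` in a neighbourhood. -/
def BlkStmt : Prop := ∃ εB, BlkP εB

/-- **DIM** (uses BAS). `ext_b : E (Fin w) → E ι` the isometry onto the cell (the adjoint of
`res σ w b`); for graded `G`, `pr G` commutes with `cut (cell)` and
`pr G (ext y) = ext (pr (G.map res) y)`; this gives part one. Part two: `Y = ⊕ ext_b (Y b)`,
`Bop = pr G' ∘ W ∘ pr G`, `W = wp (σ^n) a`. `W` maps a cell to a set that meets no other cell (`Far`),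
so `εB ‖v‖ ≤ ‖Bop v‖` on `Y`. `pr G` is injective on `F` and on `Y`. The `v ∈ Y` with
`pr G v ∈ pr G F`, `Bop v ∈ pr G' F'` form a subspace of dimension `≥ dim Y - 2γ`; for them
`‖Bop v‖² ≤ ε' · 2‖v‖ · 2‖Bop v‖`, so `v = 0`. -/
def DimStmt : Prop :=
  ∀ (ι : Type) [Fintype ι] [DecidableEq ι] (σ : Equiv.Perm ι) (w : ℕ) (B : Finset ι), Far σ w B →
    (∀ G : Submodule ℂ (E ι), Gr (B.image (cell σ w)) G → ∀ b ∈ B, ∀ i : Fin w,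
      rho (G.map (res σ w b)) i = rho G ((σ ^ i.val) b)) ∧
    ∀ (f a : ι → ℝ) (n : ℕ) (G G' F F' : Submodule ℂ (E ι)) (γ ε' εB : ℝ)
      (Y : ι → Submodule ℂ (E (Fin w))), n < w →
      Gr (B.image (cell σ w)) G → Gr (B.image (cell σ w)) G' →
      (finrank ℂ G : ℝ) - γ ≤ finrank ℂ F → (finrank ℂ G' : ℝ) - γ ≤ finrank ℂ F' →
      (∀ v ∈ F, ‖v‖ ≤ 2 * ‖pr G v‖) → (∀ u ∈ F', ‖u‖ ≤ 2 * ‖pr G' u‖) →
      (∀ b ∈ B, ∀ i, i + n < w → a ((σ ^ i) b) = wt σ f n ((σ ^ i) b)) →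
      (∀ v ∈ F, ∀ u ∈ F', ‖inner ℂ (pr G' u) (wp (σ ^ n) a (pr G v))‖ ≤ ε' * (‖v‖ * ‖u‖)) →
      0 ≤ ε' → 4 * ε' < εB →
      (∀ b ∈ B, ∀ y ∈ Y b, εB * ‖y‖ ≤
        ‖pr (G'.map (res σ w b)) (ts (fun i => f ((σ ^ i) b)) n (pr (G.map (res σ w b)) y))‖) →
      ∑ b ∈ B, (finrank ℂ (Y b) : ℝ) ≤ 2 * γ

/-- The environment: weights, tests (`L` low, weight one; `H` high), cells. -/
structure Env (ι : Type) where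
  σ : Equiv.Perm ι
  f : ι → ℝ
  L : Finset (ℕ × ℕ)
  H : Finset (ℕ × ℕ)
  Z : ℕ × ℕ → Finset ι
  X : ℕ × ℕ → Finset ι
  r : ℕ × ℕ → ℕ
  m : ℕ × ℕ → ℝ
  ε : ℕ × ℕ → ℝ
  wg : ℕ × ℕ → ℝ
  X₀ : Finset ι
  B : Finset ι
  w : ℕ
  ch : ι → ℕ × ℕ
  κ : ℝ
  lam : ℝ

namespace Env

variable {ι : Type} [Fintype ι] [DecidableEq ι] (e : Env ι)

/-- number of low tests that are positive -/
def Θ (j : ι) : ℕ := (e.L.filter (fun t => j ∈ e.Z t)).card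

/-- the total condition number -/
noncomputable def κt : ℝ := e.κ ^ (2 * e.L.card + 2)

/-- the first tilt -/
noncomputable def g₀ : E ι →ₗ[ℂ] E ι := wp 1 (fun j => (e.κ ^ (2 * e.Θ j))⁻¹)

/-- the cells -/
def C : Finset (Finset ι) := e.B.image (cell e.σ e.w)

/-- the error of a test -/
noncomputable def err (δ : ℝ) (t : ℕ × ℕ) : ℝ :=
  (e.X t).card + Fintype.card ι * ((e.r t : ℝ) ^ 2 * δ / (e.m t * e.ε t ^ 2) ^ 2 + 4 * e.ε t +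
    2 * (e.κt * e.ε t) ^ 2)

/-- the properties that do not depend on the subspace -/
structure Ok (εB : ℕ → ℝ → ℝ) (η δ : ℝ) : Prop where
  f01 : ∀ j, 0 ≤ e.f j ∧ e.f j ≤ 1
  par : ∀ t ∈ e.L ∪ e.H, 0 < e.m t ∧ 0 < e.ε t ∧ e.ε t ≤ 1 / 2 ∧ 0 ≤ e.wg t
  tilt : ∀ t ∈ e.L ∪ e.H, ∀ j ∉ e.X t, (j ∉ e.Z t → e.m t ≤ wt e.σ e.f (e.r t) j) ∧
    (j ∈ e.Z t → wt e.σ e.f (e.r t) j ≤ e.m t * e.ε t ^ 2)
  mono : ∀ n < e.w, ∀ j ∉ e.X₀, (e.σ ^ n) j ∉ e.X₀ →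
    e.Θ j ≤ e.Θ ((e.σ ^ n) j) ∨ wt e.σ e.f n j * e.κ ^ (2 * e.L.card) ≤ 1
  far : Far e.σ e.w e.B
  cellp : ∀ b ∈ e.B, ∀ i < e.w, (e.σ ^ i) b ∉ e.X₀ ∧ e.lam ≤ e.f ((e.σ ^ i) b) ∧
    e.ch ((e.σ ^ i) b) = e.ch b ∧ ∀ t ∈ e.L ∪ e.H, ((e.σ ^ i) b ∈ e.Z t ↔ b ∈ e.Z t)
  sep : ∀ b ∈ e.B, ∀ k ∉ e.X₀, k ∉ cell e.σ e.w b → e.ch k = e.ch b →
    (∃ t ∈ e.L, ¬ (b ∈ e.Z t ↔ k ∈ e.Z t)) ∨
      1 ≤ ∑ t ∈ e.H, if (b ∈ e.Z t ↔ k ∈ e.Z t) then 0 else e.wg t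
  conc : ∃ c : ℝ, ∑ j, |(∑ t ∈ e.H, if j ∈ e.Z t then e.wg t else 0) - c| ≤ η * Fintype.card ι
  errs : ∑ t ∈ e.L, e.err δ t + ∑ t ∈ e.H, e.wg t * e.err δ t ≤ η * Fintype.card ι
  x0 : (e.X₀.card : ℝ) ≤ η * Fintype.card ι
  kap : 2 ≤ e.κ ∧ 0 < e.lam ∧ 100 / e.κ ≤ εB e.w e.lam ∧ (2 / e.κ) ^ 2 ≤ η ∧
    (e.w : ℝ) ^ 2 * δ * e.κt ^ 2 ≤ η
  cnt : (Fintype.card ι : ℝ) ≤ 10 * e.w * e.B.card ∧ 3 ≤ e.w ∧ 1 ≤ η * e.w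

/-- the properties of the subspace -/
structure Kp (K : Submodule ℂ (E ι)) (η δ : ℝ) : Prop where
  inv : dfc K (wp e.σ e.f) ≤ δ * Fintype.card ι
  farK : 2 * e.κt ^ 2 * far K e.ch ≤ η * Fintype.card ι
  fl : ∑ t ∈ e.L, flow e.σ (rho K) (e.r t) (e.Z t) ≤ η * Fintype.card ι
  fh : ∑ t ∈ e.H, e.wg t * flow e.σ (rho K) (e.r t) (e.Z t) ≤ η * Fintype.card ι

end Env

/-- **CA** (uses BAS, MONO, COND, CRS, TILT). `g = g' ∘ g₀` has `Bd g (κ^(-2|L|-1)) κ`, commutes with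
the cuts `Z t`, the chunks, the level sets of `Θ` (unions of cells and outside points; `Blk` maps
commute with `cut Y` if `Y` contains or misses each cell). `q = pr (gK)`. TILT + CRS + COND(3):
`cross q (Z t) ≤ mass q (Z t) - mass K (Z t) + flow + err`. `∑_{t∈L} (mass q Z - mass K Z) =
∑_θ (mass q {θ < Θ} - mass K {θ < Θ}) ≤ 0` by MONO with `c = κ^(-2θ-1)`; the high sum is
`∑_j (ρ_q - ρ)(Θ_H - c) ≤ η N`. A pair `(j ∈ cell, k ∉ cell)` has `k ∈ X₀`, or different chunks, or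
is separated: `∑_c cross q c ≤ |X₀| + far q + 2 (∑_L cross + ∑_H wg cross) ≤ 10 η N`.
Second part (`g' = 1`): `∑_θ (mass K {θ<Θ} - mass q {θ<Θ}) ≤ 2ηN`, every term `≥ 0`; for any `Y`, MONO
for `(Y ∩ {Θ = θ}) ∪ {θ < Θ}` (`c = κ^(-2θ)`) gives `mass q Y - mass K Y ≤ 2ηN`; take
`Y = {ρ < ρ_q}`. -/
def CaStmt : Prop :=
  ∀ (ι : Type) [Fintype ι] [DecidableEq ι] (e : Env ι) (K : Submodule ℂ (E ι)) (εB : ℕ → ℝ → ℝ)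
    (η δ : ℝ), 0 ≤ δ → e.Ok εB η δ → e.Kp K η δ →
    (∀ g : E ι →ₗ[ℂ] E ι, Blk e.C g → Bd g e.κ⁻¹ e.κ →
      ∑ c ∈ e.C, cross ((K.map e.g₀).map g) c ≤ 10 * η * Fintype.card ι) ∧
    ∑ j, |rho (K.map e.g₀) j - rho K j| ≤ 4 * η * Fintype.card ι

/-- **CB** (uses BAS, SPEC, COND, DIM). Fix `n < w`. `W = g₀ T^n g₀⁻¹ = wp (σ^n) a`,
`a j = wt n j · κ^(2Θ j) / κ^(2Θ(σ^n j))`, equal to `wt n j` inside a cell; `0 ≤ a j ≤ 1` if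
`j, σ^n j ∉ X₀`. SPEC on `K` for `pr Kᗮ ∘ T^n ∘ pr K`, `t = κ^(-2|L|-1)`: `K₁` of codimension
`≤ w² δ N κt² ≤ η N`. `F_n = F ⊓ ker (cut X₀) ⊓ g₀ K₁`, `F'_n = F' ⊓ ker (cut X₀)`. For `v ∈ F_n`,
`u ∈ F'_n`: `|⟪u, W v⟫| = |⟪g₀ u, T^n g₀⁻¹ v⟫| ≤ ‖u‖ ‖v‖/κ` (`g₀ u ∈ Kᗮ`), and replacing `v, u` by
their projections costs `2 · (2/κ)` (all vectors vanish on `X₀`): `ε' = 5/κ`. DIM with
`γ = 202 η N`; sum over `n < w` with the `Y` of `BlkP`. (`2/κ ≤ 1/2` since `4/κ² ≤ η ≤ 1/4`.) -/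
def CbStmt : Prop :=
  ∀ (ι : Type) [Fintype ι] [DecidableEq ι] (e : Env ι) (K G G' F F' : Submodule ℂ (E ι))
    (εB : ℕ → ℝ → ℝ) (η δ : ℝ), 0 ≤ δ → η ≤ 1 / 4 → BlkP εB → e.Ok εB η δ → e.Kp K η δ →
    Close e.C (K.map e.g₀) G G' F F' (200 * η * Fintype.card ι) (2 / e.κ) →
    ∑ b ∈ e.B, ((∑ i ∈ range (e.w / 2), rho G ((e.σ ^ i) b)) *
      (∑ i ∈ Ico (e.w / 2) e.w, rho G' ((e.σ ^ i) b)) - 1) ≤ 404 * e.w * η * Fintype.card ι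

/-- the ergodic property of the diagonal -/
def Erg {ι : Type} [Fintype ι] (σ : Equiv.Perm ι) (ρ : ι → ℝ) (w' : ℕ) (s η : ℝ) : Prop :=
  ∑ j, |(∑ n ∈ range w', ρ ((σ ^ n) j)) / w' - s| ≤ η * Fintype.card ι

/-- **CORE** (uses BAS, GRD, DIA, CA, CB). `N = card ι`, `w |B| ≤ N` (`Far`). `μ = 10ηN`. DIA and
Cauchy–Schwarz: `∑_{cells} |ρ₀ - ρ_G| ≤ 25 √η N`; CA: `∑ |ρ₀ - ρ| ≤ 4ηN`; for a sequence in `[0,1]`,
`|∑_{i∈[p,q)} x_i - ∑_{i∈[p,q)} x_{i+n}| ≤ n`, so `∑_b |α_b - s h| ≤ 32 √η N` (`h = w/2`), the same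
for `β_b`, `(1-s)(w-h)`; `α β ≥ α₀ β₀ - w |α - α₀| - w |β - β₀|`; `h (w-h) ≥ w²/5`. -/
def CoreStmt : Prop :=
  ∀ (ι : Type) [Fintype ι] [DecidableEq ι] [Nonempty ι] (e : Env ι) (K : Submodule ℂ (E ι))
    (εB : ℕ → ℝ → ℝ) (η δ s : ℝ) (w' : ℕ), 0 ≤ δ → 0 < η → η ≤ 1 / 4 → BlkP εB → e.Ok εB η δ →
    e.Kp K η δ → 0 ≤ s → s ≤ 1 → 0 < w' → (w' : ℝ) ≤ η * e.w → Erg e.σ (rho K) w' s η →
    s * (1 - s) ≤ 30000 * √η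

theorem anchorL : True := by
  have := @ev.eq_1; have := @pr.eq_1; have := @hs.eq_1; have := @rho.eq_1; have := @ent.eq_1
  have := @mass.eq_1; have := @cross.eq_1; have := @far.eq_1; have := @dfc.eq_1; have := @Bd.eq_1
  have := @Cm.eq_1; have := @Dj.eq_1; have := @un.eq_1; have := @Blk.eq_1; have := @Gr.eq_1
  have := @wt.eq_1; have := @cell.eq_1; have := @Far.eq_1; have := @Close.eq_1; have := @flow.eq_1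
  have := @hd.eq_1; have := @BlkP.eq_1; have := @Env.Θ.eq_1; have := @Env.κt.eq_1
  have := @Env.g₀.eq_1; have := @Env.C.eq_1; have := @Env.err.eq_1; have := @Erg.eq_1
  have := @wp.eq_1; have := @cut.eq_1; have := @res.eq_1; have := @ts.eq_1
  trivial

end Crest.Agent.R113
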