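import Mathlib
import Crest.Agent.R113.DefsL

set_option autoImplicit false

namespace Crest.Agent.R113

open Finset Module Filter Topology

namespace BLK

/-- `ts` as a continuous linear map -/
noncomputable def tsL (w : ℕ) (n : ℕ) (a : ℕ → ℝ) : E (Fin w) →L[ℂ] E (Fin w) :=
  LinearMap.toContinuousLinearMap (ts a n)

lemma tsL_apply (w n : ℕ) (a : ℕ → ℝ) (v : E (Fin w)) : tsL w n a v = ts a n v := rfl

lemma tsL_cont (w n : ℕ) : Continuous (tsL w n) := by
  rw [continuous_clm_apply]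
  intro y
  have : Continuous fun a : ℕ → ℝ => (fun k : Fin w => if h : n ≤ k.val then
      ((∏ i ∈ range n, a (k.val - n + i) : ℝ) : ℂ) * y ⟨k.val - n, by omega⟩ else 0) := by
    refine continuous_pi fun k => ?_
    by_cases h : n ≤ k.val
    · simp only [h, dite_true]
      fun_prop
    · simp only [h, dite_false]
      exact continuous_const
  exact (PiLp.continuous_toLp 2 _).comp this

lemma ts_congr {w : ℕ} (a a' : ℕ → ℝ) (h : ∀ i < w, a i = a' i) (n : ℕ) (v : E (Fin w)) :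
    ts a n v = ts a' n v := by
  ext k
  rw [ts_apply, ts_apply]
  by_cases hk : n ≤ k.val
  · simp only [hk, dite_true]
    congr 2
    refine Finset.prod_congr rfl fun i hi => h _ ?_
    have := Finset.mem_range.mp hi
    have := k.2
    omega
  · simp only [hk, dite_false]

/-- mass as a function of the projection -/
noncomputable def ms {w : ℕ} (Y : Finset (Fin w)) (P : E (Fin w) →L[ℂ] E (Fin w)) : ℝ :=
  ∑ j ∈ Y, ‖P (ev j)‖ ^ 2

lemma ms_cont {w : ℕ} (Y : Finset (Fin w)) : Continuous (ms Y) := by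
  unfold ms
  fun_prop

lemma ms_eq {w : ℕ} (Y : Finset (Fin w)) (G : Submodule ℂ (E (Fin w))) :
    ms Y G.starProjection = mass G Y := rfl

lemma lower {w : ℕ} (B : E (Fin w) →L[ℂ] E (Fin w)) (Y : Submodule ℂ (E (Fin w)))
    (h : ∀ v ∈ Y, B v = 0 → v = 0) : ∃ c : ℝ, 0 < c ∧ ∀ v ∈ Y, c * ‖v‖ ≤ ‖B v‖ := by
  have hk : LinearMap.ker ((B : E (Fin w) →ₗ[ℂ] E (Fin w)).domRestrict Y) = ⊥ := by
    rw [LinearMap.ker_eq_bot']
    intro v hv
    exact Subtype.ext (h v v.2 hv)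
  obtain ⟨K, hK, hA⟩ := LinearMap.exists_antilipschitzWith _ hk
  refine ⟨(K : ℝ)⁻¹, by positivity, fun v hv => ?_⟩
  have := hA.le_mul_dist ⟨v, hv⟩ 0
  simp only [dist_zero_right, map_zero] at this
  rw [inv_mul_le_iff₀ (by positivity)]
  exact this

lemma limit_proj {w : ℕ} (G : ℕ → Submodule ℂ (E (Fin w))) (P : E (Fin w) →L[ℂ] E (Fin w))
    (h : Tendsto (fun k => (G k).starProjection) atTop (𝓝 P)) :
    ∃ G₀ : Submodule ℂ (E (Fin w)), G₀.starProjection = P := by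
  have hsp : ∀ k, IsStarProjection (G k).starProjection := fun k => isStarProjection_starProjection
  have h1 : P * P = P := by
    refine tendsto_nhds_unique (h.mul h) ?_
    refine h.congr fun k => ?_
    exact (hsp k).isIdempotentElem.eq.symm
  have h2 : star P = P := by
    refine tendsto_nhds_unique h.star ?_
    refine h.congr fun k => ?_
    exact (hsp k).isSelfAdjoint.star_eq.symm
  have hP : IsStarProjection P := ⟨h1, h2⟩
  obtain ⟨_, hh⟩ := isStarProjection_iff_eq_starProjection_range.mp hP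
  exact ⟨_, hh.symm⟩

lemma one (hPiv : PivStmt) (w : ℕ) (lam : ℝ) (hlam : 0 < lam) : ∃ ε : ℝ, 0 < ε ∧
    ∀ (G G' : Submodule ℂ (E (Fin w))) (a : ℕ → ℝ), (∀ i < w, lam ≤ a i ∧ a i ≤ 1) →
      ∃ Y : ℕ → Submodule ℂ (E (Fin w)),
        (∀ n < w, ∀ v ∈ Y n, ε * ‖v‖ ≤ ‖pr G' (ts a n (pr G v))‖) ∧
        mass G (hd w) * mass G' (hd w)ᶜ - 1 ≤ ∑ n ∈ range w, (finrank ℂ (Y n) : ℝ) := by
  by_contra hcon
  push Not at hcon
  choose G G' a ha hbad using fun k : ℕ => hcon (1 / ((k : ℝ) + 1)) (by positivity)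
  let S : Set ((E (Fin w) →L[ℂ] E (Fin w)) × (E (Fin w) →L[ℂ] E (Fin w)) × (ℕ → ℝ)) :=
    Metric.closedBall 0 1 ×ˢ Metric.closedBall 0 1 ×ˢ
      Set.pi Set.univ (fun i => if i < w then Set.Icc lam 1 else {0})
  have hS : IsCompact S := by
    refine (isCompact_closedBall _ _).prod ((isCompact_closedBall _ _).prod
      (isCompact_univ_pi fun i => ?_))
    split_ifs
    · exact isCompact_Icc
    · exact isCompact_singleton
  let x : ℕ → (E (Fin w) →L[ℂ] E (Fin w)) × (E (Fin w) →L[ℂ] E (Fin w)) × (ℕ → ℝ) :=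
    fun k => ((G k).starProjection, (G' k).starProjection, fun i => if i < w then a k i else 0)
  have hx : ∀ k, x k ∈ S := by
    intro k
    refine ⟨?_, ?_, fun i _ => ?_⟩
    · rw [mem_closedBall_zero_iff]
      exact (G k).starProjection_norm_le
    · rw [mem_closedBall_zero_iff]
      exact (G' k).starProjection_norm_le
    · by_cases h : i < w
      · simp only [x, h, if_true]
        exact ha k i h
      · simp [x, h]
  obtain ⟨⟨P, P', a₀⟩, hmem, φ, hφ, hlim⟩ := hS.tendsto_subseq hx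
  have hP : Tendsto (fun k => (G (φ k)).starProjection) atTop (𝓝 P) :=
    (continuous_fst.tendsto _).comp hlim
  have hP' : Tendsto (fun k => (G' (φ k)).starProjection) atTop (𝓝 P') :=
    ((continuous_fst.comp continuous_snd).tendsto _).comp hlim
  have hA : Tendsto (fun k => (x (φ k)).2.2) atTop (𝓝 a₀) :=
    ((continuous_snd.comp continuous_snd).tendsto _).comp hlim
  obtain ⟨G₀, rfl⟩ := limit_proj _ P hP
  obtain ⟨G₀', rfl⟩ := limit_proj _ P' hP'
  have ha₀ : ∀ i < w, 0 < a₀ i := by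
    intro i hi
    have := hmem.2.2 i (Set.mem_univ _)
    simp only [hi, if_true] at this
    exact hlam.trans_le this.1
  obtain ⟨Y, hY, hdim⟩ := hPiv w G₀ G₀' a₀ ha₀
  have hev : ∀ n : ℕ, ∀ᶠ k in atTop, ∀ v ∈ Y n,
      1 / ((φ k : ℝ) + 1) * ‖v‖ ≤ ‖pr (G' (φ k)) (ts (a (φ k)) n (pr (G (φ k)) v))‖ := by
    intro n
    obtain ⟨c, hc, hcv⟩ := lower (G₀'.starProjection * tsL w n a₀ * G₀.starProjection) (Y n) (hY n)
    have hB : Tendsto (fun k => (G' (φ k)).starProjection * tsL w n (x (φ k)).2.2 *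
        (G (φ k)).starProjection) atTop (𝓝 (G₀'.starProjection * tsL w n a₀ * G₀.starProjection)) :=
      (hP'.mul (((tsL_cont w n).tendsto _).comp hA)).mul hP
    have h1 := (tendsto_iff_norm_sub_tendsto_zero.mp hB).eventually
      (gt_mem_nhds (show (0 : ℝ) < c / 2 by positivity))
    have h2 : ∀ᶠ k in atTop, 1 / ((φ k : ℝ) + 1) < c / 2 :=
      (tendsto_one_div_add_atTop_nhds_zero_nat.comp hφ.tendsto_atTop).eventually
        (gt_mem_nhds (show (0 : ℝ) < c / 2 by positivity))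
    filter_upwards [h1, h2] with k hk1 hk2 v hv
    set Bk := (G' (φ k)).starProjection * tsL w n (x (φ k)).2.2 * (G (φ k)).starProjection with hBk
    set B₀ := G₀'.starProjection * tsL w n a₀ * G₀.starProjection with hB₀
    have e : pr (G' (φ k)) (ts (a (φ k)) n (pr (G (φ k)) v)) = Bk v := by
      rw [ts_congr (a (φ k)) (x (φ k)).2.2 (fun i hi => by simp [x, hi])]
      rfl
    rw [e]
    have h3 := hcv v hv
    have h4 : ‖(Bk - B₀) v‖ ≤ c / 2 * ‖v‖ :=
      ((Bk - B₀).le_opNorm v).trans (mul_le_mul_of_nonneg_right hk1.le (norm_nonneg _))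
    have h5 : ‖B₀ v‖ ≤ ‖Bk v‖ + ‖(Bk - B₀) v‖ := by
      have : B₀ v = Bk v - (Bk - B₀) v := by simp
      rw [this]
      exact norm_sub_le _ _
    have h6 := mul_le_mul_of_nonneg_right hk2.le (norm_nonneg v)
    linarith
  have hm : Tendsto (fun k => mass (G (φ k)) (hd w) * mass (G' (φ k)) (hd w)ᶜ) atTop
      (𝓝 (mass G₀ (hd w) * mass G₀' (hd w)ᶜ)) :=
    (((ms_cont (hd w)).tendsto _).comp hP).mul (((ms_cont (hd w)ᶜ).tendsto _).comp hP')
  have hm' := hm.eventually (gt_mem_nhds (lt_add_one _))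
  have hall : ∀ᶠ k in atTop, ∀ n ∈ range w, ∀ v ∈ Y n,
      1 / ((φ k : ℝ) + 1) * ‖v‖ ≤ ‖pr (G' (φ k)) (ts (a (φ k)) n (pr (G (φ k)) v))‖ :=
    (eventually_all_finset _).mpr fun n _ => hev n
  obtain ⟨k, hk1, hk2⟩ := (hm'.and hall).exists
  have := hbad (φ k) Y (fun n hn => hk2 n (Finset.mem_range.mpr hn))
  linarith

end BLK

theorem BLK_proof (hPiv : PivStmt) : BlkStmt := by
  have h : ∀ (w : ℕ) (lam : ℝ), ∃ ε : ℝ, 0 < lam → 0 < ε ∧
    ∀ (G G' : Submodule ℂ (E (Fin w))) (a : ℕ → ℝ), (∀ i < w, lam ≤ a i ∧ a i ≤ 1) →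
      ∃ Y : ℕ → Submodule ℂ (E (Fin w)),
        (∀ n < w, ∀ v ∈ Y n, ε * ‖v‖ ≤ ‖pr G' (ts a n (pr G v))‖) ∧
        mass G (hd w) * mass G' (hd w)ᶜ - 1 ≤ ∑ n ∈ range w, (finrank ℂ (Y n) : ℝ) := by
    intro w lam
    by_cases hl : 0 < lam
    · obtain ⟨ε, h⟩ := BLK.one hPiv w lam hl
      exact ⟨ε, fun _ => h⟩
    · exact ⟨1, fun h => absurd h hl⟩
  choose εB hB using h
  exact ⟨εB, hB⟩

end Crest.Agent.R113
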