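import Crest.Agent.R113.DefsL

set_option autoImplicit false

namespace Crest.Agent.R113

open Finset Module

namespace CA

variable {ι : Type} [Fintype ι] [DecidableEq ι]

lemma blk_out_aux (C : Finset (Finset ι)) (g : E ι →ₗ[ℂ] E ι) (hg : ∀ c ∈ C, Cm g c) (i : ι) :
    ∀ S : Finset (Finset ι), S ⊆ C → i ∉ un S → ∀ w, g (cut (un S) w) i = 0 := by
  intro S
  induction S using Finset.induction_on with
  | empty =>
    intro _ _ w
    have : cut (un (∅ : Finset (Finset ι))) w = 0 := by ext k; simp [un]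
    rw [this, map_zero]; rfl
  | insert c S hc ih =>
    intro hS hi w
    have hu : un (insert c S) = c ∪ un S := by simp [un]
    rw [hu] at hi ⊢
    rw [Finset.mem_union, not_or] at hi
    have h1 : cut (c ∪ un S) w = cut c w + cut (un S) (cut cᶜ w) := by
      ext k
      by_cases h1 : k ∈ c <;> by_cases h2 : k ∈ un S <;> simp [h1, h2]
    rw [h1, map_add, hg c (hS (Finset.mem_insert_self _ _)) w]
    have h2 := ih (fun x hx => hS (Finset.mem_insert_of_mem hx)) hi.2 (cut cᶜ w)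
    simp [h2, hi.1]

lemma blk_out {C : Finset (Finset ι)} {g : E ι →ₗ[ℂ] E ι} (hg : Blk C g) {i : ι} (hi : i ∉ un C)
    (w : E ι) : g w i = w i := by
  have h1 : w = cut (un C) w + cut (un C)ᶜ w := by
    ext k
    by_cases h : k ∈ un C <;> simp [h]
  have h2 := blk_out_aux C g hg.1 i C (Finset.Subset.refl _) hi w
  conv_lhs => rw [h1, map_add, hg.2 w]
  simp [h2, hi]

lemma cm_blk {C : Finset (Finset ι)} {g : E ι →ₗ[ℂ] E ι} (hg : Blk C g) {Y : Finset ι}
    (hY : ∀ c ∈ C, ∀ j ∈ c, ∀ k ∈ c, j ∈ Y → k ∈ Y) : Cm g Y := by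
  intro v
  ext i
  by_cases hi : i ∈ un C
  · obtain ⟨c, hc, hic⟩ := Finset.mem_biUnion.1 hi
    have hic : i ∈ c := hic
    have h1 : ∀ w, g w i = g (cut c w) i := by
      intro w
      rw [hg.1 c hc w]; simp [hic]
    rw [h1]
    by_cases hiY : i ∈ Y
    · have h2 : cut c (cut Y v) = cut c v := by
        ext k
        by_cases hk : k ∈ c
        · simp [hk, hY c hc i hic k hk hiY]
        · simp [hk]
      rw [h2, ← h1]; simp [hiY]
    · have h2 : cut c (cut Y v) = 0 := by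
        ext k
        by_cases hk : k ∈ c
        · have : k ∉ Y := fun h => hiY (hY c hc k hk i hic h)
          simp [this]
        · simp [hk]
      rw [h2, map_zero]; simp [hiY]
  · rw [blk_out hg hi]
    by_cases hiY : i ∈ Y
    · simp [hiY, blk_out hg hi]
    · simp [hiY]

lemma cm_diag (a : ι → ℝ) (Y : Finset ι) : Cm (wp 1 a) Y := by
  intro v
  ext i
  rw [wp_apply, cut_apply, cut_apply, wp_apply, inv_one, Equiv.Perm.one_apply]
  by_cases h : i ∈ Y <;> simp [h]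

lemma cm_comp {g h : E ι →ₗ[ℂ] E ι} {Y : Finset ι} (hg : Cm g Y) (hh : Cm h Y) :
    Cm (g ∘ₗ h) Y := by
  intro v
  simp only [LinearMap.comp_apply]
  rw [hh v, hg]

lemma inj_of_bd {g : E ι →ₗ[ℂ] E ι} {lo hi : ℝ} (hlo : 0 < lo) (h : Bd g lo hi) :
    Function.Injective g := by
  rw [← LinearMap.ker_eq_bot, LinearMap.ker_eq_bot']
  intro v hv
  have h1 := (h v).1
  rw [hv, norm_zero] at h1
  have h2 : ‖v‖ ≤ 0 := by
    by_contra hc
    push Not at hc
    nlinarith [mul_pos hlo hc]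
  exact norm_le_zero_iff.1 h2

lemma mass_sub (K q : Submodule ℂ (E ι)) (Y : Finset ι) :
    mass q Y - mass K Y = ∑ j, if j ∈ Y then rho q j - rho K j else 0 := by
  rw [Finset.sum_ite_mem, Finset.univ_inter, mass, mass, Finset.sum_sub_distrib]

lemma layer (d : ι → ℝ) (Θ : ι → ℕ) (M : ℕ) (hM : ∀ j, Θ j ≤ M) :
    ∑ j, d j * Θ j = ∑ θ ∈ range M, ∑ j, if θ < Θ j then d j else 0 := by
  rw [Finset.sum_comm]
  refine Finset.sum_congr rfl fun j _ => ?_
  rw [← Finset.sum_filter, Finset.sum_const, nsmul_eq_mul, mul_comm]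
  congr 2
  have : (range M).filter (fun θ => θ < Θ j) = range (Θ j) := by
    ext θ
    have := hM j
    simp only [Finset.mem_filter, Finset.mem_range]
    omega
  rw [this, Finset.card_range]

lemma sep_sum (q : Submodule ℂ (E ι)) (hs : ∀ j k, ent q j k = ent q k j) (Z : Finset ι) :
    ∑ j, ∑ k, (if (j ∈ Z ↔ k ∈ Z) then 0 else ent q j k) = 2 * cross q Z := by
  have h1 : ∀ j k, (if (j ∈ Z ↔ k ∈ Z) then 0 else ent q j k) =
      (if j ∈ Z then (if k ∈ Zᶜ then ent q j k else 0) else 0) +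
      (if k ∈ Z then (if j ∈ Zᶜ then ent q k j else 0) else 0) := by
    intro j k
    by_cases hj : j ∈ Z <;> by_cases hk : k ∈ Z <;> simp [hj, hk, hs j k]
  have h2 : ∑ j, ∑ k, (if j ∈ Z then (if k ∈ Zᶜ then ent q j k else 0) else 0) = cross q Z := by
    rw [cross]
    have : ∀ j, ∑ k, (if j ∈ Z then (if k ∈ Zᶜ then ent q j k else 0) else 0) =
        if j ∈ Z then ∑ k ∈ Zᶜ, ent q j k else 0 := by
      intro j
      by_cases hj : j ∈ Z
      · simp only [hj, if_true]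
        rw [Finset.sum_ite_mem, Finset.univ_inter]
      · simp [hj]
    simp_rw [this]
    rw [Finset.sum_ite_mem, Finset.univ_inter]
  simp_rw [h1, Finset.sum_add_distrib]
  rw [h2, Finset.sum_comm, h2]
  ring

section env

variable (e : Env ι)

lemma th_le (j : ι) : e.Θ j ≤ e.L.card := Finset.card_filter_le _ _

lemma wt_nonneg {σ : Equiv.Perm ι} {f : ι → ℝ} (hf : ∀ j, 0 ≤ f j) (n : ℕ) (j : ι) :
    0 ≤ wt σ f n j := Finset.prod_nonneg fun _ _ => hf _

lemma mem_C {c : Finset ι} (hc : c ∈ e.C) : ∃ b ∈ e.B, c = cell e.σ e.w b := by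
  obtain ⟨b, hb, rfl⟩ := Finset.mem_image.1 hc
  exact ⟨b, hb, rfl⟩

lemma mem_cell {σ : Equiv.Perm ι} {w : ℕ} {b j : ι} (h : j ∈ cell σ w b) :
    ∃ i < w, j = (σ ^ i) b := by
  obtain ⟨i, hi, rfl⟩ := Finset.mem_image.1 h
  exact ⟨i, Finset.mem_range.1 hi, rfl⟩

variable {e} {εB : ℕ → ℝ → ℝ} {η δ : ℝ}

lemma dj (ok : e.Ok εB η δ) : Dj e.C := by
  intro c hc c' hc' hne
  obtain ⟨b, hb, rfl⟩ := mem_C e hc
  obtain ⟨b', hb', rfl⟩ := mem_C e hc'
  rw [Finset.disjoint_left]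
  intro j hj hj'
  obtain ⟨i, hi, rfl⟩ := mem_cell hj
  obtain ⟨i', hi', h⟩ := mem_cell hj'
  have := (ok.far b hb b' hb' i (by omega) i' hi' h).1
  exact hne (by rw [this])

/-- a function that is constant on cells -/
lemma cm_of_const {g : E ι →ₗ[ℂ] E ι} (hg : Blk e.C g) (Y : Finset ι)
    (hY : ∀ b ∈ e.B, ∀ i < e.w, ((e.σ ^ i) b ∈ Y ↔ b ∈ Y)) : Cm g Y := by
  refine cm_blk hg ?_
  intro c hc j hj k hk hjY
  obtain ⟨b, hb, rfl⟩ := mem_C e hc
  obtain ⟨i, hi, rfl⟩ := mem_cell hj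
  obtain ⟨i', hi', rfl⟩ := mem_cell hk
  exact (hY b hb i' hi').2 ((hY b hb i hi).1 hjY)

lemma th_cell (ok : e.Ok εB η δ) {b : ι} (hb : b ∈ e.B) {i : ℕ} (hi : i < e.w) :
    e.Θ ((e.σ ^ i) b) = e.Θ b := by
  unfold Env.Θ
  congr 1
  refine Finset.filter_congr fun t ht => ?_
  exact (ok.cellp b hb i hi).2.2.2 t (Finset.mem_union_left _ ht)

lemma g0_le (hBas : BasStmt) (ok : e.Ok εB η δ) (θ : ℕ) (v : E ι)
    (hv : ∀ j, v j ≠ 0 → θ ≤ e.Θ j) : ‖e.g₀ v‖ ≤ (e.κ ^ (2 * θ))⁻¹ * ‖v‖ := by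
  have hκ : (1 : ℝ) ≤ e.κ := by linarith [ok.kap.1]
  have hκ0 : (0 : ℝ) < e.κ := by linarith
  refine (hBas ι).2.2.2.2.2.1 1 _ _ v (by positivity) ?_
  intro j hj
  rw [abs_of_nonneg (by positivity)]
  exact inv_anti₀ (by positivity) (pow_le_pow_right₀ hκ (by have := hv j hj; omega))

lemma g0_ge (hBas : BasStmt) (ok : e.Ok εB η δ) (θ : ℕ) (v : E ι)
    (hv : ∀ j, v j ≠ 0 → e.Θ j ≤ θ) : (e.κ ^ (2 * θ))⁻¹ * ‖v‖ ≤ ‖e.g₀ v‖ := by
  have hκ : (1 : ℝ) ≤ e.κ := by linarith [ok.kap.1]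
  have hκ0 : (0 : ℝ) < e.κ := by linarith
  refine (hBas ι).2.2.2.2.2.2.1 1 _ _ v (by positivity) ?_
  intro j hj
  rw [abs_of_nonneg (by positivity)]
  exact inv_anti₀ (by positivity) (pow_le_pow_right₀ hκ (by have := hv j hj; omega))

lemma bd_comp (hBas : BasStmt) (ok : e.Ok εB η δ) {g : E ι →ₗ[ℂ] E ι} (hb : Bd g e.κ⁻¹ e.κ) :
    Bd (g ∘ₗ e.g₀) (e.κ ^ (2 * e.L.card + 1))⁻¹ e.κ := by
  have hκ0 : (0 : ℝ) < e.κ := by linarith [ok.kap.1]
  intro v
  have h1 := g0_le hBas ok 0 v (fun j _ => Nat.zero_le _)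
  have h2 := g0_ge hBas ok e.L.card v (fun j _ => th_le e j)
  obtain ⟨h3, h4⟩ := hb (e.g₀ v)
  simp only [mul_zero, pow_zero, inv_one, one_mul] at h1
  simp only [LinearMap.comp_apply]
  constructor
  · calc (e.κ ^ (2 * e.L.card + 1))⁻¹ * ‖v‖ = e.κ⁻¹ * ((e.κ ^ (2 * e.L.card))⁻¹ * ‖v‖) := by
          rw [pow_succ, mul_inv]; ring
      _ ≤ e.κ⁻¹ * ‖e.g₀ v‖ := by gcongr
      _ ≤ _ := h3
  · calc _ ≤ e.κ * ‖e.g₀ v‖ := h4
      _ ≤ e.κ * ‖v‖ := by gcongr

lemma ratio (ok : e.Ok εB η δ) : e.κ / (e.κ ^ (2 * e.L.card + 1))⁻¹ = e.κt := by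
  rw [Env.κt, div_inv_eq_mul]; ring

lemma err_nonneg (ok : e.Ok εB η δ) (hδ : 0 ≤ δ) {t : ℕ × ℕ} (ht : t ∈ e.L ∪ e.H) :
    0 ≤ e.err δ t := by
  obtain ⟨h1, h2, _, _⟩ := ok.par t ht
  unfold Env.err
  positivity

/-- the estimate for one test -/
lemma test (hBas : BasStmt) (hCond : CondStmt) (hCrs : CrsStmt) (hTilt : TiltStmt)
    {K : Submodule ℂ (E ι)} (hδ : 0 ≤ δ) (ok : e.Ok εB η δ) (kp : e.Kp K η δ)
    {g : E ι →ₗ[ℂ] E ι} (hg : Blk e.C g) (hb : Bd g e.κ⁻¹ e.κ) {t : ℕ × ℕ} (ht : t ∈ e.L ∪ e.H) :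
    cross (K.map (g ∘ₗ e.g₀)) (e.Z t) ≤ (mass (K.map (g ∘ₗ e.g₀)) (e.Z t) - mass K (e.Z t)) +
      flow e.σ (rho K) (e.r t) (e.Z t) + e.err δ t := by
  have hκ0 : (0 : ℝ) < e.κ := by linarith [ok.kap.1]
  obtain ⟨h1, h2, h3, _⟩ := ok.par t ht
  obtain ⟨K₁, hK₁, hs, hd⟩ := hTilt ι K (e.σ ^ e.r t) (wt e.σ e.f (e.r t)) (e.Z t) (e.X t) (e.m t)
    (e.ε t) h1 h2 h3 (by
      intro j hj
      obtain ⟨a1, a2⟩ := ok.tilt t ht j hj
      refine ⟨a1, fun h => ?_⟩
      rw [abs_of_nonneg (wt_nonneg (fun j => (ok.f01 j).1) _ _)]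
      exact a2 h)
  have hcm : Cm (g ∘ₗ e.g₀) (e.Z t) :=
    cm_comp (cm_of_const hg _ fun b hb i hi => (ok.cellp b hb i hi).2.2.2 t ht) (cm_diag _ _)
  have hc := hCrs ι K K₁ (g ∘ₗ e.g₀) (e.Z t) _ _ (e.ε t) (by positivity) (bd_comp hBas ok hb) hcm
    h2.le hK₁ hs
  rw [ratio ok] at hc
  have hT : ∀ v, ‖wp e.σ e.f v‖ ≤ ‖v‖ := by
    intro v
    have := (hBas ι).2.2.2.2.2.1 e.σ e.f 1 v zero_le_one (fun j _ => by
      rw [abs_of_nonneg (ok.f01 j).1]; exact (ok.f01 j).2)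
    simpa using this
  have hdf := (hCond ι K).2 (wp e.σ e.f) (e.r t) hT
  rw [(hBas ι).2.2.2.2.1] at hdf
  have hdf2 : dfc K (wp (e.σ ^ e.r t) (wt e.σ e.f (e.r t))) ≤
      (e.r t : ℝ) ^ 2 * (δ * Fintype.card ι) :=
    hdf.trans (mul_le_mul_of_nonneg_left kp.inv (by positivity))
  have hdf3 : dfc K (wp (e.σ ^ e.r t) (wt e.σ e.f (e.r t))) / (e.m t * e.ε t ^ 2) ^ 2 ≤
      Fintype.card ι * ((e.r t : ℝ) ^ 2 * δ / (e.m t * e.ε t ^ 2) ^ 2) := by
    calc _ ≤ (e.r t : ℝ) ^ 2 * (δ * Fintype.card ι) / (e.m t * e.ε t ^ 2) ^ 2 := by gcongr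
      _ = _ := by ring
  unfold Env.err flow
  nlinarith

/-- monotonicity on the level sets -/
lemma level (hBas : BasStmt) (hMono : MonoStmt) {K : Submodule ℂ (E ι)} (ok : e.Ok εB η δ)
    {g : E ι →ₗ[ℂ] E ι} (hg : Blk e.C g) (hb : Bd g e.κ⁻¹ e.κ) (θ : ℕ) :
    (∑ j, if θ < e.Θ j then rho (K.map (g ∘ₗ e.g₀)) j - rho K j else 0) ≤ 0 := by
  have hκ0 : (0 : ℝ) < e.κ := by linarith [ok.kap.1]
  have h := hMono ι K (g ∘ₗ e.g₀) (univ.filter (fun j => θ < e.Θ j)) (e.κ ^ (2 * θ + 1))⁻¹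
    (by positivity) (inj_of_bd (by positivity) (bd_comp hBas ok hb))
    (cm_comp (cm_of_const hg _ fun b hb i hi => by simp [th_cell ok hb hi]) (cm_diag _ _))
    (by
      intro v
      have h1 := g0_le hBas ok (θ + 1) (cut (univ.filter (fun j => θ < e.Θ j)) v) (by
        intro j hj
        by_contra hc
        apply hj
        have : ¬ θ < e.Θ j := by omega
        simp [this])
      simp only [LinearMap.comp_apply]
      calc _ ≤ e.κ * ‖e.g₀ (cut (univ.filter (fun j => θ < e.Θ j)) v)‖ := (hb _).2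
        _ ≤ e.κ * ((e.κ ^ (2 * (θ + 1)))⁻¹ * ‖cut (univ.filter (fun j => θ < e.Θ j)) v‖) := by
          gcongr
        _ = _ := by
          rw [show 2 * (θ + 1) = (2 * θ + 1) + 1 by ring, pow_succ e.κ (2 * θ + 1), mul_inv]
          field_simp)
    (by
      intro v
      have h1 := g0_ge hBas ok θ (cut (univ.filter (fun j => θ < e.Θ j))ᶜ v) (by
        intro j hj
        by_contra hc
        apply hj
        have : θ < e.Θ j := by omega
        simp [this])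
      simp only [LinearMap.comp_apply]
      calc (e.κ ^ (2 * θ + 1))⁻¹ * ‖cut (univ.filter (fun j => θ < e.Θ j))ᶜ v‖
          = e.κ⁻¹ * ((e.κ ^ (2 * θ))⁻¹ * ‖cut (univ.filter (fun j => θ < e.Θ j))ᶜ v‖) := by
            rw [pow_succ, mul_inv]; ring
        _ ≤ e.κ⁻¹ * ‖e.g₀ (cut (univ.filter (fun j => θ < e.Θ j))ᶜ v)‖ := by gcongr
        _ ≤ _ := (hb _).1)
  have h2 := mass_sub K (K.map (g ∘ₗ e.g₀)) (univ.filter (fun j => θ < e.Θ j))
  simp only [Finset.mem_filter, Finset.mem_univ, true_and] at h2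
  linarith

lemma low_eq (K q : Submodule ℂ (E ι)) :
    ∑ t ∈ e.L, (mass q (e.Z t) - mass K (e.Z t)) =
      ∑ θ ∈ range (e.L.card + 1), ∑ j, if θ < e.Θ j then rho q j - rho K j else 0 := by
  rw [← layer (fun j => rho q j - rho K j) e.Θ (e.L.card + 1) (fun j => (th_le e j).trans (by omega))]
  simp_rw [mass_sub]
  rw [Finset.sum_comm]
  refine Finset.sum_congr rfl fun j _ => ?_
  rw [← Finset.sum_filter, Finset.sum_const, nsmul_eq_mul, mul_comm]
  rfl

lemma tot_zero (hBas : BasStmt) (K : Submodule ℂ (E ι)) {g : E ι →ₗ[ℂ] E ι}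
    (hg : Function.Injective g) : ∑ j, (rho (K.map g) j - rho K j) = 0 := by
  rw [Finset.sum_sub_distrib, (hBas ι).2.1, (hBas ι).2.1,
    ← (Submodule.equivMapOfInjective g hg K).finrank_eq, sub_self]

lemma high_le (hBas : BasStmt) (K : Submodule ℂ (E ι)) (ok : e.Ok εB η δ) {g : E ι →ₗ[ℂ] E ι}
    (hg : Function.Injective g) :
    ∑ t ∈ e.H, e.wg t * (mass (K.map g) (e.Z t) - mass K (e.Z t)) ≤ η * Fintype.card ι := by
  obtain ⟨c, hc⟩ := ok.conc
  have h0 := tot_zero hBas K hg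
  have h1 : ∑ t ∈ e.H, e.wg t * (mass (K.map g) (e.Z t) - mass K (e.Z t)) =
      ∑ j, (rho (K.map g) j - rho K j) * ((∑ t ∈ e.H, if j ∈ e.Z t then e.wg t else 0) - c) := by
    simp_rw [mul_sub (rho (K.map g) _ - rho K _)]
    rw [Finset.sum_sub_distrib, ← Finset.sum_mul, h0, zero_mul, sub_zero]
    simp_rw [mass_sub, Finset.mul_sum]
    rw [Finset.sum_comm]
    refine Finset.sum_congr rfl fun j _ => Finset.sum_congr rfl fun t _ => ?_
    split_ifs <;> ring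
  rw [h1]
  refine le_trans (Finset.sum_le_sum fun j _ => ?_) hc
  refine (le_abs_self _).trans ?_
  rw [abs_mul]
  have a1 := (hBas ι).1 (K.map g) j
  have a2 := (hBas ι).1 K j
  have : |rho (K.map g) j - rho K j| ≤ 1 := by
    rw [abs_le]; constructor <;> linarith [a1.1, a1.2.1, a2.1, a2.2.1]
  exact mul_le_of_le_one_left (abs_nonneg _) this

lemma ent_nonneg (q : Submodule ℂ (E ι)) (j k : ι) : 0 ≤ ent q j k := by
  unfold ent; positivity

lemma cross_nonneg (q : Submodule ℂ (E ι)) (Y : Finset ι) : 0 ≤ cross q Y :=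
  Finset.sum_nonneg fun _ _ => Finset.sum_nonneg fun _ _ => ent_nonneg _ _ _

/-- the cells are separated -/
lemma cells_le (hBas : BasStmt) (q : Submodule ℂ (E ι)) (ok : e.Ok εB η δ) :
    ∑ c ∈ e.C, cross q c ≤ e.X₀.card + far q e.ch +
      2 * (∑ t ∈ e.L, cross q (e.Z t) + ∑ t ∈ e.H, e.wg t * cross q (e.Z t)) := by
  have hsym : ∀ j k, ent q j k = ent q k j := fun j k => (((hBas ι).1 q j).2.2.2.2.2.2 k).1
  have hwg : ∀ t ∈ e.H, 0 ≤ e.wg t := fun t ht => (ok.par t (Finset.mem_union_right _ ht)).2.2.2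
  let ω : ι → ι → ℝ := fun j k => (if k ∈ e.X₀ then ent q j k else 0) +
    (if e.ch j = e.ch k then 0 else ent q j k) +
    ((∑ t ∈ e.L, if (j ∈ e.Z t ↔ k ∈ e.Z t) then 0 else ent q j k) +
      ∑ t ∈ e.H, e.wg t * if (j ∈ e.Z t ↔ k ∈ e.Z t) then 0 else ent q j k)
  have p1 : ∀ j k, 0 ≤ (if k ∈ e.X₀ then ent q j k else 0) := fun j k => by
    split_ifs; exacts [ent_nonneg _ _ _, le_rfl]
  have p2 : ∀ j k, 0 ≤ (if e.ch j = e.ch k then 0 else ent q j k) := fun j k => by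
    split_ifs; exacts [le_rfl, ent_nonneg _ _ _]
  have p3 : ∀ j k t, 0 ≤ (if (j ∈ e.Z t ↔ k ∈ e.Z t) then 0 else ent q j k) := fun j k t => by
    split_ifs; exacts [le_rfl, ent_nonneg _ _ _]
  have p4 : ∀ j k, 0 ≤ ∑ t ∈ e.L, if (j ∈ e.Z t ↔ k ∈ e.Z t) then 0 else ent q j k :=
    fun j k => Finset.sum_nonneg fun t _ => p3 j k t
  have p5 : ∀ j k, 0 ≤ ∑ t ∈ e.H, e.wg t * if (j ∈ e.Z t ↔ k ∈ e.Z t) then 0 else ent q j k :=
    fun j k => Finset.sum_nonneg fun t ht => mul_nonneg (hwg t ht) (p3 j k t)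
  have hω : ∀ j k, 0 ≤ ω j k := fun j k =>
    add_nonneg (add_nonneg (p1 j k) (p2 j k)) (add_nonneg (p4 j k) (p5 j k))
  have key : ∀ c ∈ e.C, ∀ j ∈ c, ∀ k ∈ cᶜ, ent q j k ≤ ω j k := by
    intro c hc j hj k hk
    obtain ⟨b, hb, rfl⟩ := mem_C e hc
    obtain ⟨i, hi, rfl⟩ := mem_cell hj
    rw [Finset.mem_compl] at hk
    obtain ⟨_, _, c3, c4⟩ := ok.cellp b hb i hi
    have q1 := p1 ((e.σ ^ i) b) k
    have q2 := p2 ((e.σ ^ i) b) k
    have q4 := p4 ((e.σ ^ i) b) k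
    have q5 := p5 ((e.σ ^ i) b) k
    by_cases hX : k ∈ e.X₀
    · have : (if k ∈ e.X₀ then ent q ((e.σ ^ i) b) k else 0) = ent q ((e.σ ^ i) b) k := if_pos hX
      simp only [ω]; linarith
    by_cases hch : e.ch k = e.ch b
    · rcases ok.sep b hb k hX hk hch with ⟨t, ht, hn⟩ | hH
      · have h1 : (if ((e.σ ^ i) b ∈ e.Z t ↔ k ∈ e.Z t) then 0 else ent q ((e.σ ^ i) b) k) ≤
            ∑ t ∈ e.L, if ((e.σ ^ i) b ∈ e.Z t ↔ k ∈ e.Z t) then 0 else ent q ((e.σ ^ i) b) k :=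
          Finset.single_le_sum (f := fun t =>
            if ((e.σ ^ i) b ∈ e.Z t ↔ k ∈ e.Z t) then 0 else ent q ((e.σ ^ i) b) k)
            (fun t _ => p3 _ k t) ht
        rw [if_neg (by rw [c4 t (Finset.mem_union_left _ ht)]; exact hn)] at h1
        simp only [ω]; linarith
      · have h1 : (∑ t ∈ e.H, e.wg t *
            if ((e.σ ^ i) b ∈ e.Z t ↔ k ∈ e.Z t) then 0 else ent q ((e.σ ^ i) b) k) =
            (∑ t ∈ e.H, if (b ∈ e.Z t ↔ k ∈ e.Z t) then 0 else e.wg t) * ent q ((e.σ ^ i) b) k := by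
          rw [Finset.sum_mul]
          refine Finset.sum_congr rfl fun t ht => ?_
          simp only [c4 t (Finset.mem_union_right _ ht)]
          split_ifs <;> ring
        have h2 := mul_le_mul_of_nonneg_right hH (ent_nonneg q ((e.σ ^ i) b) k)
        simp only [ω]; linarith
    · have : (if e.ch ((e.σ ^ i) b) = e.ch k then 0 else ent q ((e.σ ^ i) b) k) =
          ent q ((e.σ ^ i) b) k := if_neg (by rw [c3]; exact fun h => hch h.symm)
      simp only [ω]; linarith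
  have s1 : ∑ c ∈ e.C, cross q c ≤ ∑ c ∈ e.C, ∑ j ∈ c, ∑ k, ω j k := by
    refine Finset.sum_le_sum fun c hc => Finset.sum_le_sum fun j hj => ?_
    exact (Finset.sum_le_sum fun k hk => key c hc j hj k hk).trans
      (Finset.sum_le_sum_of_subset_of_nonneg (Finset.subset_univ _) fun k _ _ => hω j k)
  have s2 : ∑ c ∈ e.C, ∑ j ∈ c, ∑ k, ω j k ≤ ∑ j, ∑ k, ω j k := by
    have := Finset.sum_biUnion (s := e.C) (t := id) (f := fun j => ∑ k, ω j k)
      (fun c hc c' hc' hne => dj ok c hc c' hc' hne)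
    simp only [id] at this
    rw [← this]
    exact Finset.sum_le_sum_of_subset_of_nonneg (Finset.subset_univ _)
      fun j _ _ => Finset.sum_nonneg fun k _ => hω j k
  have s3 : ∑ j, ∑ k, (if k ∈ e.X₀ then ent q j k else 0) ≤ e.X₀.card := by
    rw [Finset.sum_comm]
    have : ∀ k, ∑ j, (if k ∈ e.X₀ then ent q j k else 0) = if k ∈ e.X₀ then rho q k else 0 := by
      intro k
      split_ifs
      · rw [← ((hBas ι).1 q k).2.2.1]
        exact Finset.sum_congr rfl fun j _ => hsym j k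
      · simp
    simp_rw [this]
    rw [Finset.sum_ite_mem, Finset.univ_inter]
    calc _ ≤ ∑ _k ∈ e.X₀, (1 : ℝ) := Finset.sum_le_sum fun k _ => ((hBas ι).1 q k).2.1
      _ = _ := by simp
  have s4 : ∑ j, ∑ k, ∑ t ∈ e.L, (if (j ∈ e.Z t ↔ k ∈ e.Z t) then 0 else ent q j k) =
      2 * ∑ t ∈ e.L, cross q (e.Z t) := by
    rw [Finset.mul_sum]
    simp_rw [← sep_sum q hsym]
    rw [Finset.sum_comm (s := e.L)]
    refine Finset.sum_congr rfl fun j _ => Finset.sum_comm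
  have s5 : ∑ j, ∑ k, ∑ t ∈ e.H, e.wg t * (if (j ∈ e.Z t ↔ k ∈ e.Z t) then 0 else ent q j k) =
      2 * ∑ t ∈ e.H, e.wg t * cross q (e.Z t) := by
    rw [Finset.mul_sum]
    have : ∀ t, 2 * (e.wg t * cross q (e.Z t)) =
        ∑ j, ∑ k, e.wg t * (if (j ∈ e.Z t ↔ k ∈ e.Z t) then 0 else ent q j k) := by
      intro t
      simp_rw [← Finset.mul_sum]
      rw [sep_sum q hsym]; ring
    simp_rw [this]
    rw [Finset.sum_comm (s := e.H)]
    refine Finset.sum_congr rfl fun j _ => Finset.sum_comm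
  have s6 : ∑ j, ∑ k, ω j k = ∑ j, ∑ k, (if k ∈ e.X₀ then ent q j k else 0) + far q e.ch +
      (2 * ∑ t ∈ e.L, cross q (e.Z t) + 2 * ∑ t ∈ e.H, e.wg t * cross q (e.Z t)) := by
    rw [← s4, ← s5, far]
    simp only [ω, Finset.sum_add_distrib]
  linarith

end env

end CA

open CA in
theorem CA_proof (hBas : BasStmt) (hMono : MonoStmt) (hCond : CondStmt) (hCrs : CrsStmt)
    (hTilt : TiltStmt) : CaStmt := by
  intro ι _ _ e K εB η δ hδ ok kp
  have hκ : (1 : ℝ) ≤ e.κ := by linarith [ok.kap.1]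
  have hκ0 : (0 : ℝ) < e.κ := by linarith
  have hwg : ∀ t ∈ e.H, 0 ≤ e.wg t := fun t ht => (ok.par t (Finset.mem_union_right _ ht)).2.2.2
  have hL : ∀ g : E ι →ₗ[ℂ] E ι, Blk e.C g → Bd g e.κ⁻¹ e.κ →
      ∑ t ∈ e.L, cross (K.map (g ∘ₗ e.g₀)) (e.Z t) ≤
        ∑ t ∈ e.L, (mass (K.map (g ∘ₗ e.g₀)) (e.Z t) - mass K (e.Z t)) +
          ∑ t ∈ e.L, flow e.σ (rho K) (e.r t) (e.Z t) + ∑ t ∈ e.L, e.err δ t := by
    intro g hg hb
    rw [← Finset.sum_add_distrib, ← Finset.sum_add_distrib]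
    exact Finset.sum_le_sum fun t ht =>
      test hBas hCond hCrs hTilt hδ ok kp hg hb (Finset.mem_union_left _ ht)
  constructor
  · intro g hg hb
    rw [← Submodule.map_comp]
    have hbd := bd_comp hBas ok hb
    have hinj := inj_of_bd (by positivity) hbd
    have h1 := cells_le hBas (K.map (g ∘ₗ e.g₀)) ok
    have h2 := hL g hg hb
    have h3 : ∑ t ∈ e.H, e.wg t * cross (K.map (g ∘ₗ e.g₀)) (e.Z t) ≤
        ∑ t ∈ e.H, e.wg t * (mass (K.map (g ∘ₗ e.g₀)) (e.Z t) - mass K (e.Z t)) +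
          ∑ t ∈ e.H, e.wg t * flow e.σ (rho K) (e.r t) (e.Z t) + ∑ t ∈ e.H, e.wg t * e.err δ t := by
      rw [← Finset.sum_add_distrib, ← Finset.sum_add_distrib]
      refine Finset.sum_le_sum fun t ht => ?_
      rw [← mul_add, ← mul_add]
      exact mul_le_mul_of_nonneg_left
        (test hBas hCond hCrs hTilt hδ ok kp hg hb (Finset.mem_union_right _ ht)) (hwg t ht)
    have h4 : ∑ t ∈ e.L, (mass (K.map (g ∘ₗ e.g₀)) (e.Z t) - mass K (e.Z t)) ≤ 0 := by
      rw [low_eq]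
      exact Finset.sum_nonpos fun θ _ => level hBas hMono ok hg hb θ
    have h5 := high_le hBas K ok hinj
    have h6 := ((hCond ι K).1 (g ∘ₗ e.g₀) _ _ (by positivity) hbd).2 e.ch (fun c =>
      cm_comp (cm_of_const hg _ fun b hb i hi => by simp [(ok.cellp b hb i hi).2.2.1]) (cm_diag _ _))
    rw [ratio ok] at h6
    have := ok.errs
    have := ok.x0
    have := kp.farK
    have := kp.fl
    have := kp.fh
    linarith
  · have hg : Blk e.C (LinearMap.id : E ι →ₗ[ℂ] E ι) := ⟨fun _ _ _ => rfl, fun _ => rfl⟩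
    have hb : Bd (LinearMap.id : E ι →ₗ[ℂ] E ι) e.κ⁻¹ e.κ := by
      intro v
      simp only [LinearMap.id_apply]
      exact ⟨mul_le_of_le_one_left (norm_nonneg _) (inv_le_one_of_one_le₀ hκ),
        le_mul_of_one_le_left (norm_nonneg _) hκ⟩
    have hinj := inj_of_bd (by positivity) (bd_comp hBas ok hb)
    have h2 := hL _ hg hb
    rw [low_eq] at h2
    rw [LinearMap.id_comp] at h2 hinj
    have h3 : 0 ≤ ∑ t ∈ e.L, cross (K.map e.g₀) (e.Z t) :=
      Finset.sum_nonneg fun t _ => cross_nonneg _ _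
    have h4 : 0 ≤ ∑ t ∈ e.H, e.wg t * e.err δ t := Finset.sum_nonneg fun t ht =>
      mul_nonneg (hwg t ht) (err_nonneg ok hδ (Finset.mem_union_right _ ht))
    have h5 := ok.errs
    have h6 := kp.fl
    set d : ι → ℝ := fun j => rho (K.map e.g₀) j - rho K j with hd
    have h0 : ∑ j, d j = 0 := tot_zero hBas K hinj
    -- monotonicity for the mixed sets
    have h7 : ∀ θ, (∑ j, if e.Θ j = θ ∧ 0 < d j then d j else 0) +
        (∑ j, if θ < e.Θ j then d j else 0) ≤ 0 := by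
      intro θ
      have h := hMono ι K e.g₀ (univ.filter (fun j => (e.Θ j = θ ∧ 0 < d j) ∨ θ < e.Θ j))
        (e.κ ^ (2 * θ))⁻¹ (by positivity) hinj (cm_diag _ _)
        (fun v => g0_le hBas ok θ _ (by
          intro j hj
          by_contra hc
          apply hj
          have a1 : ¬ θ < e.Θ j := by omega
          have a2 : ¬ e.Θ j = θ := by omega
          simp [a1, a2]))
        (fun v => g0_ge hBas ok θ _ (by
          intro j hj
          by_contra hc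
          apply hj
          have a1 : θ < e.Θ j := by omega
          simp [a1]))
      have h' := mass_sub K (K.map e.g₀)
        (univ.filter (fun j => (e.Θ j = θ ∧ 0 < d j) ∨ θ < e.Θ j))
      simp only [Finset.mem_filter, Finset.mem_univ, true_and] at h'
      rw [← Finset.sum_add_distrib]
      have : ∀ j, (if e.Θ j = θ ∧ 0 < d j then d j else 0) + (if θ < e.Θ j then d j else 0) =
          if (e.Θ j = θ ∧ 0 < d j) ∨ θ < e.Θ j then rho (K.map e.g₀) j - rho K j else 0 := by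
        intro j
        by_cases a1 : θ < e.Θ j
        · have a2 : ¬ e.Θ j = θ := by omega
          simp [a1, a2, hd]
        · by_cases a2 : e.Θ j = θ ∧ 0 < d j
          · rw [if_pos a2, if_neg a1, if_pos (Or.inl a2), add_zero]
          · rw [if_neg a2, if_neg a1, if_neg (by tauto), add_zero]
      simp_rw [this]
      linarith
    have h8 : ∑ θ ∈ range (e.L.card + 1), (∑ j, if e.Θ j = θ ∧ 0 < d j then d j else 0) =
        ∑ j, if 0 < d j then d j else 0 := by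
      rw [Finset.sum_comm]
      refine Finset.sum_congr rfl fun j _ => ?_
      by_cases a : 0 < d j
      · simp only [a, and_true, if_true]
        rw [Finset.sum_ite_eq, if_pos (Finset.mem_range.2 (by have := th_le e j; omega))]
      · simp [a]
    have h9 := Finset.sum_nonpos (s := range (e.L.card + 1)) fun θ _ => h7 θ
    rw [Finset.sum_add_distrib, h8] at h9
    have h10 : ∑ j, |d j| = 2 * (∑ j, if 0 < d j then d j else 0) - ∑ j, d j := by
      rw [Finset.mul_sum, ← Finset.sum_sub_distrib]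
      refine Finset.sum_congr rfl fun j _ => ?_
      split_ifs with a
      · rw [abs_of_pos a]; ring
      · rw [abs_of_nonpos (not_lt.1 a)]; ring
    change ∑ j, |d j| ≤ _
    change _ ≤ (∑ θ ∈ range (e.L.card + 1), ∑ j, if θ < e.Θ j then d j else 0) + _ + _ at h2
    linarith

end Crest.Agent.R113
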