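import Crest.Agent.R113.DefsL

/-! Row 113, task CB. -/

set_option autoImplicit false
set_option linter.unusedSectionVars false

namespace Crest.Agent.R113

open Finset Module

namespace CB

variable {ι : Type} [Fintype ι] [DecidableEq ι]

lemma wt_nonneg (σ : Equiv.Perm ι) (f : ι → ℝ) (hf : ∀ j, 0 ≤ f j ∧ f j ≤ 1) (n : ℕ) (j : ι) :
    0 ≤ wt σ f n j := Finset.prod_nonneg fun _ _ => (hf _).1

lemma wt_le_one (σ : Equiv.Perm ι) (f : ι → ℝ) (hf : ∀ j, 0 ≤ f j ∧ f j ≤ 1) (n : ℕ) (j : ι) :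
    wt σ f n j ≤ 1 := Finset.prod_le_one (fun _ _ => (hf _).1) (fun _ _ => (hf _).2)

lemma theta_le (e : Env ι) (j : ι) : e.Θ j ≤ e.L.card := Finset.card_filter_le _ _

lemma g0_apply (e : Env ι) (v : E ι) (i : ι) :
    e.g₀ v i = (((e.κ ^ (2 * e.Θ i))⁻¹ : ℝ) : ℂ) * v i := rfl

lemma g0_adj (e : Env ι) (u y : E ι) : inner ℂ u (e.g₀ y) = inner ℂ (e.g₀ u) y := by
  simp only [PiLp.inner_apply, g0_apply, RCLike.inner_apply, map_mul, Complex.conj_ofReal]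
  exact Finset.sum_congr rfl fun i _ => by ring

lemma g0_inj (e : Env ι) (hκ : 0 < e.κ) : Function.Injective e.g₀ := by
  intro x y h
  ext i
  have h1 : e.g₀ x i = e.g₀ y i := by rw [h]
  rw [g0_apply, g0_apply] at h1
  have h2 : (((e.κ ^ (2 * e.Θ i))⁻¹ : ℝ) : ℂ) ≠ 0 := by
    have : (e.κ ^ (2 * e.Θ i))⁻¹ ≠ 0 := by positivity
    exact_mod_cast this
  exact mul_left_cancel₀ h2 h1

/-- the conjugated weights -/
noncomputable def aw (e : Env ι) (n : ℕ) (j : ι) : ℝ :=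
  wt e.σ e.f n j * e.κ ^ (2 * e.Θ j) / e.κ ^ (2 * e.Θ ((e.σ ^ n) j))

lemma conj_eq (e : Env ι) (hκ : 0 < e.κ) (n : ℕ) (x : E ι) :
    wp (e.σ ^ n) (aw e n) (e.g₀ x) = e.g₀ (wp (e.σ ^ n) (wt e.σ e.f n) x) := by
  ext i
  rw [wp_apply, g0_apply, g0_apply, wp_apply, aw]
  have h0 : (e.σ ^ n) ((e.σ ^ n)⁻¹ i) = i := by simp
  rw [h0]
  have h1 : (e.κ : ℂ) ≠ 0 := by exact_mod_cast hκ.ne'
  push_cast
  field_simp

lemma aw_bd (e : Env ι) {εB : ℕ → ℝ → ℝ} {η δ : ℝ} (h : e.Ok εB η δ) {n : ℕ} (hn : n < e.w)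
    {j : ι} (hj : j ∉ e.X₀) (hj' : (e.σ ^ n) j ∉ e.X₀) : |aw e n j| ≤ 1 := by
  have hκ : (1 : ℝ) ≤ e.κ := by linarith [h.kap.1]
  have hκ0 : (0 : ℝ) < e.κ := by linarith
  have w0 := wt_nonneg e.σ e.f h.f01 n j
  have w1 := wt_le_one e.σ e.f h.f01 n j
  have hp : 0 < e.κ ^ (2 * e.Θ ((e.σ ^ n) j)) := by positivity
  have hq : 0 < e.κ ^ (2 * e.Θ j) := by positivity
  rw [abs_of_nonneg (by unfold aw; positivity), aw, div_le_one hp]
  rcases h.mono n hn j hj hj' with h1 | h1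
  · have : e.κ ^ (2 * e.Θ j) ≤ e.κ ^ (2 * e.Θ ((e.σ ^ n) j)) :=
      pow_le_pow_right₀ hκ (by omega)
    nlinarith
  · have h2 : e.κ ^ (2 * e.Θ j) ≤ e.κ ^ (2 * e.L.card) :=
      pow_le_pow_right₀ hκ (by have := theta_le e j; omega)
    have h3 : 1 ≤ e.κ ^ (2 * e.Θ ((e.σ ^ n) j)) := one_le_pow₀ hκ
    nlinarith

lemma theta_cell (e : Env ι) {εB : ℕ → ℝ → ℝ} {η δ : ℝ} (h : e.Ok εB η δ) {b : ι} (hb : b ∈ e.B)
    {i : ℕ} (hi : i < e.w) : e.Θ ((e.σ ^ i) b) = e.Θ b := by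
  unfold Env.Θ
  congr 1
  refine Finset.filter_congr fun t ht => ?_
  exact (h.cellp b hb i hi).2.2.2 t (Finset.mem_union_left _ ht)

lemma aw_cell (e : Env ι) {εB : ℕ → ℝ → ℝ} {η δ : ℝ} (h : e.Ok εB η δ) {b : ι} (hb : b ∈ e.B)
    (n i : ℕ) (hi : i + n < e.w) : aw e n ((e.σ ^ i) b) = wt e.σ e.f n ((e.σ ^ i) b) := by
  have hκ0 : (0 : ℝ) < e.κ := by linarith [h.kap.1]
  have h1 : (e.σ ^ n) ((e.σ ^ i) b) = (e.σ ^ (i + n)) b := by
    rw [add_comm, pow_add, Equiv.Perm.mul_apply]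
  rw [aw, h1, theta_cell e h hb hi, theta_cell e h hb (show i < e.w by omega)]
  field_simp

/-- vanishing on `X₀` -/
def Van (X : Finset ι) (v : E ι) : Prop := ∀ j ∈ X, v j = 0

lemma Van.sub {X : Finset ι} {u v : E ι} (hu : Van X u) (hv : Van X v) : Van X (u - v) := by
  intro j hj
  simp [hu j hj, hv j hj]

lemma van_of_ker {X : Finset ι} {v : E ι} (h : v ∈ LinearMap.ker (cut X)) : Van X v := by
  intro j hj
  have h1 : cut X v j = 0 := by rw [LinearMap.mem_ker.1 h]; rfl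
  simpa [hj] using h1

lemma van_of_gr (e : Env ι) {εB : ℕ → ℝ → ℝ} {η δ : ℝ} (h : e.Ok εB η δ) {G : Submodule ℂ (E ι)}
    (hG : Gr e.C G) {v : E ι} (hv : v ∈ G) : Van e.X₀ v := by
  intro j hj
  rw [← hG.2 v hv, cut_apply, if_neg]
  intro hu
  simp only [un, Env.C, Finset.mem_biUnion, Finset.mem_image, id] at hu
  obtain ⟨c, ⟨b, hb, rfl⟩, hc⟩ := hu
  simp only [cell, Finset.mem_image, Finset.mem_range] at hc
  obtain ⟨i, hi, rfl⟩ := hc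
  exact (h.cellp b hb i hi).1 hj

lemma inner_W_le (hBas : BasStmt) (e : Env ι) {εB : ℕ → ℝ → ℝ} {η δ : ℝ} (h : e.Ok εB η δ)
    {n : ℕ} (hn : n < e.w) {y z : E ι} (hy : Van e.X₀ y) (hz : Van e.X₀ z) :
    ‖inner ℂ z (wp (e.σ ^ n) (aw e n) y)‖ ≤ ‖z‖ * ‖y‖ := by
  classical
  set a' : ι → ℝ := fun j => if j ∉ e.X₀ ∧ (e.σ ^ n) j ∉ e.X₀ then aw e n j else 0 with ha'
  have h1 : inner ℂ z (wp (e.σ ^ n) (aw e n) y) = inner ℂ z (wp (e.σ ^ n) a' y) := by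
    simp only [PiLp.inner_apply, wp_apply, RCLike.inner_apply]
    refine Finset.sum_congr rfl fun i _ => ?_
    by_cases h1 : i ∈ e.X₀
    · simp [hz i h1]
    · by_cases h2 : (e.σ ^ n)⁻¹ i ∈ e.X₀
      · rw [hy _ h2]; simp
      · have h0 : (e.σ ^ n) ((e.σ ^ n)⁻¹ i) = i := by simp
        have : a' ((e.σ ^ n)⁻¹ i) = aw e n ((e.σ ^ n)⁻¹ i) := by
          simp only [ha']
          rw [if_pos ⟨h2, by rw [h0]; exact h1⟩]
        rw [this]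
  have h2 : ‖wp (e.σ ^ n) a' y‖ ≤ 1 * ‖y‖ := by
    refine (hBas ι).2.2.2.2.2.1 _ _ 1 y zero_le_one fun j _ => ?_
    simp only [ha']
    split_ifs with hc
    · exact aw_bd e h hn hc.1 hc.2
    · simp
  rw [h1]
  calc _ ≤ ‖z‖ * ‖wp (e.σ ^ n) a' y‖ := norm_inner_le_norm _ _
    _ ≤ ‖z‖ * ‖y‖ := by gcongr; linarith

lemma pr_mem (K : Submodule ℂ (E ι)) (v : E ι) : pr K v ∈ K :=
  Submodule.starProjection_apply_mem K v

lemma pr_norm_le (K : Submodule ℂ (E ι)) (v : E ι) : ‖pr K v‖ ≤ ‖v‖ :=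
  Submodule.norm_starProjection_apply_le K v

lemma pr_of_mem {K : Submodule ℂ (E ι)} {v : E ι} (h : v ∈ K) : pr K v = v :=
  Submodule.starProjection_eq_self_iff.2 h

lemma inner_pr {K : Submodule ℂ (E ι)} {u : E ι} (h : u ∈ K) (v : E ι) :
    inner ℂ u (pr K v) = inner ℂ u v := by
  rw [pr_apply, ← Submodule.inner_starProjection_left_eq_right,
    Submodule.starProjection_eq_self_iff.2 h]

lemma sum_fin_filter {w : ℕ} (p : ℕ → Prop) [DecidablePred p] (F : ℕ → ℝ) :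
    ∑ j ∈ (univ : Finset (Fin w)).filter (fun j => p j.val), F j.val =
      ∑ i ∈ (range w).filter p, F i := by
  rw [Finset.sum_filter, Finset.sum_filter]
  exact Fin.sum_univ_eq_sum_range (fun i => if p i then F i else 0) w

/-- the estimate for one `n` -/
lemma one (hBas : BasStmt) (hSpec : SpecStmt) (hCond : CondStmt) (hDim : DimStmt)
    (e : Env ι) (K G G' F F' : Submodule ℂ (E ι)) (εB : ℕ → ℝ → ℝ) (η δ : ℝ) (hδ : 0 ≤ δ)
    (hη : η ≤ 1 / 4) (h : e.Ok εB η δ) (hK : e.Kp K η δ)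
    (hC : Close e.C (K.map e.g₀) G G' F F' (200 * η * Fintype.card ι) (2 / e.κ))
    (n : ℕ) (hn : n < e.w) (Y : ι → Submodule ℂ (E (Fin e.w)))
    (hY : ∀ b ∈ e.B, ∀ y ∈ Y b, εB e.w e.lam * ‖y‖ ≤
      ‖pr (G'.map (res e.σ e.w b)) (ts (fun i => e.f ((e.σ ^ i) b)) n
        (pr (G.map (res e.σ e.w b)) y))‖) :
    ∑ b ∈ e.B, (finrank ℂ (Y b) : ℝ) ≤ 2 * (202 * η * Fintype.card ι) := by
  obtain ⟨hG, hG', -, -, hF, hF', hdF, hdF', hcF, hcF'⟩ := hC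
  obtain ⟨hκ2, -, hεB, hκη, hwδ⟩ := h.kap
  have hκ1 : (1 : ℝ) ≤ e.κ := by linarith
  have hκ0 : (0 : ℝ) < e.κ := by linarith
  have hN0 : (0 : ℝ) ≤ Fintype.card ι := Nat.cast_nonneg _
  have hηN : 0 ≤ η * Fintype.card ι := le_trans (Nat.cast_nonneg _) h.x0
  have hhalf : 2 / e.κ ≤ 1 / 2 := by
    have h0 : 0 ≤ 2 / e.κ := by positivity
    nlinarith
  obtain ⟨-, -, -, b4, b5, b6, b7, b8, b9⟩ := hBas ι
  set Tn := wp (e.σ ^ n) (wt e.σ e.f n) with hTn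
  set t : ℝ := (e.κ ^ (2 * e.L.card + 1))⁻¹ with ht
  have ht0 : 0 < t := by positivity
  obtain ⟨K₁, K₂, hK₁, -, hdim, hs1, hs2⟩ := hSpec ι K (pr Kᗮ ∘ₗ Tn ∘ₗ pr K) t ht0.le
  -- codimension of `K₁`
  have hK₂ : (finrank ℂ K₂ : ℝ) ≤ η * Fintype.card ι := by
    have a1 : t ^ 2 * finrank ℂ K₂ ≤ hs (pr Kᗮ ∘ₗ Tn ∘ₗ pr K) := by
      refine (b4 _).2.2.2 K₂ (t ^ 2) fun v hv => ?_
      have := hs2 v hv
      rw [← mul_pow]
      exact pow_le_pow_left₀ (by positivity) this 2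
    have a2 : dfc K (wp e.σ e.f ^ n) ≤ (n : ℝ) ^ 2 * dfc K (wp e.σ e.f) := by
      refine (hCond ι K).2 _ n fun v => ?_
      have := b6 e.σ e.f 1 v zero_le_one fun j _ => by
        rw [abs_of_nonneg (h.f01 j).1]; exact (h.f01 j).2
      simpa using this
    rw [b5, ← hTn] at a2
    have a3 : (n : ℝ) ^ 2 * dfc K (wp e.σ e.f) ≤ (e.w : ℝ) ^ 2 * (δ * Fintype.card ι) := by
      have : (n : ℝ) ≤ e.w := by exact_mod_cast hn.le
      calc _ ≤ (n : ℝ) ^ 2 * (δ * Fintype.card ι) := by gcongr; exact hK.inv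
        _ ≤ _ := by gcongr
    have a4 : t ^ 2 * finrank ℂ K₂ ≤ (e.w : ℝ) ^ 2 * (δ * Fintype.card ι) :=
      le_trans a1 (le_trans a2 a3)
    have a5 : e.κ ^ (2 * e.L.card + 1) ≤ e.κt := pow_le_pow_right₀ hκ1 (by omega)
    have a6 : (1 : ℝ) ≤ e.κt * t := by
      rw [ht, ← div_eq_mul_inv, le_div_iff₀ (by positivity)]; linarith
    have a7 : (1 : ℝ) ≤ (e.κt * t) ^ 2 := one_le_pow₀ a6
    have a8 : (0 : ℝ) ≤ finrank ℂ K₂ := Nat.cast_nonneg _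
    calc (finrank ℂ K₂ : ℝ) ≤ (e.κt * t) ^ 2 * finrank ℂ K₂ := by nlinarith
      _ = e.κt ^ 2 * (t ^ 2 * finrank ℂ K₂) := by ring
      _ ≤ e.κt ^ 2 * ((e.w : ℝ) ^ 2 * (δ * Fintype.card ι)) := by gcongr
      _ = ((e.w : ℝ) ^ 2 * δ * e.κt ^ 2) * Fintype.card ι := by ring
      _ ≤ η * Fintype.card ι := by gcongr
  have hfr : ∀ M : Submodule ℂ (E ι), finrank ℂ (M.map e.g₀) = finrank ℂ M := fun M =>
    (LinearEquiv.finrank_eq (Submodule.equivMapOfInjective e.g₀ (g0_inj e hκ0) M)).symm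
  set F₁ : Submodule ℂ (E ι) := (F ⊓ LinearMap.ker (cut e.X₀)) ⊓ K₁.map e.g₀ with hF₁
  set F₂ : Submodule ℂ (E ι) := F' ⊓ LinearMap.ker (cut e.X₀) with hF₂
  have d1 : (finrank ℂ G : ℝ) - 202 * η * Fintype.card ι ≤ finrank ℂ F₁ := by
    have c1 := b8 F e.X₀
    have c2 := b9 (K.map e.g₀) (F ⊓ LinearMap.ker (cut e.X₀)) (K₁.map e.g₀)
      (le_trans inf_le_left hF) (Submodule.map_mono hK₁)
    rw [hfr, hfr] at c2
    have c3 : (finrank ℂ K₁ : ℝ) + finrank ℂ K₂ = finrank ℂ K := by exact_mod_cast hdim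
    have c4 := h.x0
    linarith
  have d2 : (finrank ℂ G' : ℝ) - 202 * η * Fintype.card ι ≤ finrank ℂ F₂ := by
    have c1 := b8 F' e.X₀
    have c4 := h.x0
    linarith
  have two : ∀ (M : Submodule ℂ (E ι)) (v : E ι), ‖v - pr M v‖ ≤ 2 / e.κ * ‖v‖ →
      ‖v‖ ≤ 2 * ‖pr M v‖ := by
    intro M v hv
    have c1 : ‖v‖ ≤ ‖v - pr M v‖ + ‖pr M v‖ := by
      simpa using norm_add_le (v - pr M v) (pr M v)
    have c2 : 2 / e.κ * ‖v‖ ≤ 1 / 2 * ‖v‖ := by gcongr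
    linarith
  refine (hDim ι e.σ e.w e.B h.far).2 e.f (aw e n) n G G' F₁ F₂ _ (5 / e.κ) (εB e.w e.lam) Y hn
    hG hG' d1 d2 (fun v hv => two G v (hcF v hv.1.1)) (fun u hu => two G' u (hcF' u hu.1))
    (fun b hb i hi => aw_cell e h hb n i hi) ?_ (by positivity) ?_ hY
  · rintro v ⟨⟨hvF, hvX⟩, x, hx, hxv⟩ u ⟨huF, huX⟩
    have vv : Van e.X₀ v := van_of_ker hvX
    have vu : Van e.X₀ u := van_of_ker huX
    have vpv : Van e.X₀ (pr G v) := van_of_gr e h hG (pr_mem _ _)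
    have vpu : Van e.X₀ (pr G' u) := van_of_gr e h hG' (pr_mem _ _)
    set W := wp (e.σ ^ n) (aw e n) with hW
    have hgu : e.g₀ u ∈ Kᗮ := by
      rw [Submodule.mem_orthogonal]
      intro y hy
      rw [g0_adj]
      exact (Submodule.mem_orthogonal _ _).1 (hF' huF) _ (Submodule.mem_map_of_mem hy)
    have m1 : ‖inner ℂ u (W v)‖ ≤ 1 / e.κ * (‖v‖ * ‖u‖) := by
      have e1 : inner ℂ u (W v) = inner ℂ (e.g₀ u) ((pr Kᗮ ∘ₗ Tn ∘ₗ pr K) x) := by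
        rw [← hxv, hW, conj_eq e hκ0, g0_adj, LinearMap.comp_apply, LinearMap.comp_apply,
          inner_pr hgu, pr_of_mem (hK₁ hx)]
      have e2 : ‖e.g₀ u‖ ≤ 1 * ‖u‖ := by
        refine b6 1 _ 1 u zero_le_one fun j _ => ?_
        rw [abs_of_nonneg (by positivity)]
        exact inv_le_one_of_one_le₀ (one_le_pow₀ hκ1)
      have e3 : (e.κ ^ (2 * e.L.card))⁻¹ * ‖x‖ ≤ ‖e.g₀ x‖ := by
        refine b7 1 _ _ x (by positivity) fun j _ => ?_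
        rw [abs_of_nonneg (by positivity)]
        exact inv_anti₀ (by positivity)
          (pow_le_pow_right₀ hκ1 (by have := theta_le e j; omega))
      rw [hxv] at e3
      have e4 : t * ‖x‖ ≤ 1 / e.κ * ‖v‖ := by
        calc t * ‖x‖ = 1 / e.κ * ((e.κ ^ (2 * e.L.card))⁻¹ * ‖x‖) := by
              rw [ht, pow_succ]; field_simp
          _ ≤ _ := by gcongr
      rw [e1]
      calc _ ≤ ‖e.g₀ u‖ * ‖(pr Kᗮ ∘ₗ Tn ∘ₗ pr K) x‖ := norm_inner_le_norm _ _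
        _ ≤ (1 * ‖u‖) * (1 / e.κ * ‖v‖) := by
            gcongr
            exact le_trans (hs1 x hx) e4
        _ = _ := by ring
    have m2 : ‖inner ℂ (u - pr G' u) (W v)‖ ≤ 2 / e.κ * (‖v‖ * ‖u‖) := by
      calc _ ≤ ‖u - pr G' u‖ * ‖v‖ := inner_W_le (fun ι => hBas ι) e h hn vv (vu.sub vpu)
        _ ≤ (2 / e.κ * ‖u‖) * ‖v‖ := by gcongr; exact hcF' u huF
        _ = _ := by ring
    have m3 : ‖inner ℂ (pr G' u) (W (v - pr G v))‖ ≤ 2 / e.κ * (‖v‖ * ‖u‖) := by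
      calc _ ≤ ‖pr G' u‖ * ‖v - pr G v‖ := inner_W_le (fun ι => hBas ι) e h hn (vv.sub vpv) vpu
        _ ≤ ‖u‖ * (2 / e.κ * ‖v‖) := by
            gcongr
            · exact pr_norm_le _ _
            · exact hcF v hvF
        _ = _ := by ring
    have e0 : inner ℂ (pr G' u) (W (pr G v)) =
        inner ℂ u (W v) - inner ℂ (u - pr G' u) (W v) - inner ℂ (pr G' u) (W (v - pr G v)) := by
      rw [map_sub, inner_sub_left, inner_sub_right]; ring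
    rw [e0]
    calc _ ≤ ‖inner ℂ u (W v)‖ + ‖inner ℂ (u - pr G' u) (W v)‖ +
          ‖inner ℂ (pr G' u) (W (v - pr G v))‖ :=
          le_trans (norm_sub_le _ _) (by gcongr; exact norm_sub_le _ _)
      _ ≤ 1 / e.κ * (‖v‖ * ‖u‖) + 2 / e.κ * (‖v‖ * ‖u‖) + 2 / e.κ * (‖v‖ * ‖u‖) := by gcongr
      _ = _ := by ring
  · have : 4 * (5 / e.κ) < 100 / e.κ := by
      rw [← mul_div_assoc]; gcongr; norm_num
    linarith

end CB

open CB in
theorem CB_proof (hBas : BasStmt) (hSpec : SpecStmt) (hCond : CondStmt) (hDim : DimStmt) :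
    CbStmt := by
  intro ι _ _ e K G G' F F' εB η δ hδ hη hB h hK hC
  have hex : ∀ b, ∃ Y : ℕ → Submodule ℂ (E (Fin e.w)), b ∈ e.B →
      (∀ n < e.w, ∀ v ∈ Y n, εB e.w e.lam * ‖v‖ ≤
        ‖pr (G'.map (res e.σ e.w b)) (ts (fun i => e.f ((e.σ ^ i) b)) n
          (pr (G.map (res e.σ e.w b)) v))‖) ∧
      mass (G.map (res e.σ e.w b)) (hd e.w) * mass (G'.map (res e.σ e.w b)) (hd e.w)ᶜ - 1 ≤
        ∑ n ∈ range e.w, (finrank ℂ (Y n) : ℝ) := by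
    intro b
    by_cases hb : b ∈ e.B
    · obtain ⟨Y, hY⟩ := (hB e.w e.lam h.kap.2.1).2 (G.map (res e.σ e.w b))
        (G'.map (res e.σ e.w b)) (fun i => e.f ((e.σ ^ i) b))
        (fun i hi => ⟨(h.cellp b hb i hi).2.1, (h.f01 _).2⟩)
      exact ⟨Y, fun _ => hY⟩
    · exact ⟨fun _ => ⊥, fun hb' => absurd hb' hb⟩
  choose Y hY using hex
  have hD := (hDim ι e.σ e.w e.B h.far).1
  have hm1 : ∀ b ∈ e.B, mass (G.map (res e.σ e.w b)) (hd e.w) =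
      ∑ i ∈ range (e.w / 2), rho G ((e.σ ^ i) b) := by
    intro b hb
    have h1 : (range e.w).filter (fun i => i < e.w / 2) = range (e.w / 2) := by
      ext i; simp only [mem_filter, mem_range]; omega
    rw [mass, Finset.sum_congr rfl (fun i _ => hD G hC.1 b hb i), ← h1, hd]
    exact sum_fin_filter (fun i => i < e.w / 2) (fun i => rho G ((e.σ ^ i) b))
  have hm2 : ∀ b ∈ e.B, mass (G'.map (res e.σ e.w b)) (hd e.w)ᶜ =
      ∑ i ∈ Ico (e.w / 2) e.w, rho G' ((e.σ ^ i) b) := by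
    intro b hb
    have h1 : (range e.w).filter (fun i => ¬ i < e.w / 2) = Ico (e.w / 2) e.w := by
      ext i; simp only [mem_filter, mem_range, mem_Ico]; omega
    have h2 : (hd e.w)ᶜ = univ.filter (fun i : Fin e.w => ¬ i.val < e.w / 2) := by
      ext i; simp [hd]
    rw [mass, Finset.sum_congr rfl (fun i _ => hD G' hC.2.1 b hb i), ← h1, h2]
    exact sum_fin_filter (fun i => ¬ i < e.w / 2) (fun i => rho G' ((e.σ ^ i) b))
  calc _ ≤ ∑ b ∈ e.B, ∑ n ∈ range e.w, (finrank ℂ (Y b n) : ℝ) := by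
        refine Finset.sum_le_sum fun b hb => ?_
        rw [← hm1 b hb, ← hm2 b hb]
        exact (hY b hb).2
    _ = ∑ n ∈ range e.w, ∑ b ∈ e.B, (finrank ℂ (Y b n) : ℝ) := Finset.sum_comm
    _ ≤ ∑ _n ∈ range e.w, 2 * (202 * η * Fintype.card ι) := by
        refine Finset.sum_le_sum fun n hn => ?_
        have hn' := Finset.mem_range.1 hn
        exact one hBas hSpec hCond hDim e K G G' F F' εB η δ hδ hη h hK hC n hn'
          (fun b => Y b n) (fun b hb y hy => (hY b hb).1 n hn' y hy)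
    _ = _ := by
        rw [Finset.sum_const, Finset.card_range, nsmul_eq_mul]; ring

end Crest.Agent.R113
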