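import Crest.Agent.R113.DefsR

set_option autoImplicit false

namespace Crest.Agent.R113

open Finset Crest.AnalysisR.RotationRep

namespace COMM

lemma ee_add (x y : ℝ) : ee (x + y) = ee x * ee y := by
  unfold ee
  rw [← Complex.exp_add]
  congr 1
  push_cast
  ring

lemma ee_zero : ee 0 = 1 := by
  simp [ee]

lemma norm_ee (x : ℝ) : ‖ee x‖ = 1 := by
  unfold ee
  have : (2 * Real.pi * Complex.I * x : ℂ) = ((2 * Real.pi * x : ℝ) : ℂ) * Complex.I := by
    push_cast; ring
  rw [this, Complex.norm_exp_ofReal_mul_I]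

/-- bounded operators that agree on the basis are equal -/
lemma ext_dl {F : Type*} [NormedAddCommGroup F] [NormedSpace ℂ F] {S T : HH →L[ℂ] F}
    (h : ∀ y, S (dl y) = T (dl y)) : S = T := by
  refine lp.ext_continuousLinearMap (ENNReal.ofNat_ne_top (n := nat_lit 2)) fun i => ?_
  refine ContinuousLinearMap.ext_ring ?_
  simpa [dl] using h i

lemma inner_dl_left (y : ℤ × ℤ) (v : HH) : inner ℂ (dl y) v = v y := by
  unfold dl
  rw [lp.inner_single_left]
  simp

lemma dl_apply (y z : ℤ × ℤ) : (dl y) z = if z = y then 1 else 0 := by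
  unfold dl
  rw [lp.single_apply, Pi.single_apply]

lemma inner_dl_dl (y z : ℤ × ℤ) : inner ℂ (dl y) (dl z) = if y = z then (1 : ℂ) else 0 := by
  rw [inner_dl_left, dl_apply]

lemma orthonormal_dl : Orthonormal ℂ dl := by
  rw [orthonormal_iff_ite]
  intro y z
  rw [inner_dl_dl]

lemma norm_dl (y : ℤ × ℤ) : ‖dl y‖ = 1 := orthonormal_dl.1 y

/-- weighted permutations of the basis are unitary -/
lemma exists_unitary (π : Equiv.Perm (ℤ × ℤ)) (φ : ℤ × ℤ → ℂ) (hφ : ∀ y, ‖φ y‖ = 1) :
    ∃ W : HH →L[ℂ] HH, W ∈ unitary (HH →L[ℂ] HH) ∧ ∀ y, W (dl y) = φ y • dl (π y) := by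
  have hon : Orthonormal ℂ (fun y => φ y • dl (π y)) := by
    rw [orthonormal_iff_ite]
    intro y z
    rw [inner_smul_left, inner_smul_right, inner_dl_dl]
    by_cases h : y = z
    · subst h
      simp only [if_true, mul_one]
      rw [Complex.conj_mul', hφ y]
      simp
    · have : π y ≠ π z := fun h' => h (π.injective h')
      simp [h, this]
  have hsp : (Submodule.span ℂ (Set.range (fun y => φ y • dl (π y))))ᗮ = ⊥ := by
    rw [Submodule.eq_bot_iff]
    intro v hv
    rw [Submodule.mem_orthogonal] at hv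
    ext z
    have h1 := hv (φ (π.symm z) • dl (π (π.symm z))) (Submodule.subset_span ⟨π.symm z, rfl⟩)
    rw [inner_smul_left, inner_dl_left, Equiv.apply_symm_apply] at h1
    have h2 : (starRingEnd ℂ) (φ (π.symm z)) ≠ 0 := by
      intro h0
      have := hφ (π.symm z)
      rw [← Complex.norm_conj, h0] at this
      simp at this
    simpa using (mul_eq_zero.mp h1).resolve_left h2
  let b : HilbertBasis (ℤ × ℤ) ℂ HH := HilbertBasis.mkOfOrthogonalEqBot hon hsp
  let W := (Unitary.linearIsometryEquiv (𝕜 := ℂ) (H := HH)).symm b.repr.symm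
  refine ⟨(W : HH →L[ℂ] HH), W.2, fun y => ?_⟩
  have h1 : (W : HH →L[ℂ] HH) (dl y) = b.repr.symm (dl y) := rfl
  rw [h1]
  unfold dl
  rw [HilbertBasis.repr_symm_single]
  simp [b, dl]

lemma U_dl {θ : ℝ} {U V : HH →L[ℂ] HH} (h : IsRotationPair θ U V) (a b : ℤ) :
    U (dl (a, b)) = dl (a + 1, b) := h.1 a b

lemma V_dl {θ : ℝ} {U V : HH →L[ℂ] HH} (h : IsRotationPair θ U V) (a b : ℤ) :
    V (dl (a, b)) = ee (θ * a) • dl (a, b + 1) := by
  have := h.2 a b
  unfold ee dl
  rw [this]
  congr 2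
  push_cast
  ring

lemma U_unitary {θ : ℝ} {U V : HH →L[ℂ] HH} (h : IsRotationPair θ U V) :
    U ∈ unitary (HH →L[ℂ] HH) := by
  obtain ⟨W, hW, hW'⟩ := exists_unitary (Equiv.addRight ((1 : ℤ), (0 : ℤ))) (fun _ => 1) (by simp)
  have : U = W := by
    refine ext_dl fun y => ?_
    obtain ⟨a, b⟩ := y
    rw [U_dl h, hW']
    simp
  rw [this]; exact hW

lemma V_unitary {θ : ℝ} {U V : HH →L[ℂ] HH} (h : IsRotationPair θ U V) :
    V ∈ unitary (HH →L[ℂ] HH) := by
  obtain ⟨W, hW, hW'⟩ := exists_unitary (Equiv.addRight ((0 : ℤ), (1 : ℤ)))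
    (fun y => ee (θ * y.1)) (fun y => norm_ee _)
  have : V = W := by
    refine ext_dl fun y => ?_
    obtain ⟨a, b⟩ := y
    rw [V_dl h, hW']
    simp
  rw [this]; exact hW

lemma comm_star {U R : HH →L[ℂ] HH} (hU : U ∈ unitary (HH →L[ℂ] HH)) (h : U * R = R * U) :
    star U * R = R * star U := by
  have h1 : star U * U = 1 := Unitary.star_mul_self_of_mem hU
  have h2 : U * star U = 1 := Unitary.mul_star_self_of_mem hU
  calc star U * R = star U * R * (U * star U) := by rw [h2, mul_one]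
    _ = star U * (R * U) * star U := by simp only [mul_assoc]
    _ = star U * (U * R) * star U := by rw [h]
    _ = (star U * U) * R * star U := by simp only [mul_assoc]
    _ = R * star U := by rw [h1, one_mul]

/-- the right translations -/
lemma exists_right {θ : ℝ} {U V : HH →L[ℂ] HH} (h : IsRotationPair θ U V) (y : ℤ × ℤ) :
    ∃ R : HH →L[ℂ] HH, R ∈ unitary (HH →L[ℂ] HH) ∧ R (dl 0) = dl y ∧
      ∀ e ∈ vonNeumannGenerated {U, V}, R * e = e * R := by
  obtain ⟨m, n⟩ := y
  obtain ⟨R, hR, hR'⟩ := exists_unitary (Equiv.addRight (m, n))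
    (fun y => ee (θ * y.2 * m)) (fun y => norm_ee _)
  have hR2 : ∀ a b : ℤ, R (dl (a, b)) = ee (θ * b * m) • dl (a + m, b + n) := by
    intro a b
    rw [hR']
    simp
  have hUR : U * R = R * U := by
    refine ext_dl fun y => ?_
    obtain ⟨a, b⟩ := y
    simp only [ContinuousLinearMap.mul_apply]
    rw [hR2, map_smul, U_dl h, U_dl h, hR2]
    congr 3
    ring
  have hVR : V * R = R * V := by
    refine ext_dl fun y => ?_
    obtain ⟨a, b⟩ := y
    simp only [ContinuousLinearMap.mul_apply]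
    rw [hR2, map_smul, V_dl h, V_dl h, map_smul, hR2, smul_smul, smul_smul, ← ee_add, ← ee_add]
    have e1 : θ * (b : ℝ) * (m : ℝ) + θ * ((a + m : ℤ) : ℝ)
        = θ * (a : ℝ) + θ * ((b + 1 : ℤ) : ℝ) * (m : ℝ) := by
      push_cast; ring
    have e2 : b + n + 1 = b + 1 + n := by ring
    rw [e1, e2]
  refine ⟨R, hR, ?_, fun e he => ?_⟩
  · have := hR2 0 0
    simp only [Int.cast_zero, mul_zero, zero_mul, zero_add, ee_zero, one_smul] at this
    exact this
  · refine he R ?_
    intro x hx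
    rcases hx with hx | ⟨x', hx', rfl⟩
    · rcases hx with rfl | rfl
      · exact hUR
      · exact hVR
    · rcases hx' with rfl | rfl
      · exact comm_star (U_unitary h) hUR
      · exact comm_star (V_unitary h) hVR

end COMM

open COMM in
theorem COMM_proof : CommStmt := by
  intro θ U V h
  refine ⟨U_unitary h, V_unitary h, fun e he => ?_⟩
  have key : ∀ y, ‖e (dl y)‖ = ‖e (dl 0)‖ := by
    intro y
    obtain ⟨R, hR, hR0, hRe⟩ := exists_right h y
    have h1 : e (dl y) = R (e (dl 0)) := by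
      rw [← hR0, ← ContinuousLinearMap.mul_apply, ← hRe e he, ContinuousLinearMap.mul_apply]
    rw [h1]
    exact ContinuousLinearMap.norm_map_of_mem_unitary hR _
  refine ⟨key, fun h0 => ?_⟩
  refine ext_dl fun y => ?_
  have := key y
  rw [h0, norm_zero, norm_eq_zero] at this
  simpa using this

end Crest.Agent.R113
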