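import Crest.Agent.R113.DefsL

set_option autoImplicit false

namespace Crest.Agent.R113

open Finset Module

namespace COND

variable {ι : Type} [Fintype ι] [DecidableEq ι]

omit [DecidableEq ι] in
lemma pr_mem (G : Submodule ℂ (E ι)) (v : E ι) : pr G v ∈ G := G.starProjection_apply_mem v

omit [DecidableEq ι] in
lemma pr_le (G : Submodule ℂ (E ι)) (v : E ι) : ‖pr G v‖ ≤ ‖v‖ := G.norm_starProjection_apply_le v

lemma pr_orth_of_mem (G : Submodule ℂ (E ι)) {v : E ι} (hv : v ∈ G) : pr Gᗮ v = 0 := by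
  rw [pr_apply, Submodule.starProjection_apply_eq_zero_iff]
  exact G.le_orthogonal_orthogonal hv

lemma pr_of_mem (G : Submodule ℂ (E ι)) {v : E ι} (hv : v ∈ G) : pr G v = v := by
  rw [pr_apply, Submodule.starProjection_eq_self_iff]; exact hv

omit [DecidableEq ι] in
lemma pr_add (G : Submodule ℂ (E ι)) (v : E ι) : pr Gᗮ v + pr G v = v := by
  rw [add_comm]; exact G.starProjection_add_starProjection_orthogonal v

lemma hs_nonneg (B : E ι →ₗ[ℂ] E ι) : 0 ≤ hs B := Finset.sum_nonneg fun _ _ => by positivity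

lemma cross_nonneg (K : Submodule ℂ (E ι)) (Y : Finset ι) : 0 ≤ cross K Y :=
  Finset.sum_nonneg fun _ _ => Finset.sum_nonneg fun _ _ => by unfold ent; positivity

lemma far_eq (K : Submodule ℂ (E ι)) (ch : ι → ℕ × ℕ) :
    far K ch = ∑ c ∈ univ.image ch, cross K (univ.filter (fun j => ch j = c)) := by
  unfold far cross
  rw [← Finset.sum_fiberwise_of_maps_to (s := univ) (t := univ.image ch) (g := ch)
    (fun j _ => mem_image_of_mem _ (mem_univ j))]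
  refine Finset.sum_congr rfl fun c _ => Finset.sum_congr rfl fun j hj => ?_
  have hc : ch j = c := (mem_filter.1 hj).2
  rw [Finset.compl_filter, Finset.sum_filter]
  refine Finset.sum_congr rfl fun k _ => ?_
  rw [hc]
  by_cases hk : ch k = c
  · simp [hk]
  · simp [hk, Ne.symm hk]

lemma part1 (hBas : BasStmt) (K : Submodule ℂ (E ι)) (g : E ι →ₗ[ℂ] E ι) (lo hi : ℝ) (hlo : 0 < lo)
    (hg : Bd g lo hi) (Y : Finset ι) (hY : Cm g Y) :
    cross (K.map g) Y ≤ 2 * (hi / lo) ^ 2 * cross K Y := by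
  obtain ⟨-, -, h3, h4, -⟩ := hBas ι
  have hinj : Function.Injective g := by
    rw [injective_iff_map_eq_zero]
    intro v hv
    have := (hg v).1
    rw [hv, norm_zero] at this
    have h0 : ‖v‖ ≤ 0 := by
      by_contra hc
      push Not at hc
      nlinarith
    exact norm_le_zero_iff.1 h0
  let e : E ι ≃ₗ[ℂ] E ι := LinearEquiv.ofInjectiveEndo g hinj
  have he : ∀ v, g (e.symm v) = v := fun v => e.apply_symm_apply v
  have he' : ∀ v, e.symm (g v) = v := fun v => e.symm_apply_apply v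
  have hop : pr (K.map g)ᗮ ∘ₗ cut Y ∘ₗ pr (K.map g) =
      (pr (K.map g)ᗮ ∘ₗ g) ∘ₗ ((pr Kᗮ ∘ₗ cut Y ∘ₗ pr K) ∘ₗ (e.symm.toLinearMap ∘ₗ pr (K.map g))) := by
    apply LinearMap.ext
    intro v
    obtain ⟨k, hk, ek⟩ := pr_mem (K.map g) v
    simp only [LinearMap.comp_apply, LinearEquiv.coe_coe]
    rw [← ek, he', pr_of_mem K hk, ← hY]
    conv_lhs => rw [← pr_add K (cut Y k), map_add, map_add,
      pr_orth_of_mem (K.map g) (Submodule.mem_map_of_mem (pr_mem K (cut Y k))), add_zero]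
  rw [(h3 (K.map g) Y).2.2.2.1, hop]
  have b1 := ((h4 ((pr Kᗮ ∘ₗ cut Y ∘ₗ pr K) ∘ₗ (e.symm.toLinearMap ∘ₗ pr (K.map g)))).2.1
    (pr (K.map g)ᗮ ∘ₗ g) hi (fun v => (pr_le _ _).trans (hg v).2)).1
  have b2 := ((h4 (pr Kᗮ ∘ₗ cut Y ∘ₗ pr K)).2.1 (e.symm.toLinearMap ∘ₗ pr (K.map g)) lo⁻¹ (fun v => by
    have h1 := (hg (e.symm (pr (K.map g) v))).1
    rw [he] at h1
    have h2 := pr_le (K.map g) v
    change ‖e.symm (pr (K.map g) v)‖ ≤ _
    rw [inv_mul_eq_div, le_div_iff₀ hlo]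
    linarith)).2
  rw [← (h3 K Y).2.2.2.1] at b2
  have hc := cross_nonneg K Y
  have b3 : hi ^ 2 * (lo⁻¹ ^ 2 * cross K Y) = (hi / lo) ^ 2 * cross K Y := by
    rw [div_eq_mul_inv]; ring
  have b4 := mul_le_mul_of_nonneg_left b2 (sq_nonneg hi)
  have b5 : 0 ≤ (hi / lo) ^ 2 * cross K Y := by positivity
  linarith

lemma part3 (hBas : BasStmt) (K : Submodule ℂ (E ι)) (T : E ι →ₗ[ℂ] E ι) (hT : ∀ v, ‖T v‖ ≤ ‖v‖)
    (n : ℕ) : √(dfc K (T ^ n)) ≤ n * √(dfc K T) := by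
  obtain ⟨-, -, -, h4, -⟩ := hBas ι
  have hTn : ∀ (m : ℕ) v, ‖(T ^ m) v‖ ≤ ‖v‖ := by
    intro m
    induction m with
    | zero => intro v; simp
    | succ m ih => intro v; rw [pow_succ, Module.End.mul_apply]; exact (ih _).trans (hT v)
  induction n with
  | zero =>
    have : dfc K (T ^ 0) = 0 := by
      unfold dfc hs
      refine Finset.sum_eq_zero fun j _ => ?_
      simp only [LinearMap.comp_apply, pow_zero, Module.End.one_apply]
      rw [pr_orth_of_mem K (pr_mem K _)]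
      simp
    rw [this]; simp
  | succ n ih =>
    have hop : pr Kᗮ ∘ₗ (T ^ (n + 1)) ∘ₗ pr K =
        (pr Kᗮ ∘ₗ (T ^ n)) ∘ₗ (pr Kᗮ ∘ₗ T ∘ₗ pr K) + (pr Kᗮ ∘ₗ (T ^ n) ∘ₗ pr K) ∘ₗ (T ∘ₗ pr K) := by
      apply LinearMap.ext
      intro v
      simp only [LinearMap.comp_apply, LinearMap.add_apply]
      rw [← map_add, ← map_add, pr_add, pow_succ, Module.End.mul_apply]
    have b1 := ((h4 (pr Kᗮ ∘ₗ T ∘ₗ pr K)).2.1 (pr Kᗮ ∘ₗ (T ^ n)) 1
      (fun v => by rw [one_mul]; exact (pr_le _ _).trans (hTn n v))).1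
    have b2 := ((h4 (pr Kᗮ ∘ₗ (T ^ n) ∘ₗ pr K)).2.1 (T ∘ₗ pr K) 1
      (fun v => by rw [one_mul]; exact (hT _).trans (pr_le _ _))).2
    have b3 := (h4 ((pr Kᗮ ∘ₗ (T ^ n) ∘ₗ pr K) ∘ₗ (T ∘ₗ pr K))).2.2.1
      ((pr Kᗮ ∘ₗ (T ^ n)) ∘ₗ (pr Kᗮ ∘ₗ T ∘ₗ pr K))
    rw [one_pow, one_mul] at b1 b2
    have b4 := Real.sqrt_le_sqrt b1
    have b5 := Real.sqrt_le_sqrt b2
    unfold dfc at ih ⊢
    rw [hop]
    push_cast
    linarith

end COND

open COND in
theorem COND_proof (hBas : BasStmt) : CondStmt := by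
  intro ι _ _ K
  refine ⟨fun g lo hi hlo hg => ⟨part1 hBas K g lo hi hlo hg, fun ch hch => ?_⟩, fun T n hT => ?_⟩
  · rw [far_eq, far_eq, Finset.mul_sum]
    exact Finset.sum_le_sum fun c _ => part1 hBas K g lo hi hlo hg _ (hch c)
  · have h := part3 hBas K T hT n
    have h1 : 0 ≤ dfc K (T ^ n) := hs_nonneg _
    have h2 : 0 ≤ dfc K T := hs_nonneg _
    have h3 := pow_le_pow_left₀ (Real.sqrt_nonneg _) h 2
    rwa [mul_pow, Real.sq_sqrt h1, Real.sq_sqrt h2] at h3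

end Crest.Agent.R113
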