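import Crest.Agent.R113.DefsL

set_option autoImplicit false
set_option linter.unusedSectionVars false

namespace Crest.Agent.R113

open Finset Module

namespace CORE

variable {ι : Type} [Fintype ι] [DecidableEq ι]

theorem tele (y : ℕ → ℝ) {p q : ℕ} (h : p ≤ q) :
    ∑ i ∈ Ico p q, (y (i + 1) - y i) = y q - y p := by
  induction q, h using Nat.le_induction with
  | base => simp
  | succ q hq ih => rw [sum_Ico_succ_top hq, ih]; ring

theorem shift (x : ℕ → ℝ) (hx : ∀ i, 0 ≤ x i ∧ x i ≤ 1) {p q : ℕ} (h : p ≤ q) (n : ℕ) :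
    |∑ i ∈ Ico p q, x i - ∑ i ∈ Ico p q, x (i + n)| ≤ n := by
  induction n with
  | zero => simp
  | succ n ih =>
    have h1 := tele (fun i => x (i + n)) h
    simp only [sum_sub_distrib] at h1
    have h2 : ∑ i ∈ Ico p q, x (i + (n + 1)) = ∑ i ∈ Ico p q, x (i + 1 + n) :=
      sum_congr rfl fun i _ => by rw [add_assoc, add_comm 1 n]
    rw [h2]
    have := hx (q + n); have := hx (p + n)
    rw [abs_le] at ih ⊢
    push_cast
    constructor <;> linarith [ih.1, ih.2]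

theorem dj {σ : Equiv.Perm ι} {w : ℕ} {B : Finset ι} (hF : Far σ w B) :
    Dj (B.image (cell σ w)) := by
  intro c hc c' hc' hne
  obtain ⟨b, hb, rfl⟩ := mem_image.1 hc
  obtain ⟨b', hb', rfl⟩ := mem_image.1 hc'
  rw [disjoint_left]
  intro j hj hj'
  obtain ⟨i, hi, rfl⟩ := mem_image.1 hj
  obtain ⟨i', hi', e⟩ := mem_image.1 hj'
  rw [mem_range] at hi hi'
  exact hne (by rw [(hF b hb b' hb' i (by omega) i' hi' e.symm).1])

theorem cells {σ : Equiv.Perm ι} {w : ℕ} {B : Finset ι} (hF : Far σ w B) (φ : ι → ℝ) :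
    ∑ b ∈ B, ∑ i ∈ range w, φ ((σ ^ i) b) = ∑ j ∈ un (B.image (cell σ w)), φ j := by
  rw [← sum_product']
  have hinj : Set.InjOn (fun z : ι × ℕ => (σ ^ z.2) z.1) ↑(B ×ˢ range w) := by
    rintro ⟨b, i⟩ hz ⟨b', i'⟩ hz' e
    simp only [coe_product, Set.mem_prod, mem_coe, mem_range] at hz hz'
    obtain ⟨h1, h2⟩ := hF b hz.1 b' hz'.1 i (by omega) i' hz'.2 e
    simp [h1, h2]
  rw [← sum_image (f := φ) hinj]
  refine sum_congr ?_ fun _ _ => rfl
  ext j
  simp only [un, cell, mem_image, mem_product, mem_range, mem_biUnion, id, Prod.exists]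
  constructor
  · rintro ⟨b, i, ⟨hb, hi⟩, rfl⟩
    exact ⟨_, ⟨b, hb, rfl⟩, mem_image.2 ⟨i, mem_range.2 hi, rfl⟩⟩
  · rintro ⟨c, ⟨b, hb, rfl⟩, hj⟩
    obtain ⟨i, hi, rfl⟩ := mem_image.1 hj
    exact ⟨b, i, ⟨hb, mem_range.1 hi⟩, rfl⟩

theorem cells_le {σ : Equiv.Perm ι} {w : ℕ} {B : Finset ι} (hF : Far σ w B) (φ : ι → ℝ)
    (hφ : ∀ j, 0 ≤ φ j) {p q : ℕ} (hq : q ≤ w) :
    ∑ b ∈ B, ∑ i ∈ Ico p q, φ ((σ ^ i) b) ≤ ∑ j ∈ un (B.image (cell σ w)), φ j := by
  rw [← cells hF]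
  refine sum_le_sum fun b _ => sum_le_sum_of_subset_of_nonneg ?_ fun i _ _ => hφ _
  intro i hi
  rw [mem_Ico] at hi
  exact mem_range.2 (by omega)

theorem card_le {σ : Equiv.Perm ι} {w : ℕ} {B : Finset ι} (hF : Far σ w B) :
    (w : ℝ) * B.card ≤ Fintype.card ι := by
  have h := cells hF (fun _ => (1 : ℝ))
  simp only [sum_const, card_range, nsmul_eq_mul, mul_one] at h
  rw [mul_comm, h]
  exact_mod_cast card_le_univ _

theorem l1 (U : Finset ι) (x : ι → ℝ) (r : ℝ) (hr : 0 < r)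
    (h : ∑ j ∈ U, x j ^ 2 ≤ 602 * r ^ 2 * Fintype.card ι) :
    ∑ j ∈ U, |x j| ≤ 25 * r * Fintype.card ι := by
  have h1 : ∑ j ∈ U, 50 * r * |x j| ≤ ∑ j ∈ U, (x j ^ 2 + 625 * r ^ 2) :=
    sum_le_sum fun j _ => by nlinarith [sq_nonneg (|x j| - 25 * r), sq_abs (x j)]
  rw [← mul_sum, sum_add_distrib, sum_const, nsmul_eq_mul] at h1
  have h2 : (U.card : ℝ) ≤ Fintype.card ι := by exact_mod_cast card_le_univ _
  have h3 : (U.card : ℝ) * (625 * r ^ 2) ≤ Fintype.card ι * (625 * r ^ 2) := by gcongr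
  have h4 : (0 : ℝ) ≤ Fintype.card ι := Nat.cast_nonneg _
  have h5 : 50 * r * ∑ j ∈ U, |x j| ≤ 50 * r * (25 * r * Fintype.card ι) := by
    nlinarith [mul_nonneg (sq_nonneg r) h4]
  exact le_of_mul_le_mul_left h5 (by positivity)

theorem half {σ : Equiv.Perm ι} {w : ℕ} {B : Finset ι} (hF : Far σ w B) (u v : ι → ℝ)
    (hv : ∀ j, 0 ≤ v j ∧ v j ≤ 1) (t η D : ℝ) (w' : ℕ) (hw' : 0 < w') (hw : (w' : ℝ) ≤ η * w)
    (hη : 0 ≤ η) (hE : Erg σ v w' t η) (hD : ∑ j ∈ un (B.image (cell σ w)), |u j - v j| ≤ D)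
    {p q : ℕ} (hpq : p ≤ q) (hq : q ≤ w) :
    ∑ b ∈ B, |∑ i ∈ Ico p q, u ((σ ^ i) b) - t * ((q - p : ℕ) : ℝ)| ≤
      D + 2 * η * Fintype.card ι := by
  set A : ι → ℝ := fun j => (∑ n ∈ range w', v ((σ ^ n) j)) / w' with hA
  have hw0 : (0 : ℝ) < w' := by exact_mod_cast hw'
  have key : ∀ b, |∑ i ∈ Ico p q, u ((σ ^ i) b) - t * ((q - p : ℕ) : ℝ)| ≤
      ∑ i ∈ Ico p q, |u ((σ ^ i) b) - v ((σ ^ i) b)| + η * w +
        ∑ i ∈ Ico p q, |A ((σ ^ i) b) - t| := by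
    intro b
    have e1 := abs_sum_le_sum_abs (fun i => u ((σ ^ i) b) - v ((σ ^ i) b)) (Ico p q)
    have e2 := abs_sum_le_sum_abs (fun i => A ((σ ^ i) b) - t) (Ico p q)
    have e3 : |∑ i ∈ Ico p q, v ((σ ^ i) b) - ∑ i ∈ Ico p q, A ((σ ^ i) b)| ≤ η * w := by
      have s1 : ∑ i ∈ Ico p q, v ((σ ^ i) b) - ∑ i ∈ Ico p q, A ((σ ^ i) b) =
          (∑ n ∈ range w', (∑ i ∈ Ico p q, v ((σ ^ i) b) -
            ∑ i ∈ Ico p q, v ((σ ^ (i + n)) b))) / w' := by
        rw [sum_sub_distrib, sum_const, card_range, nsmul_eq_mul, sub_div, mul_div_cancel_left₀ _ hw0.ne',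
          sum_comm, sum_div]
        congr 1
        refine sum_congr rfl fun i _ => ?_
        simp only [hA]
        congr 1
        refine sum_congr rfl fun n _ => ?_
        rw [add_comm, pow_add, Equiv.Perm.mul_apply]
      rw [s1, abs_div, abs_of_pos hw0, div_le_iff₀ hw0]
      refine (abs_sum_le_sum_abs _ _).trans ?_
      have : ∀ n ∈ range w', |∑ i ∈ Ico p q, v ((σ ^ i) b) - ∑ i ∈ Ico p q, v ((σ ^ (i + n)) b)| ≤
          η * w := by
        intro n hn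
        refine (shift (fun i => v ((σ ^ i) b)) (fun i => hv _) hpq n).trans (le_trans ?_ hw)
        exact_mod_cast (mem_range.1 hn).le
      refine (sum_le_sum this).trans_eq ?_
      rw [sum_const, card_range, nsmul_eq_mul, mul_comm]
    simp only [sum_sub_distrib, sum_const, Nat.card_Ico, nsmul_eq_mul] at e1 e2
    rw [abs_le] at e1 e2 e3 ⊢
    constructor <;> linarith [e1.1, e1.2, e2.1, e2.2, e3.1, e3.2]
  refine (sum_le_sum fun b _ => key b).trans ?_
  rw [sum_add_distrib, sum_add_distrib, sum_const, nsmul_eq_mul]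
  have c1 := cells_le hF (fun j => |u j - v j|) (fun _ => abs_nonneg _) (p := p) hq
  have c2 := cells_le hF (fun j => |A j - t|) (fun _ => abs_nonneg _) (p := p) hq
  have c3 : ∑ j ∈ un (B.image (cell σ w)), |A j - t| ≤ ∑ j, |A j - t| :=
    sum_le_sum_of_subset_of_nonneg (subset_univ _) fun _ _ _ => abs_nonneg _
  have c4 := mul_le_mul_of_nonneg_left (card_le hF) hη
  have c5 : ∑ j, |A j - t| ≤ η * Fintype.card ι := hE
  nlinarith

theorem erg_compl {σ : Equiv.Perm ι} {ρ : ι → ℝ} {w' : ℕ} {s η : ℝ} (hw' : 0 < w')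
    (h : Erg σ ρ w' s η) : Erg σ (fun j => 1 - ρ j) w' (1 - s) η := by
  unfold Erg at h ⊢
  refine le_trans (le_of_eq (sum_congr rfl fun j _ => ?_)) h
  have hw0 : (w' : ℝ) ≠ 0 := by exact_mod_cast hw'.ne'
  rw [sum_sub_distrib, sum_const, card_range, nsmul_eq_mul, mul_one, sub_div, div_self hw0,
    ← abs_neg]
  congr 1
  ring

end CORE

open CORE in
theorem CORE_proof (hBas : BasStmt) (hGrd : GrdStmt) (hDia : DiaStmt) (hCa : CaStmt)
    (hCb : CbStmt) : CoreStmt := by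
  intro ι _ _ _ e K εB η δ s w' hδ hη hη4 hB hOk hKp hs0 hs1 hw' hw hE
  have hρ : ∀ (K : Submodule ℂ (E ι)) (j : ι), 0 ≤ rho K j ∧ rho K j ≤ 1 := fun K j =>
    ⟨((hBas ι).1 K j).1, ((hBas ι).1 K j).2.1⟩
  obtain ⟨hc1, hc2⟩ := hCa ι e K εB η δ hδ hOk hKp
  have hF := hOk.far
  obtain ⟨hκ, -, -, hκη, -⟩ := hOk.kap
  obtain ⟨hN, hw3, hηw⟩ := hOk.cnt
  have hN0 : (0 : ℝ) < Fintype.card ι := by exact_mod_cast Fintype.card_pos
  obtain ⟨G, G', F, F', hCl⟩ := hGrd ι e.C (K.map e.g₀) e.κ (10 * η * Fintype.card ι) (dj hF)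
    (by linarith) hc1
  rw [show 20 * (10 * η * (Fintype.card ι : ℝ)) = 200 * η * Fintype.card ι by ring] at hCl
  obtain ⟨hd1, hd2⟩ := hDia ι e.C _ G G' F F' _ _ (by positivity) (by positivity) hCl
  have hcb := hCb ι e K G G' F F' εB η δ hδ hη4 hB hOk hKp hCl
  set r := √η with hr
  have hr0 : 0 < r := Real.sqrt_pos.2 hη
  have hr2 : r ^ 2 = η := Real.sq_sqrt hη.le
  have hr1 : r ≤ 1 / 2 := by nlinarith
  have hb : 3 * (200 * η * (Fintype.card ι : ℝ)) + 2 * (2 / e.κ) ^ 2 * Fintype.card ι ≤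
      602 * r ^ 2 * Fintype.card ι := by
    rw [hr2]; nlinarith [mul_le_mul_of_nonneg_right hκη hN0.le]
  have l1a := l1 _ _ r hr0 (hd1.trans hb)
  have l1b := l1 _ _ r hr0 (hd2.trans hb)
  have hc3 : ∑ j ∈ un e.C, |rho (K.map e.g₀) j - rho K j| ≤ 4 * η * Fintype.card ι :=
    le_trans (sum_le_sum_of_subset_of_nonneg (subset_univ _) fun _ _ _ => abs_nonneg _) hc2
  have da : ∑ j ∈ un e.C, |rho G j - rho K j| ≤ 25 * r * Fintype.card ι + 4 * η * Fintype.card ι := by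
    refine le_trans (sum_le_sum fun j _ => ?_) (le_trans (le_of_eq sum_add_distrib)
      (add_le_add l1a hc3))
    have := abs_sub_le (rho G j) (rho (K.map e.g₀) j) (rho K j)
    rwa [abs_sub_comm (rho G j) (rho (K.map e.g₀) j)] at this
  have db : ∑ j ∈ un e.C, |rho G' j - (1 - rho K j)| ≤
      25 * r * Fintype.card ι + 4 * η * Fintype.card ι := by
    refine le_trans (sum_le_sum fun j _ => ?_) (le_trans (le_of_eq sum_add_distrib)
      (add_le_add l1b hc3))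
    rw [show rho G' j - (1 - rho K j) = -((1 - rho (K.map e.g₀) j - rho G' j) +
      (rho (K.map e.g₀) j - rho K j)) by ring, abs_neg]
    exact abs_add_le _ _
  have hh : e.w / 2 ≤ e.w := Nat.div_le_self _ _
  have ha := half hF (rho G) (rho K) (hρ K) s η _ w' hw' hw hη.le hE da (Nat.zero_le (e.w / 2)) hh
  have hb' := half hF (rho G') (fun j => 1 - rho K j)
    (fun j => ⟨by linarith [(hρ K j).2], by linarith [(hρ K j).1]⟩) (1 - s) η _ w' hw' hw hη.le
    (erg_compl hw' hE) db hh le_rfl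
  rw [← range_eq_Ico, Nat.sub_zero] at ha
  set h : ℝ := ((e.w / 2 : ℕ) : ℝ) with hh'
  set k : ℝ := ((e.w - e.w / 2 : ℕ) : ℝ) with hk'
  have hW : (3 : ℝ) ≤ e.w := by exact_mod_cast hw3
  have hhw : h ≤ e.w := by rw [hh']; exact_mod_cast hh
  have hh0 : 0 ≤ h := Nat.cast_nonneg _
  have hkw : k ≤ e.w := by rw [hk']; exact_mod_cast Nat.sub_le _ _
  have hhk : (e.w : ℝ) ^ 2 ≤ 5 * (h * k) := by
    rw [hh', hk']
    have : e.w ^ 2 ≤ 5 * ((e.w / 2) * (e.w - e.w / 2)) := by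
      obtain ⟨m, hm | hm⟩ := Nat.even_or_odd' e.w
      · rw [hm, show 2 * m / 2 = m by omega, show 2 * m - m = m by omega]; nlinarith
      · have : 1 ≤ m := by omega
        rw [hm, show (2 * m + 1) / 2 = m by omega, show 2 * m + 1 - m = m + 1 by omega]; nlinarith
    exact_mod_cast this
  have key : ∀ b ∈ e.B, s * (1 - s) * (h * k) ≤
      ((∑ i ∈ range (e.w / 2), rho G ((e.σ ^ i) b)) *
        (∑ i ∈ Ico (e.w / 2) e.w, rho G' ((e.σ ^ i) b)) - 1) + 1 +
        e.w * |∑ i ∈ range (e.w / 2), rho G ((e.σ ^ i) b) - s * h| +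
        e.w * |∑ i ∈ Ico (e.w / 2) e.w, rho G' ((e.σ ^ i) b) - (1 - s) * k| := by
    intro b _
    set α := ∑ i ∈ range (e.w / 2), rho G ((e.σ ^ i) b)
    set β := ∑ i ∈ Ico (e.w / 2) e.w, rho G' ((e.σ ^ i) b) with hβ
    have b0 : 0 ≤ β := sum_nonneg fun i _ => (hρ _ _).1
    have b1 : β ≤ e.w := by
      refine le_trans (sum_le_sum fun i _ => (hρ G' _).2) ?_
      simpa using hkw
    have a0 : 0 ≤ s * h := mul_nonneg hs0 hh0
    have a1 : s * h ≤ e.w := by nlinarith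
    have t1 : (s * h - α) * β ≤ e.w * |α - s * h| := by
      have := neg_abs_le (α - s * h)
      have := abs_nonneg (α - s * h)
      nlinarith
    have t2 : s * h * ((1 - s) * k - β) ≤ e.w * |β - (1 - s) * k| := by
      have := neg_abs_le (β - (1 - s) * k)
      have := abs_nonneg (β - (1 - s) * k)
      nlinarith
    nlinarith
  have tot := sum_le_sum key
  rw [sum_const, nsmul_eq_mul, sum_add_distrib, sum_add_distrib, sum_add_distrib, ← mul_sum,
    ← mul_sum, sum_const, nsmul_eq_mul, mul_one] at tot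
  have hcard := card_le hF
  set N : ℝ := (Fintype.card ι : ℝ) with hNdef
  set b : ℝ := (e.B.card : ℝ) with hbdef
  set W : ℝ := (e.w : ℝ) with hWdef
  have hb0 : 0 ≤ b := Nat.cast_nonneg _
  have hss : 0 ≤ s * (1 - s) := mul_nonneg hs0 (by linarith)
  have hηr : η ≤ r / 2 := by nlinarith
  have m1 := mul_le_mul_of_nonneg_left ha (by linarith : (0 : ℝ) ≤ W)
  have m2 := mul_le_mul_of_nonneg_left hb' (by linarith : (0 : ℝ) ≤ W)
  have m3 : b ≤ W * η * N := by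
    have : b ≤ η * N := by nlinarith [mul_le_mul_of_nonneg_left hcard hη.le]
    nlinarith [mul_pos hη hN0]
  have m4 : b * (s * (1 - s) * (h * k)) ≤ W * N * (259 * r) := by
    have : W * N * η ≤ W * N * (r / 2) := by gcongr
    nlinarith
  have m5 : W * N ≤ 50 * (b * (h * k)) := by
    have h1 : W * N ≤ W * (10 * W * b) := by gcongr
    nlinarith [mul_le_mul_of_nonneg_left hhk hb0]
  have m6 : W * N * (s * (1 - s)) ≤ W * N * (30000 * r) := by
    nlinarith [mul_le_mul_of_nonneg_right m5 hss, mul_pos (mul_pos (by linarith : 0 < W) hN0) hr0]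
  exact le_of_mul_le_mul_left m6 (by positivity)

end Crest.Agent.R113
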