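import Crest.Agent.R113.DefsL

set_option autoImplicit false

namespace Crest.Agent.R113

open Finset Module

namespace CRS

variable {ι : Type} [Fintype ι] [DecidableEq ι]

lemma cut_compl (Z : Finset ι) (v : E ι) : cut Zᶜ v = v - cut Z v := by
  ext i; by_cases h : i ∈ Z <;> simp [h]

lemma inner_cut (Z : Finset ι) (u : E ι) :
    (inner ℂ u (cut Z u)).re = ‖u‖ ^ 2 - ‖cut Zᶜ u‖ ^ 2 := by
  rw [EuclideanSpace.norm_sq_eq, EuclideanSpace.norm_sq_eq, PiLp.inner_apply, Complex.re_sum,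
    ← Finset.sum_sub_distrib]
  refine Finset.sum_congr rfl fun i _ => ?_
  by_cases h : i ∈ Z
  · simp [h, Complex.mul_conj, Complex.normSq_eq_norm_sq]
    norm_cast
  · simp [h]

end CRS

open CRS in
theorem CRS_proof (hBas : BasStmt) : CrsStmt := by
  intro ι _ _ K K₁ g Z lo hi ε hlo hBd hCm hε hK hv
  obtain ⟨-, -, h3, h4, -⟩ := hBas ι
  set x : ℝ := (hi / lo * ε) ^ 2 with hx
  have hx0 : 0 ≤ x := sq_nonneg _
  have hinj : Function.Injective g := by
    rw [← LinearMap.ker_eq_bot, LinearMap.ker_eq_bot']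
    intro v h0
    have := (hBd v).1
    rw [h0, norm_zero] at this
    have h2 : ‖v‖ ≤ 0 := by
      by_contra hc
      push Not at hc
      have := mul_pos hlo hc
      linarith
    exact norm_le_zero_iff.mp h2
  have hfr : finrank ℂ (K₁.map g) = finrank ℂ K₁ :=
    (Submodule.equivMapOfInjective g hinj K₁).finrank_eq.symm
  have key : ∀ u ∈ K₁.map g, (1 - 2 * x) * ‖u‖ ^ 2 ≤
      ‖(pr (K.map g) ∘ₗ cut Z ∘ₗ pr (K.map g)) u‖ ^ 2 := by
    rintro u ⟨v, hv1, rfl⟩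
    have hu : g v ∈ K.map g := ⟨v, hK hv1, rfl⟩
    have hq : pr (K.map g) (g v) = g v := by
      rw [pr_apply]; exact Submodule.starProjection_eq_self_iff.mpr hu
    have hc : cut Zᶜ (g v) = g (cut Zᶜ v) := by
      rw [cut_compl, cut_compl, map_sub, hCm v]
    have h1 : ‖cut Zᶜ (g v)‖ ≤ |hi| / lo * ε * ‖g v‖ := by
      rw [hc]
      have a1 := (hBd (cut Zᶜ v)).2
      have a2 := hv v hv1
      have a3 := (hBd v).1
      have a4 : ‖v‖ ≤ ‖g v‖ / lo := by rw [le_div_iff₀ hlo]; linarith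
      calc ‖g (cut Zᶜ v)‖ ≤ hi * ‖cut Zᶜ v‖ := a1
        _ ≤ |hi| * ‖cut Zᶜ v‖ := mul_le_mul_of_nonneg_right (le_abs_self _) (norm_nonneg _)
        _ ≤ |hi| * (ε * (‖g v‖ / lo)) := by
          refine mul_le_mul_of_nonneg_left (a2.trans ?_) (abs_nonneg _)
          exact mul_le_mul_of_nonneg_left a4 hε
        _ = |hi| / lo * ε * ‖g v‖ := by ring
    have h2 : ‖cut Zᶜ (g v)‖ ^ 2 ≤ x * ‖g v‖ ^ 2 := by
      have : ‖cut Zᶜ (g v)‖ ^ 2 ≤ (|hi| / lo * ε * ‖g v‖) ^ 2 :=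
        pow_le_pow_left₀ (norm_nonneg _) h1 2
      calc _ ≤ _ := this
        _ = x * ‖g v‖ ^ 2 := by
          rw [hx, mul_pow, mul_pow, mul_pow, div_pow, div_pow, sq_abs]
    have h5 : (1 - x) * ‖g v‖ ^ 2 ≤
        ‖(pr (K.map g) ∘ₗ cut Z ∘ₗ pr (K.map g)) (g v)‖ * ‖g v‖ := by
      have e1 : inner ℂ (g v) ((pr (K.map g) ∘ₗ cut Z ∘ₗ pr (K.map g)) (g v)) =
          inner ℂ (g v) (cut Z (g v)) := by
        simp only [LinearMap.comp_apply, hq]
        rw [pr_apply, ← Submodule.inner_starProjection_left_eq_right]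
        rw [← pr_apply, hq]
      have e2 := inner_cut Z (g v)
      have e3 : (inner ℂ (g v) ((pr (K.map g) ∘ₗ cut Z ∘ₗ pr (K.map g)) (g v))).re ≤
          ‖g v‖ * ‖(pr (K.map g) ∘ₗ cut Z ∘ₗ pr (K.map g)) (g v)‖ :=
        (Complex.re_le_norm _).trans (norm_inner_le_norm _ _)
      rw [e1, e2] at e3
      nlinarith
    set A := ‖(pr (K.map g) ∘ₗ cut Z ∘ₗ pr (K.map g)) (g v)‖ with hA
    have hA0 : 0 ≤ A := norm_nonneg _
    set n := ‖g v‖ with hn
    have hn0 : 0 ≤ n := norm_nonneg _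
    by_cases hx1 : x ≤ 1 / 2
    · rcases hn0.eq_or_lt with h0 | h0
      · rw [← h0]; simp; positivity
      · have : (1 - x) * n ≤ A := by
          have : (1 - x) * n * n ≤ A * n := by nlinarith
          exact le_of_mul_le_mul_right this h0
        have h6 : 0 ≤ (1 - x) * n := mul_nonneg (by linarith) hn0
        have h7 : ((1 - x) * n) ^ 2 ≤ A ^ 2 := pow_le_pow_left₀ h6 this 2
        nlinarith [sq_nonneg (x * n)]
    · push Not at hx1
      have : (1 - 2 * x) * n ^ 2 ≤ 0 := mul_nonpos_of_nonpos_of_nonneg (by linarith) (sq_nonneg _)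
      nlinarith [sq_nonneg A]
  have h6 := (h4 (pr (K.map g) ∘ₗ cut Z ∘ₗ pr (K.map g))).2.2.2 (K₁.map g) (1 - 2 * x) key
  rw [hfr] at h6
  have h7 := (h3 (K.map g) Z).2.2.2.2.1
  have h8 : (finrank ℂ K₁ : ℝ) ≤ Fintype.card ι := by
    have := Submodule.finrank_le K₁
    rw [finrank_euclideanSpace] at this
    exact_mod_cast this
  have h9 : x * (finrank ℂ K₁ : ℝ) ≤ x * Fintype.card ι := mul_le_mul_of_nonneg_left h8 hx0
  rw [h7]
  nlinarith

end Crest.Agent.R113
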