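import Crest.Agent.R113.DefsR

set_option autoImplicit false

namespace Crest.Agent.R113

open Finset

namespace DFP

lemma step (g : ℤ → HH) (hg : ∀ b, ‖g b‖ ≤ 1) (N : ℕ) (s : ℤ) :
    ‖∑ b ∈ range N, g (b + (s + 1)) - ∑ b ∈ range N, g (b + s)‖ ≤ 2 := by
  have h : ∑ b ∈ range N, g (b + (s + 1)) - ∑ b ∈ range N, g (b + s) = g (N + s) - g s := by
    rw [← Finset.sum_sub_distrib]
    have := Finset.sum_range_sub (fun b : ℕ => g (b + s)) N
    simp only [Nat.cast_zero, zero_add] at this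
    rw [← this]
    refine Finset.sum_congr rfl fun b _ => ?_
    congr 2
    push_cast; ring
  rw [h]
  have := norm_sub_le (g (N + s)) (g s)
  linarith [hg (N + s), hg s]

lemma shift (g : ℤ → HH) (hg : ∀ b, ‖g b‖ ≤ 1) (N : ℕ) (s : ℤ) :
    ‖∑ b ∈ range N, g (b + s) - ∑ b ∈ range N, g b‖ ≤ 2 * |(s : ℝ)| := by
  induction s using Int.induction_on with
  | zero => simp
  | succ n ih =>
    have h1 := step g hg N n
    have h2 := norm_sub_le_norm_sub_add_norm_sub (∑ b ∈ range N, g (b + ((n : ℤ) + 1)))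
      (∑ b ∈ range N, g (b + (n : ℤ))) (∑ b ∈ range N, g b)
    have h3 : |(((n : ℤ) + 1 : ℤ) : ℝ)| = |(((n : ℤ) : ℤ) : ℝ)| + 1 := by
      push_cast
      rw [abs_of_nonneg (by positivity), abs_of_nonneg (by positivity)]
    rw [h3]; linarith
  | pred n ih =>
    have h1 := step g hg N (-(n : ℤ) - 1)
    rw [sub_add_cancel, norm_sub_rev] at h1
    have h2 := norm_sub_le_norm_sub_add_norm_sub (∑ b ∈ range N, g (b + (-(n : ℤ) - 1)))
      (∑ b ∈ range N, g (b + -(n : ℤ))) (∑ b ∈ range N, g b)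
    have h3 : |((-(n : ℤ) - 1 : ℤ) : ℝ)| = |((-(n : ℤ) : ℤ) : ℝ)| + 1 := by
      push_cast
      have : (0 : ℝ) ≤ n := Nat.cast_nonneg _
      rw [abs_of_nonpos (by linarith), abs_of_nonpos (by linarith)]; ring
    rw [h3]; linarith

lemma ee_add (x y : ℝ) : ee (x + y) = ee x * ee y := by
  unfold ee; rw [← Complex.exp_add]; congr 1; push_cast; ring

lemma norm_ee (x : ℝ) : ‖ee x‖ = 1 := by
  unfold ee
  have : 2 * (Real.pi : ℂ) * Complex.I * x = ((2 * Real.pi * x : ℝ) : ℂ) * Complex.I := by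
    push_cast; ring
  rw [this, Complex.norm_exp_ofReal_mul_I]

lemma norm_dl (y : ℤ × ℤ) : ‖dl y‖ = 1 := by
  unfold dl
  rw [lp.norm_single (by norm_num)]; simp

end DFP

open DFP in
theorem DFP_proof : DfpStmt := by
  intro θ S c p' hP
  refine ⟨(∑ y ∈ S, ‖c y‖ * (2 * |(y.2 : ℝ)|)) ^ 2, fun N' hN a k => ?_⟩
  set g : ℤ × ℤ → ℤ → HH := fun y b => ee (-(k * b / N')) • dl (a + y.1, b) with hg
  have hg1 : ∀ y b, ‖g y b‖ ≤ 1 := by
    intro y b
    simp only [hg, norm_smul, norm_ee, norm_dl]; norm_num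
  have key : p' (ep N' a k) - ∑ y ∈ S, (c y * ee (y.2 * (k / N' + θ * a))) • ep N' (a + y.1) k =
      ((√N' : ℝ) : ℂ)⁻¹ • ∑ y ∈ S, (c y * ee (y.2 * (k / N' + θ * a))) •
        (∑ b ∈ range N', g y (b + y.2) - ∑ b ∈ range N', g y b) := by
    unfold ep
    rw [map_smul, map_sum]
    simp only [map_smul, hP a]
    simp only [smul_sub, Finset.sum_sub_distrib]
    congr 1
    · congr 1
      simp only [Finset.smul_sum]
      rw [Finset.sum_comm]
      refine Finset.sum_congr rfl fun y _ => Finset.sum_congr rfl fun b _ => ?_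
      simp only [hg, smul_smul]
      congr 1
      rw [mul_assoc (c y), ← ee_add, mul_left_comm, ← ee_add]
      congr 2
      push_cast; ring
    · rw [Finset.smul_sum]
      refine Finset.sum_congr rfl fun y _ => ?_
      rw [smul_comm]
      simp only [hg, Int.cast_natCast]
  rw [key, norm_smul, norm_inv, Complex.norm_real, Real.norm_of_nonneg (Real.sqrt_nonneg _), mul_pow,
    inv_pow, Real.sq_sqrt (Nat.cast_nonneg _), ← div_eq_inv_mul]
  refine div_le_div_of_nonneg_right ?_ (Nat.cast_nonneg _)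
  refine pow_le_pow_left₀ (norm_nonneg _) ?_ 2
  refine (norm_sum_le _ _).trans (Finset.sum_le_sum fun y _ => ?_)
  rw [norm_smul, norm_mul, norm_ee, mul_one]
  exact mul_le_mul_of_nonneg_left (shift (g y) (hg1 y) N' y.2) (norm_nonneg _)

end Crest.Agent.R113
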