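import Crest.Agent.R113.DefsR

set_option autoImplicit false

namespace Crest.Agent.R113

open Finset Crest.AnalysisR.RotationRep

namespace DFT

lemma ee_add (x y : ℝ) : ee (x + y) = ee x * ee y := by
  unfold ee
  rw [← Complex.exp_add]
  congr 1
  push_cast
  ring

lemma ee_zero : ee 0 = 1 := by simp [ee]

lemma norm_ee (x : ℝ) : ‖ee x‖ = 1 := by
  unfold ee
  have : 2 * (Real.pi : ℂ) * Complex.I * x = ((2 * Real.pi * x : ℝ) : ℂ) * Complex.I := by
    push_cast; ring
  rw [this, Complex.norm_exp_ofReal_mul_I]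

lemma conj_ee (x : ℝ) : (starRingEnd ℂ) (ee x) = ee (-x) := by
  unfold ee
  rw [← Complex.exp_conj]
  congr 1
  simp [map_ofNat]

lemma ee_int (m : ℤ) : ee m = 1 := by
  unfold ee
  rw [← Complex.exp_int_mul_two_pi_mul_I m]
  congr 1
  push_cast
  ring

lemma ee_nat_mul (x : ℝ) (b : ℕ) : ee (x * b) = ee x ^ b := by
  induction b with
  | zero => simp [ee_zero]
  | succ n ih => rw [Nat.cast_succ, mul_add, mul_one, ee_add, ih, pow_succ]

lemma ee_eq_one {x : ℝ} (h : ee x = 1) : ∃ n : ℤ, x = n := by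
  unfold ee at h
  obtain ⟨n, hn⟩ := Complex.exp_eq_one_iff.1 h
  refine ⟨n, ?_⟩
  have h2 : (2 * (Real.pi : ℂ) * Complex.I) ≠ 0 := Complex.two_pi_I_ne_zero
  have h3 : (x : ℂ) = n := by
    apply mul_left_cancel₀ h2
    rw [hn]; ring
  exact_mod_cast h3

lemma orth {N : ℕ} {k k' : ℕ} (hk : k < N) (hk' : k' < N) :
    ∑ b ∈ range N, ee (k * b / N) * ee (-(k' * b / N)) = if k = k' then (N : ℂ) else 0 := by
  have hN : (0 : ℝ) < N := by exact_mod_cast (by omega : 0 < N)
  have h1 : ∀ b : ℕ, ee (k * b / N) * ee (-(k' * b / N)) = ee (((k : ℝ) - k') / N) ^ b := by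
    intro b
    rw [← ee_add, ← ee_nat_mul]
    congr 1
    ring
  simp_rw [h1]
  split_ifs with h
  · subst h
    simp [ee_zero]
  · have hz : ee (((k : ℝ) - k') / N) ≠ 1 := by
      intro hz
      obtain ⟨n, hn⟩ := ee_eq_one hz
      rw [div_eq_iff hN.ne'] at hn
      have hn' : (k : ℤ) - k' = n * N := by exact_mod_cast hn
      rcases lt_trichotomy n 0 with a | a | a
      · have : n * N ≤ -1 * N := mul_le_mul_of_nonneg_right (by omega) (by omega)
        omega
      · subst a
        omega
      · have : 1 * (N : ℤ) ≤ n * N := mul_le_mul_of_nonneg_right (by omega) (by omega)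
        omega
    rw [geom_sum_eq hz, ← ee_nat_mul, div_mul_cancel₀ _ hN.ne']
    have : ee ((k : ℝ) - k') = 1 := by
      have := ee_int ((k : ℤ) - k')
      simpa using this
    rw [this, sub_self, zero_div]

lemma inner_form (N k k' : ℕ) (x y : ℕ → HH) :
    inner ℂ (((√N : ℝ) : ℂ)⁻¹ • ∑ b ∈ range N, ee (-(k * b / N)) • x b)
      (((√N : ℝ) : ℂ)⁻¹ • ∑ b ∈ range N, ee (-(k' * b / N)) • y b) =
      (N : ℂ)⁻¹ * ∑ b ∈ range N, ∑ b' ∈ range N,
        ee (k * b / N) * ee (-(k' * b' / N)) * inner ℂ (x b) (y b') := by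
  rw [inner_smul_left, inner_smul_right, sum_inner, ← mul_assoc]
  congr 1
  · rw [map_inv₀, Complex.conj_ofReal, ← mul_inv, ← Complex.ofReal_mul,
      Real.mul_self_sqrt (Nat.cast_nonneg N)]
    simp
  · refine Finset.sum_congr rfl fun b _ => ?_
    rw [inner_sum]
    refine Finset.sum_congr rfl fun b' _ => ?_
    rw [inner_smul_left, inner_smul_right, conj_ee, neg_neg, mul_assoc]

lemma inner_dl (y y' : ℤ × ℤ) : inner ℂ (dl y) (dl y') = if y = y' then (1 : ℂ) else 0 := by
  unfold dl
  rw [lp.inner_single_left, lp.single_apply]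
  by_cases h : y = y'
  · subst h; simp
  · simp [h]

lemma norm_dl (y : ℤ × ℤ) : ‖dl y‖ = 1 := by
  unfold dl
  rw [lp.norm_single (by norm_num)]
  simp

end DFT

open DFT in
theorem DFT_proof : DftStmt := by
  intro N hN
  have hN' : (N : ℂ) ≠ 0 := by exact_mod_cast hN.ne'
  have hNr : (0 : ℝ) < N := by exact_mod_cast hN
  refine ⟨?_, ?_, ?_⟩
  · intro a a' k hk k' hk'
    unfold ep
    rw [inner_form N k k' (fun b => dl (a, b)) (fun b => dl (a', b))]
    simp_rw [inner_dl]
    by_cases ha : a = a'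
    · subst ha
      have : ∀ b ∈ range N, ∑ b' ∈ range N, ee (k * b / N) * ee (-(k' * b' / N)) *
          (if ((a, (b : ℤ)) : ℤ × ℤ) = (a, (b' : ℤ)) then (1 : ℂ) else 0) =
          ee (k * b / N) * ee (-(k' * b / N)) := by
        intro b hb
        rw [Finset.sum_eq_single b]
        · simp
        · intro b' _ hne
          have : ¬ ((a, (b : ℤ)) : ℤ × ℤ) = (a, (b' : ℤ)) := by
            simp only [Prod.mk.injEq, true_and, Nat.cast_inj]
            exact fun h => hne h.symm
          rw [if_neg this, mul_zero]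
        · intro h; exact absurd hb h
      rw [Finset.sum_congr rfl this, orth hk hk']
      by_cases h : k = k'
      · simp [h, hN']
      · simp [h]
    · simp [ha]
  · intro e a
    have h1 : ∀ k : ℕ, ((‖e (ep N a k)‖ ^ 2 : ℝ) : ℂ) = (N : ℂ)⁻¹ * ∑ b ∈ range N, ∑ b' ∈ range N,
        ee (k * b / N) * ee (-(k * b' / N)) * inner ℂ (e (dl (a, b))) (e (dl (a, b'))) := by
      intro k
      rw [← inner_form N k k (fun b => e (dl (a, b))) (fun b => e (dl (a, b)))]
      have : e (ep N a k) = ((√N : ℝ) : ℂ)⁻¹ • ∑ b ∈ range N, ee (-(k * b / N)) • e (dl (a, b)) := by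
        unfold ep
        rw [map_smul, map_sum]
        simp_rw [map_smul]
      rw [← this, inner_self_eq_norm_sq_to_K]
      simp
    apply Complex.ofReal_injective
    rw [Complex.ofReal_sum, Complex.ofReal_sum]
    simp_rw [h1]
    rw [← Finset.mul_sum, Finset.sum_comm, Finset.mul_sum]
    refine Finset.sum_congr rfl fun b hb => ?_
    rw [Finset.sum_comm]
    have h2 : ∀ b' ∈ range N, ∑ k ∈ range N, ee (k * b / N) * ee (-(k * b' / N)) *
        inner ℂ (e (dl (a, b))) (e (dl (a, b'))) =
        (if b = b' then (N : ℂ) else 0) * inner ℂ (e (dl (a, b))) (e (dl (a, b'))) := by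
      intro b' hb'
      rw [← Finset.sum_mul, ← orth (Finset.mem_range.1 hb) (Finset.mem_range.1 hb')]
      congr 1
      refine Finset.sum_congr rfl fun k _ => ?_
      rw [mul_comm (k : ℝ), mul_comm (k : ℝ)]
    rw [Finset.sum_congr rfl h2, Finset.sum_eq_single b]
    · rw [if_pos rfl, ← mul_assoc, inv_mul_cancel₀ hN', one_mul, inner_self_eq_norm_sq_to_K]
      simp
    · intro b' _ hne
      rw [if_neg (fun h => hne h.symm), zero_mul]
    · intro h; exact absurd hb h
  · intro θ U V hUV a k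
    have hU : ∀ a b : ℤ, U (dl (a, b)) = dl (a + 1, b) := hUV.1
    have hV : ∀ a b : ℤ, V (dl (a, b)) = ee (θ * a) • dl (a, b + 1) := by
      intro a b
      have := hUV.2 a b
      unfold dl ee
      rw [this]
      congr 2
      push_cast
      ring
    constructor
    · unfold ep
      rw [map_smul, map_sum]
      simp_rw [map_smul, hU]
    · let g : ℕ → HH := fun b => ee (θ * a - k * ((b : ℝ) - 1) / N) • dl (a, b)
      have hg : ∀ b, ‖g b‖ = 1 := by
        intro b
        simp only [g]
        rw [norm_smul, norm_ee, norm_dl, one_mul]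
      have h1 : V (ep N a k) - ee (k / N + θ * a) • ep N a k =
          ((√N : ℝ) : ℂ)⁻¹ • (g N - g 0) := by
        rw [← Finset.sum_range_sub g N]
        unfold ep
        rw [map_smul, map_sum, smul_comm (ee _), ← smul_sub, Finset.smul_sum,
          ← Finset.sum_sub_distrib]
        congr 1
        refine Finset.sum_congr rfl fun b _ => ?_
        simp only [g]
        rw [map_smul, hV, smul_smul, smul_smul, ← ee_add, ← ee_add]
        push_cast
        congr 3
        · ring
        · ring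
      rw [h1, norm_smul, mul_pow]
      have h2 : ‖g N - g 0‖ ≤ 2 := by
        have := norm_sub_le (g N) (g 0)
        rw [hg, hg] at this
        linarith
      have h3 : ‖((√N : ℝ) : ℂ)⁻¹‖ ^ 2 = 1 / N := by
        rw [norm_inv, Complex.norm_real, Real.norm_eq_abs, inv_pow, sq_abs,
          Real.sq_sqrt hNr.le, one_div]
      rw [h3]
      have h4 : ‖g N - g 0‖ ^ 2 ≤ 4 := by nlinarith [norm_nonneg (g N - g 0)]
      calc 1 / (N : ℝ) * ‖g N - g 0‖ ^ 2 ≤ 1 / N * 4 := by gcongr
        _ = 4 / N := by ring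

end Crest.Agent.R113
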