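import Crest.Agent.R113.DefsL

set_option autoImplicit false
set_option linter.unusedSectionVars false

namespace Crest.Agent.R113

open Finset Module

namespace DIA

variable {ι : Type} [Fintype ι] [DecidableEq ι]

lemma adj_pr (K : Submodule ℂ (E ι)) : LinearMap.adjoint (pr K) = pr K := by
  symm
  rw [LinearMap.eq_adjoint_iff]
  intro x y
  simp only [pr_apply]
  exact K.inner_starProjection_left_eq_right x y

lemma inner_cut (Y : Finset ι) (x y : E ι) : inner ℂ (cut Y x) y = inner ℂ x (cut Y y) := by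
  simp only [PiLp.inner_apply, cut_apply]
  refine Finset.sum_congr rfl fun i _ => ?_
  by_cases h : i ∈ Y <;> simp [h]

lemma pyth (K : Submodule ℂ (E ι)) (x : E ι) : ‖x‖ ^ 2 = ‖pr K x‖ ^ 2 + ‖pr Kᗮ x‖ ^ 2 := by
  simp only [pr_apply]
  exact K.norm_sq_eq_add_norm_sq_starProjection x

lemma pr_orth (K : Submodule ℂ (E ι)) (x : E ι) : pr Kᗮ x = x - pr K x := by
  simp only [pr_apply]
  exact K.starProjection_orthogonal_val x

lemma pr_mem (K : Submodule ℂ (E ι)) (x : E ι) : pr K x ∈ K := by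
  simp only [pr_apply]
  exact K.starProjection_apply_mem x

lemma pr_of_mem (K : Submodule ℂ (E ι)) {x : E ι} (h : x ∈ K) : pr K x = x := by
  simp only [pr_apply]
  exact Submodule.starProjection_eq_self_iff.2 h

lemma pr_of_orth (K : Submodule ℂ (E ι)) {x : E ι} (h : x ∈ Kᗮ) : pr K x = 0 := by
  simp only [pr_apply]
  exact (K.starProjection_apply_eq_zero_iff).2 h

lemma pr_cut (U : Finset ι) (G : Submodule ℂ (E ι)) (hG : ∀ v ∈ G, cut U v = v) (x : E ι) :
    pr G (cut U x) = pr G x := by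
  have h : x - cut U x ∈ Gᗮ := by
    rw [Submodule.mem_orthogonal]
    intro u hu
    rw [inner_sub_right, ← inner_cut, hG u hu, sub_self]
  have h2 := pr_of_orth G h
  rw [map_sub] at h2
  exact (sub_eq_zero.1 h2).symm

lemma two (G G' : Submodule ℂ (E ι)) (h : G ≤ G'ᗮ) (y : E ι) :
    ‖pr G y‖ ^ 2 + ‖pr G' y‖ ^ 2 ≤ ‖y‖ ^ 2 := by
  have h1 := pyth G' y
  have h2 := pyth G (pr G'ᗮ y)
  have h3 : pr G (pr G'ᗮ y) = pr G y := by
    rw [pr_orth, map_sub]
    have : pr G (pr G' y) = 0 := by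
      apply pr_of_orth
      have h' : G' ≤ Gᗮ := Submodule.IsOrtho.symm h
      exact h' (pr_mem G' y)
    rw [this, sub_zero]
  rw [h3] at h2
  nlinarith [sq_nonneg ‖pr Gᗮ (pr G'ᗮ y)‖]

lemma hs_comm (hBas : BasStmt) (K G : Submodule ℂ (E ι)) :
    hs (pr K ∘ₗ pr G) = hs (pr G ∘ₗ pr K) := by
  have h := ((hBas ι).2.2.2.1 (pr G ∘ₗ pr K)).1
  rw [LinearMap.adjoint_comp, adj_pr, adj_pr] at h
  exact h

lemma hs_split (hBas : BasStmt) (K G : Submodule ℂ (E ι)) :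
    hs (pr K ∘ₗ pr G) + hs (pr Kᗮ ∘ₗ pr G) = finrank ℂ G := by
  rw [← (hBas ι).2.1 G, hs, hs, ← Finset.sum_add_distrib]
  refine Finset.sum_congr rfl fun j _ => ?_
  simp only [LinearMap.comp_apply, rho]
  exact (pyth K _).symm

lemma low (hBas : BasStmt) (K G F : Submodule ℂ (E ι)) (γ ε : ℝ) (hε : 0 ≤ ε) (hF : F ≤ K)
    (hd : (finrank ℂ G : ℝ) - γ ≤ finrank ℂ F) (ha : ∀ v ∈ F, ‖v - pr G v‖ ≤ ε * ‖v‖) :
    (finrank ℂ G : ℝ) - γ - ε ^ 2 * Fintype.card ι ≤ hs (pr G ∘ₗ pr K) := by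
  have h := ((hBas ι).2.2.2.1 (pr G ∘ₗ pr K)).2.2.2 F (1 - ε ^ 2) (by
    intro v hv
    simp only [LinearMap.comp_apply]
    rw [pr_of_mem K (hF hv)]
    have h1 := pyth G v
    rw [pr_orth] at h1
    have h2 := ha v hv
    have h3 : ‖v - pr G v‖ ^ 2 ≤ (ε * ‖v‖) ^ 2 := pow_le_pow_left₀ (norm_nonneg _) h2 2
    nlinarith)
  have h4 : (finrank ℂ F : ℝ) ≤ Fintype.card ι := by
    have := Submodule.finrank_le F
    rw [finrank_euclideanSpace] at this
    exact_mod_cast this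
  nlinarith [sq_nonneg ε]

lemma aux (hBas : BasStmt) (U : Finset ι) (K G G' F F' : Submodule ℂ (E ι)) (γ ε : ℝ)
    (hε : 0 ≤ ε) (hG : ∀ v ∈ G, cut U v = v) (hG' : ∀ v ∈ G', cut U v = v) (hGG : G ≤ G'ᗮ)
    (hc : (U.card : ℝ) - γ ≤ finrank ℂ G + finrank ℂ G') (hF : F ≤ K) (hF' : F' ≤ Kᗮ)
    (hd : (finrank ℂ G : ℝ) - γ ≤ finrank ℂ F) (hd' : (finrank ℂ G' : ℝ) - γ ≤ finrank ℂ F')
    (ha : ∀ v ∈ F, ‖v - pr G v‖ ≤ ε * ‖v‖) (ha' : ∀ v ∈ F', ‖v - pr G' v‖ ≤ ε * ‖v‖) :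
    ∑ j ∈ U, (rho K j - rho G j) ^ 2 ≤ 3 * γ + 2 * ε ^ 2 * Fintype.card ι := by
  have l1 := low hBas K G F γ ε hε hF hd ha
  have l2 := low hBas Kᗮ G' F' γ ε hε hF' hd' ha'
  have s1 := hs_split hBas K G
  have c1 := hs_comm hBas K G
  have c2 := hs_comm hBas Kᗮ G
  -- the mass of `Kᗮ`
  have m1 : hs (pr G ∘ₗ pr Kᗮ) + hs (pr G' ∘ₗ pr Kᗮ) ≤ mass Kᗮ U := by
    rw [((hBas ι).2.2.1 Kᗮ U).2.1, hs, hs, hs, ← Finset.sum_add_distrib]
    refine Finset.sum_le_sum fun j _ => ?_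
    simp only [LinearMap.comp_apply]
    have := two G G' hGG (cut U (pr Kᗮ (ev j)))
    rwa [pr_cut U G hG, pr_cut U G' hG'] at this
  have m2 : mass K U + mass Kᗮ U = U.card := by
    rw [mass, mass, ← Finset.sum_add_distrib]
    rw [Finset.sum_congr rfl (g := fun _ => (1 : ℝ))]
    · simp
    · intro j _
      rw [((hBas ι).1 K j).2.2.2.2.1]; ring
  -- pointwise
  have p1 : ∀ j, (rho K j - rho G j) ^ 2 ≤
      rho K j - ‖pr K (pr G (ev j))‖ ^ 2 * 2 + rho G j +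
        (‖pr K (pr G (ev j))‖ ^ 2 * 2 - 2 * (inner ℂ (pr K (ev j)) (pr G (ev j))).re) := by
    intro j
    have e1 : (pr K (ev j) - pr G (ev j)) j = ((rho K j - rho G j : ℝ) : ℂ) := by
      rw [PiLp.sub_apply, ((hBas ι).1 K j).2.2.2.2.2.1, ((hBas ι).1 G j).2.2.2.2.2.1]
      push_cast; ring
    have e2 : ‖(pr K (ev j) - pr G (ev j)) j‖ ≤ ‖pr K (ev j) - pr G (ev j)‖ :=
      PiLp.norm_apply_le _ j
    rw [e1, Complex.norm_real, Real.norm_eq_abs] at e2
    have e3 : (rho K j - rho G j) ^ 2 ≤ ‖pr K (ev j) - pr G (ev j)‖ ^ 2 := by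
      rw [← sq_abs]; exact pow_le_pow_left₀ (abs_nonneg _) e2 2
    rw [@norm_sub_sq ℂ] at e3
    simp only [rho] at e3 ⊢
    simp only [RCLike.re_to_complex] at e3
    linarith
  have tr1 : ∑ j, (inner ℂ (pr K (ev j)) (pr G (ev j))).re = hs (pr K ∘ₗ pr G) := by
    have b := EuclideanSpace.basisFun ι ℂ
    have hb : ∀ j, (EuclideanSpace.basisFun ι ℂ) j = ev j := fun j => by
      simp [ev]
    have t1 := LinearMap.trace_eq_sum_inner (pr K ∘ₗ pr G) (EuclideanSpace.basisFun ι ℂ)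
    have t2 := LinearMap.trace_eq_sum_inner (pr G ∘ₗ (pr K ∘ₗ pr G)) (EuclideanSpace.basisFun ι ℂ)
    have t3 : LinearMap.trace ℂ _ (pr G ∘ₗ (pr K ∘ₗ pr G)) = LinearMap.trace ℂ _ (pr K ∘ₗ pr G) := by
      rw [LinearMap.trace_comp_comm']
      congr 1
      ext1 x
      simp only [LinearMap.comp_apply]
      rw [pr_of_mem G (pr_mem G x)]
    rw [t3, t1] at t2
    have t4 := congrArg Complex.re t2
    rw [Complex.re_sum, Complex.re_sum] at t4
    simp only [hb, LinearMap.comp_apply] at t4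
    rw [hs]
    calc ∑ j, (inner ℂ (pr K (ev j)) (pr G (ev j))).re
        = ∑ j, (inner ℂ (ev j) (pr K (pr G (ev j)))).re := by
          refine Finset.sum_congr rfl fun j _ => ?_
          simp only [pr_apply]
          rw [K.inner_starProjection_left_eq_right]
      _ = ∑ j, (inner ℂ (ev j) (pr G (pr K (pr G (ev j))))).re := t4
      _ = _ := by
          refine Finset.sum_congr rfl fun j _ => ?_
          simp only [LinearMap.comp_apply]
          have h1 : inner ℂ (ev j) (pr G (pr K (pr G (ev j)))) =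
              inner ℂ (pr K (pr G (ev j))) (pr K (pr G (ev j))) := by
            conv_lhs => rw [← pr_of_mem K (pr_mem K (pr G (ev j)))]
            simp only [pr_apply]
            rw [← G.inner_starProjection_left_eq_right, ← K.inner_starProjection_left_eq_right]
          rw [h1, inner_self_eq_norm_sq_to_K]
          norm_cast
  have z1 : ∀ j ∉ U, pr G (ev j) = 0 := by
    intro j hj
    rw [← pr_cut U G hG]
    have : cut U (ev j : E ι) = 0 := by
      ext i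
      by_cases h : i ∈ U
      · have : i ≠ j := fun h' => hj (h' ▸ h)
        simp [h, ev, this]
      · simp [h]
    rw [this, map_zero]
  have tr2 : ∑ j ∈ U, (inner ℂ (pr K (ev j)) (pr G (ev j))).re = hs (pr K ∘ₗ pr G) := by
    rw [← tr1]
    refine Finset.sum_subset (Finset.subset_univ _) fun j _ hj => ?_
    rw [z1 j hj]; simp
  have m3 : mass G U ≤ finrank ℂ G := by
    rw [← (hBas ι).2.1 G, mass]
    exact Finset.sum_le_sum_of_subset_of_nonneg (Finset.subset_univ _)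
      fun j _ _ => ((hBas ι).1 G j).1
  have fin : ∑ j ∈ U, (rho K j - rho G j) ^ 2 ≤ mass K U + mass G U - 2 * hs (pr K ∘ₗ pr G) := by
    rw [← tr2, mass, mass, Finset.mul_sum, ← Finset.sum_add_distrib, ← Finset.sum_sub_distrib]
    refine Finset.sum_le_sum fun j _ => ?_
    have := p1 j
    linarith
  linarith

end DIA

theorem DIA_proof (hBas : BasStmt) : DiaStmt := by
  intro ι _ _ C K G G' F F' γ ε _ hε h
  obtain ⟨hG, hG', hGG, hc, hF, hF', hd, hd', ha, ha'⟩ := h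
  refine ⟨DIA.aux hBas _ K G G' F F' γ ε hε hG.2 hG'.2 hGG hc hF hF' hd hd' ha ha', ?_⟩
  have h := DIA.aux hBas (un C) Kᗮ G' G F' F γ ε hε hG'.2 hG.2 (Submodule.IsOrtho.symm hGG)
    (by linarith) hF' (hF.trans K.le_orthogonal_orthogonal) hd' hd ha' ha
  refine le_trans (le_of_eq ?_) h
  refine Finset.sum_congr rfl fun j _ => ?_
  rw [((hBas ι).1 K j).2.2.2.2.1]

end Crest.Agent.R113
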