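import Crest.Agent.R113.DefsL

set_option autoImplicit false

namespace Crest.Agent.R113

open Finset Module

namespace DIM

variable {ι : Type} [Fintype ι] [DecidableEq ι] {σ : Equiv.Perm ι} {w : ℕ} {B : Finset ι}

omit [Fintype ι] [DecidableEq ι] in
lemma far_inj (h : Far σ w B) {b b' : ι} (hb : b ∈ B) (hb' : b' ∈ B) {i i' : ℕ} (hi : i < w)
    (hi' : i' < w) (e : (σ ^ i) b = (σ ^ i') b') : b = b' ∧ i = i' :=
  h b hb b' hb' i (by omega) i' hi' e

omit [Fintype ι] in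
lemma sum_cell {M : Type} [AddCommMonoid M] (h : Far σ w B) {b : ι} (hb : b ∈ B) (φ : ι → M) :
    ∑ j ∈ cell σ w b, φ j = ∑ i : Fin w, φ ((σ ^ i.val) b) := by
  rw [cell, sum_image, Finset.sum_range (fun i => φ ((σ ^ i) b))]
  intro i hi i' hi' e
  exact (far_inj h hb hb (mem_range.1 hi) (mem_range.1 hi') e).2

omit [Fintype ι] in
lemma mem_un {j : ι} : j ∈ un (B.image (cell σ w)) ↔ ∃ b ∈ B, ∃ i < w, (σ ^ i) b = j := by
  simp [un, cell]

lemma inner_res (h : Far σ w B) {b : ι} (hb : b ∈ B) (x g : E ι) :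
    inner ℂ (res σ w b x) (res σ w b g) = inner ℂ x (cut (cell σ w b) g) := by
  rw [PiLp.inner_apply, PiLp.inner_apply]
  simp only [res_apply, cut_apply]
  rw [← sum_cell h hb (fun j => inner ℂ (x j) (g j))]
  rw [← Finset.sum_filter_add_sum_filter_not univ (fun j => j ∈ cell σ w b)]
  rw [Finset.sum_eq_zero (s := univ.filter (fun j => ¬ j ∈ cell σ w b))
    (fun j hj => by simp [(mem_filter.1 hj).2]), add_zero]
  rw [Finset.filter_mem_eq_inter, univ_inter]
  exact Finset.sum_congr rfl fun j hj => by simp [hj]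

lemma res_pr (h : Far σ w B) {G : Submodule ℂ (E ι)} (hG : Gr (B.image (cell σ w)) G) {b : ι}
    (hb : b ∈ B) (v : E ι) :
    pr (G.map (res σ w b)) (res σ w b v) = res σ w b (pr G v) := by
  rw [pr_apply]
  apply Submodule.eq_starProjection_of_mem_of_inner_eq_zero
  · exact Submodule.mem_map_of_mem (G.starProjection_apply_mem v)
  · rintro _ ⟨g, hg, rfl⟩
    rw [← map_sub, inner_res h hb]
    exact Submodule.inner_left_of_mem_orthogonal (hG.1 _ (mem_image_of_mem _ hb) g hg)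
      (G.sub_starProjection_mem_orthogonal v)

omit [Fintype ι] in
lemma res_ev (h : Far σ w B) {b : ι} (hb : b ∈ B) (i : Fin w) :
    res σ w b (ev ((σ ^ i.val) b)) = ev i := by
  ext k
  simp only [res_apply, ev, PiLp.single_apply]
  by_cases hk : k = i
  · subst hk; simp
  · have : (σ ^ k.val) b ≠ (σ ^ i.val) b := fun e =>
      hk (Fin.ext (far_inj h hb hb k.2 i.2 e).2)
    simp [hk, this]

lemma norm_sq_cells (h : Far σ w B) (u : E ι) (hu : cut (un (B.image (cell σ w))) u = u) :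
    ‖u‖ ^ 2 = ∑ b ∈ B, ‖res σ w b u‖ ^ 2 := by
  have h1 : ∀ b ∈ B, ‖res σ w b u‖ ^ 2 = ∑ j ∈ cell σ w b, ‖u j‖ ^ 2 := by
    intro b hb
    rw [EuclideanSpace.norm_sq_eq, sum_cell h hb (fun j => ‖u j‖ ^ 2)]
    rfl
  rw [Finset.sum_congr rfl h1, ← Finset.sum_biUnion, EuclideanSpace.norm_sq_eq]
  · symm
    apply Finset.sum_subset (subset_univ _)
    intro j _ hj
    have h2 : j ∉ un (B.image (cell σ w)) := by
      rw [mem_un]
      rintro ⟨b, hb, i, hi, rfl⟩
      exact hj (mem_biUnion.2 ⟨b, hb, mem_image.2 ⟨i, mem_range.2 hi, rfl⟩⟩)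
    have h3 : u j = 0 := by rw [← hu, cut_apply, if_neg h2]
    simp [h3]
  · intro b hb b' hb' hne
    rw [Function.onFun, Finset.disjoint_left]
    intro j hj hj'
    obtain ⟨i, hi, rfl⟩ := mem_image.1 hj
    obtain ⟨i', hi', e⟩ := mem_image.1 hj'
    exact hne (far_inj h hb hb' (mem_range.1 hi) (mem_range.1 hi') e.symm).1

lemma res_wp (h : Far σ w B) {b : ι} (hb : b ∈ B) (f a : ι → ℝ) {n : ℕ} (hn : n < w)
    (ha : ∀ i, i + n < w → a ((σ ^ i) b) = wt σ f n ((σ ^ i) b)) (u : E ι)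
    (hu : cut (un (B.image (cell σ w))) u = u) :
    res σ w b (wp (σ ^ n) a u) = ts (fun i => f ((σ ^ i) b)) n (res σ w b u) := by
  ext k
  rw [res_apply, wp_apply, ts_apply]
  split_ifs with hk
  · have e : (σ ^ n)⁻¹ ((σ ^ k.val) b) = (σ ^ (k.val - n)) b := by
      rw [Equiv.Perm.inv_eq_iff_eq, ← Equiv.Perm.mul_apply, ← pow_add]
      congr 2; omega
    rw [e, res_apply, ha _ (by have := k.2; omega), wt]
    congr 2
    refine Finset.prod_congr rfl fun i _ => ?_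
    rw [← Equiv.Perm.mul_apply, ← pow_add, add_comm]
  · have h2 : (σ ^ n)⁻¹ ((σ ^ k.val) b) ∉ un (B.image (cell σ w)) := by
      rw [mem_un]
      rintro ⟨b', hb', i, hi, e⟩
      rw [Equiv.Perm.eq_inv_iff_eq, ← Equiv.Perm.mul_apply, ← pow_add] at e
      have := (h b' hb' b hb (n + i) (by omega) k.val k.2 e).2
      omega
    have h3 : u ((σ ^ n)⁻¹ ((σ ^ k.val) b)) = 0 := by rw [← hu, cut_apply, if_neg h2]
    rw [h3, mul_zero]

/-- gluing vectors on the cells -/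
noncomputable def glue (σ : Equiv.Perm ι) (w : ℕ) (B : Finset ι) (Y : ι → Submodule ℂ (E (Fin w))) :
    (∀ b : B, Y b) →ₗ[ℂ] E ι where
  toFun y := WithLp.toLp 2 (fun j => ∑ b : B, ∑ i : Fin w,
    if (σ ^ i.val) b = j then (y b : E (Fin w)) i else 0)
  map_add' y z := by
    ext j
    simp only [PiLp.add_apply, ← Finset.sum_add_distrib]
    refine Finset.sum_congr rfl fun b _ => Finset.sum_congr rfl fun i _ => ?_
    split_ifs <;> simp
  map_smul' c y := by
    ext j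
    simp only [PiLp.smul_apply, RingHom.id_apply, smul_eq_mul, Finset.mul_sum]
    refine Finset.sum_congr rfl fun b _ => Finset.sum_congr rfl fun i _ => ?_
    split_ifs <;> simp

omit [Fintype ι] in
lemma glue_apply (Y : ι → Submodule ℂ (E (Fin w))) (y : ∀ b : B, Y b) (j : ι) :
    glue σ w B Y y j = ∑ b : B, ∑ i : Fin w,
      if (σ ^ i.val) b = j then (y b : E (Fin w)) i else 0 := rfl

lemma res_glue (h : Far σ w B) (Y : ι → Submodule ℂ (E (Fin w))) (y : ∀ b : B, Y b) (b : B) :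
    res σ w b (glue σ w B Y y) = y b := by
  ext k
  rw [res_apply, glue_apply, Finset.sum_eq_single b, Finset.sum_eq_single k]
  · simp
  · intro i _ hi
    rw [if_neg]
    exact fun e => hi (Fin.ext (far_inj h b.2 b.2 i.2 k.2 e).2)
  · simp
  · intro b' _ hb'
    refine Finset.sum_eq_zero fun i _ => ?_
    rw [if_neg]
    exact fun e => hb' (Subtype.ext (far_inj h b'.2 b.2 i.2 k.2 e).1)
  · simp

lemma cut_glue (Y : ι → Submodule ℂ (E (Fin w))) (y : ∀ b : B, Y b) :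
    cut (un (B.image (cell σ w))) (glue σ w B Y y) = glue σ w B Y y := by
  ext j
  rw [cut_apply]
  split_ifs with hj
  · rfl
  · rw [glue_apply]
    symm
    refine Finset.sum_eq_zero fun b _ => Finset.sum_eq_zero fun i _ => ?_
    rw [if_neg]
    exact fun e => hj (mem_un.2 ⟨b, b.2, i, i.2, e⟩)

omit [DecidableEq ι] in
lemma pr_mem (G : Submodule ℂ (E ι)) (v : E ι) : pr G v ∈ G := G.starProjection_apply_mem v

omit [DecidableEq ι] in
lemma pr_le (G : Submodule ℂ (E ι)) (v : E ι) : ‖pr G v‖ ≤ ‖v‖ := G.norm_starProjection_apply_le v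

omit [DecidableEq ι] in
/-- the image of `F` in `G` -/
lemma exists_sub (G F : Submodule ℂ (E ι)) (hF : ∀ v ∈ F, ‖v‖ ≤ 2 * ‖pr G v‖) :
    ∃ N : Submodule ℂ G, finrank ℂ (G ⧸ N) + finrank ℂ F = finrank ℂ G ∧
      ∀ g ∈ N, ∃ x ∈ F, pr G x = g := by
  let A : F →ₗ[ℂ] G := ((pr G).codRestrict G (pr_mem G)).comp F.subtype
  have hA : Function.Injective A := by
    rw [injective_iff_map_eq_zero]
    intro x hx
    have h1 : pr G x = 0 := congrArg Subtype.val hx
    have h2 := hF x x.2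
    rw [h1, norm_zero, mul_zero] at h2
    exact Subtype.ext (norm_le_zero_iff.1 h2)
  refine ⟨LinearMap.range A, ?_, ?_⟩
  · rw [← LinearMap.finrank_range_of_inj hA]
    exact Submodule.finrank_quotient_add_finrank _
  · rintro _ ⟨x, rfl⟩
    exact ⟨x, x.2, rfl⟩

end DIM

open DIM in
theorem DIM_proof (hBas : BasStmt) : DimStmt := by
  intro ι _ _ σ w B h
  refine ⟨fun G hG b hb i => ?_, ?_⟩
  · have h1 := ((hBas (Fin w)).1 (G.map (res σ w b)) i).2.2.2.2.2.1
    have h2 := ((hBas ι).1 G ((σ ^ i.val) b)).2.2.2.2.2.1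
    rw [← res_ev h hb i, res_pr h hG hb, res_apply, h2] at h1
    exact Complex.ofReal_injective h1.symm
  intro f a n G G' F F' γ ε' εB Y hn hG hG' hF hF' hF2 hF2' ha hin hε hεB hY
  obtain ⟨N, hN, hN2⟩ := exists_sub G F hF2
  obtain ⟨N', hN', hN2'⟩ := exists_sub G' F' hF2'
  let Φ := glue σ w B Y
  let Bop : E ι →ₗ[ℂ] E ι := pr G' ∘ₗ wp (σ ^ n) a ∘ₗ pr G
  have hBop : ∀ v, Bop v = pr G' (wp (σ ^ n) a (pr G v)) := fun v => rfl
  have hlow : ∀ y, εB * ‖Φ y‖ ≤ ‖Bop (Φ y)‖ := by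
    intro y
    have hpos : 0 ≤ εB := by linarith
    refine le_of_sq_le_sq ?_ (norm_nonneg _)
    rw [mul_pow, norm_sq_cells h _ (cut_glue Y y),
      norm_sq_cells h (Bop (Φ y)) (hG'.2 _ (pr_mem _ _)), Finset.mul_sum]
    refine Finset.sum_le_sum fun b hb => ?_
    rw [← mul_pow, hBop, ← res_pr h hG' hb, res_wp h hb f a hn (ha b hb) _ (hG.2 _ (pr_mem _ _)),
      ← res_pr h hG hb]
    have e : res σ w b (Φ y) = y ⟨b, hb⟩ := res_glue h Y y ⟨b, hb⟩
    rw [e]
    exact pow_le_pow_left₀ (by positivity) (hY b hb _ (y ⟨b, hb⟩).2) 2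
  let Ψ : (∀ b : B, Y b) →ₗ[ℂ] (G ⧸ N) × (G' ⧸ N') :=
    LinearMap.prod (N.mkQ ∘ₗ (pr G).codRestrict G (pr_mem G) ∘ₗ Φ)
      (N'.mkQ ∘ₗ (pr G').codRestrict G' (pr_mem G') ∘ₗ wp (σ ^ n) a ∘ₗ pr G ∘ₗ Φ)
  have hΨ : Function.Injective Ψ := by
    rw [injective_iff_map_eq_zero]
    intro y hy
    have h1 := congrArg Prod.fst hy
    have h2 := congrArg Prod.snd hy
    obtain ⟨x, hx, ex⟩ := hN2 _ ((Submodule.Quotient.mk_eq_zero N).1 h1)
    obtain ⟨u, hu, eu⟩ := hN2' _ ((Submodule.Quotient.mk_eq_zero N').1 h2)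
    replace ex : pr G x = pr G (Φ y) := ex
    replace eu : pr G' u = Bop (Φ y) := eu
    have h3 := hin x hx u hu
    have h4 : inner ℂ (pr G' u) (wp (σ ^ n) a (pr G x)) = inner ℂ (Bop (Φ y)) (Bop (Φ y)) := by
      rw [ex, eu, hBop]
      set z := wp (σ ^ n) a (pr G (Φ y))
      have : inner ℂ (pr G' z) (z - pr G' z) = 0 :=
        Submodule.inner_right_of_mem_orthogonal (pr_mem G' z) (G'.sub_starProjection_mem_orthogonal z)
      rw [inner_sub_right, sub_eq_zero] at this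
      exact this
    rw [h4, inner_self_eq_norm_sq_to_K] at h3
    have h5 : ‖Bop (Φ y)‖ ^ 2 ≤ ε' * (‖x‖ * ‖u‖) := by simpa using h3
    have h6 : ‖x‖ ≤ 2 * ‖Φ y‖ := by
      have := hF2 x hx
      rw [ex] at this
      have := pr_le G (Φ y)
      linarith
    have h7 : ‖u‖ ≤ 2 * ‖Bop (Φ y)‖ := by
      have := hF2' u hu
      rwa [eu] at this
    have h8 : ‖Bop (Φ y)‖ ^ 2 ≤ 4 * ε' * ‖Φ y‖ * ‖Bop (Φ y)‖ := by
      have : ‖x‖ * ‖u‖ ≤ (2 * ‖Φ y‖) * (2 * ‖Bop (Φ y)‖) :=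
        mul_le_mul h6 h7 (norm_nonneg _) (by positivity)
      nlinarith
    have h9 : ‖Bop (Φ y)‖ ≤ 4 * ε' * ‖Φ y‖ := by
      by_contra hc
      push Not at hc
      have hp : 0 < ‖Bop (Φ y)‖ := lt_of_le_of_lt (by positivity) hc
      nlinarith
    have h10 : ‖Φ y‖ = 0 := by
      have := hlow y
      have h0 := norm_nonneg (Φ y)
      nlinarith
    rw [norm_eq_zero] at h10
    funext b
    have e : res σ w b (Φ y) = y b := res_glue h Y y b
    rw [h10, map_zero] at e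
    exact Subtype.ext e.symm
  have hdim := LinearMap.finrank_le_finrank_of_injective hΨ
  rw [Module.finrank_pi_fintype, Module.finrank_prod,
    Finset.sum_coe_sort B (fun b => finrank ℂ (Y b))] at hdim
  have h1 : ((∑ b ∈ B, finrank ℂ (Y b) : ℕ) : ℝ) ≤ finrank ℂ (G ⧸ N) + finrank ℂ (G' ⧸ N') := by
    exact_mod_cast hdim
  have h2 : (finrank ℂ (G ⧸ N) : ℝ) + finrank ℂ F = finrank ℂ G := by exact_mod_cast hN
  have h3 : (finrank ℂ (G' ⧸ N') : ℝ) + finrank ℂ F' = finrank ℂ G' := by exact_mod_cast hN'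
  push_cast at h1
  linarith

end Crest.Agent.R113
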