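import Crest.Agent.R113.DefsR

/-! Row 113, task DLT. -/

set_option autoImplicit false

namespace Crest.Agent.R113

open Finset Crest.AnalysisR.RotationRep

namespace DLT

lemma dist_le {ι : Type} [Fintype ι] {ε : ι → HH} (hε : Orthonormal ℂ ε) (P : ι → Prop)
    [DecidablePred P] (v w : HH) (hw : w ∈ Submodule.span ℂ (ε '' {k | P k})) :
    ‖v‖ ^ 2 - ∑ k, (if P k then ‖inner ℂ (ε k) v‖ ^ 2 else 0) ≤ ‖v - w‖ ^ 2 := by
  classical
  obtain ⟨q, hq⟩ : ∃ q : HH, q = ∑ k ∈ univ.filter P, inner ℂ (ε k) v • ε k := ⟨_, rfl⟩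
  have hqm : q ∈ Submodule.span ℂ (ε '' {k | P k}) := by
    rw [hq]
    exact Submodule.sum_mem _ fun k hk => Submodule.smul_mem _ _
      (Submodule.subset_span ⟨k, (mem_filter.mp hk).2, rfl⟩)
  have h0 : ∀ x ∈ Submodule.span ℂ (ε '' {k | P k}), inner ℂ x (v - q) = 0 := by
    intro x hx
    induction hx using Submodule.span_induction with
    | mem x hx =>
      obtain ⟨k, hk, rfl⟩ := hx
      rw [inner_sub_right, hq, hε.inner_right_sum _ (s := univ.filter P) (mem_filter.mpr ⟨mem_univ _, hk⟩),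
        sub_self]
    | zero => simp
    | add x y _ _ hx hy => rw [inner_add_left, hx, hy, add_zero]
    | smul a x _ hx => rw [inner_smul_left, hx, mul_zero]
  have h1 := norm_add_sq_eq_norm_sq_add_norm_sq_of_inner_eq_zero _ _ (h0 q hqm)
  have h2 := norm_add_sq_eq_norm_sq_add_norm_sq_of_inner_eq_zero _ _
    (h0 (q - w) (Submodule.sub_mem _ hqm hw))
  have h3 : ‖q‖ ^ 2 = ∑ k ∈ univ.filter P, ‖inner ℂ (ε k) v‖ ^ 2 := by
    have := hε.inner_sum (fun k => inner ℂ (ε k) v) (fun k => inner ℂ (ε k) v) (univ.filter P)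
    rw [← hq, inner_self_eq_norm_sq_to_K] at this
    simp only [Complex.conj_mul'] at this
    apply Complex.ofReal_injective
    push_cast
    exact this
  rw [show q + (v - q) = v by abel] at h1
  rw [show q - w + (v - q) = v - w by abel] at h2
  rw [← sum_filter, ← h3]
  nlinarith [mul_self_nonneg ‖q - w‖]

/-- positions too close to the ends of a chunk -/
def bad (d D N n : ℕ) : Prop := n % D < d ∨ D ≤ n % D + d ∨ N ≤ n + d

instance (d D N n : ℕ) : Decidable (bad d D N n) := by unfold bad; infer_instance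

lemma card_bad (d D N : ℕ) (hD : 0 < D) (hN : D ≤ N) :
    ((range N).filter (bad d D N)).card * D ≤ 5 * d * N := by
  have h1 : (range N).filter (bad d D N) ⊆
      ((range (N / D + 1) ×ˢ (range d ∪ Ico (D - d) D)).image fun x => D * x.1 + x.2) ∪
        Ico (N - d) N := by
    intro n hn
    obtain ⟨h1, h2⟩ := mem_filter.mp hn
    rw [mem_range] at h1
    have h3 := Nat.mod_lt n hD
    have h4 : n / D ≤ N / D := Nat.div_le_div_right h1.le
    rw [mem_union, mem_image]
    by_cases h5 : N ≤ n + d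
    · exact Or.inr (mem_Ico.mpr ⟨by omega, h1⟩)
    · refine Or.inl ⟨(n / D, n % D), ?_, Nat.div_add_mod n D⟩
      simp only [mem_product, mem_range, mem_union, mem_Ico]
      unfold bad at h2
      omega
  have h2 := (card_le_card h1).trans (card_union_le _ _)
  have h3 := card_image_le (s := range (N / D + 1) ×ˢ (range d ∪ Ico (D - d) D))
    (f := fun x => D * x.1 + x.2)
  have h4 := card_union_le (range d) (Ico (D - d) D)
  rw [card_product, card_range] at h3
  rw [card_range, Nat.card_Ico] at h4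
  rw [Nat.card_Ico] at h2
  have h5 : (N / D + 1) * (range d ∪ Ico (D - d) D).card ≤ (N / D + 1) * (2 * d) :=
    Nat.mul_le_mul_left _ (by omega)
  have h6 : ((range N).filter (bad d D N)).card ≤ (N / D + 1) * (2 * d) + d := by omega
  have h7 := Nat.div_mul_le_self N D
  calc _ ≤ ((N / D + 1) * (2 * d) + d) * D := Nat.mul_le_mul_right _ h6
    _ = 2 * d * (N / D * D) + 3 * d * D := by ring
    _ ≤ 2 * d * N + 3 * d * N := by gcongr
    _ = 5 * d * N := by ring

lemma good {d D N n : ℕ} (hD : 0 < D) (h : ¬ bad d D N n) {y : ℤ} (hy : y.natAbs ≤ d) :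
    ∃ m : ℕ, m < N ∧ (m : ℤ) = n + y ∧ m / D = n / D := by
  unfold bad at h
  have h1 := Nat.div_add_mod n D
  refine ⟨(n + y).toNat, by omega, by omega, ?_⟩
  rw [Nat.div_eq_iff hD, mul_comm]
  omega

end DLT

open DLT in
theorem DLT_proof (hComm : CommStmt) (hPoly : PolyStmt) (hDft : DftStmt) (hDfp : DfpStmt) :
    DltStmt := by
  intro θ U V hUV p hp hpr η hη
  obtain ⟨S, c, p', hPol, he, hen⟩ := hPoly θ U V hUV p hp (√(η / 6)) (by positivity)
  obtain ⟨C, hC⟩ := hDfp θ S c p' hPol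
  obtain ⟨d, hd⟩ : ∃ d : ℕ, ∀ y ∈ S, y.1.natAbs ≤ d :=
    ⟨S.sup fun y => y.1.natAbs, fun y hy => le_sup (f := fun y : ℤ × ℤ => y.1.natAbs) hy⟩
  refine ⟨⌈15 * d / η⌉₊ + 1, fun D hD N hN => ⟨⌈6 * |C| / η⌉₊ + 1, fun N' hN' => ?_⟩⟩
  have D0 : 0 < D := by omega
  have N0 : 0 < N' := by omega
  have D0' : (0 : ℝ) < D := by exact_mod_cast D0
  have N0' : (0 : ℝ) < N' := by exact_mod_cast N0
  have hD' : 15 * d ≤ η * D := by
    have h1 : (⌈15 * d / η⌉₊ : ℝ) ≤ D := by exact_mod_cast (by omega : ⌈15 * d / η⌉₊ ≤ D)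
    have h2 := (Nat.le_ceil (15 * d / η)).trans h1
    rwa [div_le_iff₀' hη] at h2
  have hN'' : 6 * |C| ≤ η * N' := by
    have h1 : (⌈6 * |C| / η⌉₊ : ℝ) ≤ N' := by exact_mod_cast (by omega : ⌈6 * |C| / η⌉₊ ≤ N')
    have h2 := (Nat.le_ceil (6 * |C| / η)).trans h1
    rwa [div_le_iff₀' hη] at h2
  obtain ⟨f1, f2, -⟩ := hDft N' N0
  have hon : Orthonormal ℂ (epx : Ix N' N → HH) := by
    rw [orthonormal_iff_ite]
    intro i j
    rw [epx, epx, f1 _ _ _ i.1.2 _ j.1.2]
    refine if_congr ?_ rfl rfl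
    rw [Prod.ext_iff, Fin.ext_iff, Fin.ext_iff, Nat.cast_inj, and_comm]
  have term : ∀ j : Ix N' N, ‖p (epx j)‖ ^ 2 -
      ∑ k : Ix N' N, (if chk D k = chk D j then ‖inner ℂ (epx k) (p (epx j))‖ ^ 2 else 0) ≤
      (if bad d D N j.2 then 1 else 0) + 2 * ‖(p - p') (epx j)‖ ^ 2 + η / 3 := by
    intro j
    split_ifs with hb
    · have h1 := dist_le hon (fun k => chk D k = chk D j) (p (epx j)) 0 (Submodule.zero_mem _)
      have h2 : ‖p (epx j)‖ ≤ 1 := by
        have := p.le_opNorm (epx j)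
        rw [hon.1 j, mul_one] at this
        exact this.trans hpr.norm_le
      rw [sub_zero] at h1
      have h3 := pow_le_one₀ (norm_nonneg _) h2 (n := 2)
      have h4 := sq_nonneg ‖(p - p') (epx j)‖
      linarith
    · have h1 := dist_le hon (fun k => chk D k = chk D j) (p (epx j))
        (∑ y ∈ S, (c y * ee (y.2 * ((j.1.val : ℕ) / N' + θ * ((j.2.val : ℕ) : ℤ)))) •
          ep N' (((j.2.val : ℕ) : ℤ) + y.1) j.1.val) (by
          refine Submodule.sum_mem _ fun y hy => Submodule.smul_mem _ _ (Submodule.subset_span ?_)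
          obtain ⟨m, h1, h2, h3⟩ := good D0 hb (hd y hy)
          exact ⟨(j.1, ⟨m, h1⟩), by simp [chk, h3], by simp [epx, h2]⟩)
      have h2 := hC N' N0 j.2.val j.1.val
      generalize (∑ y ∈ S, (c y * ee (y.2 * ((j.1.val : ℕ) / N' + θ * ((j.2.val : ℕ) : ℤ)))) •
          ep N' (((j.2.val : ℕ) : ℤ) + y.1) j.1.val) = w at h1 h2
      have h3 : ‖p (epx j) - w‖ ≤ ‖(p - p') (epx j)‖ + ‖p' (epx j) - w‖ := by
        refine le_trans (le_of_eq ?_) (norm_add_le _ _)
        simp
      have h4 : C / N' ≤ η / 6 := by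
        rw [div_le_iff₀ N0']
        linarith [le_abs_self C]
      have h5 := pow_le_pow_left₀ (norm_nonneg _) h3 2
      change ‖p' (epx j) - w‖ ^ 2 ≤ _ at h2
      nlinarith [sq_nonneg (‖(p - p') (epx j)‖ - ‖p' (epx j) - w‖)]
  refine (sum_le_sum fun j _ => term j).trans ?_
  have s1 : ∑ j : Ix N' N, (if bad d D N j.2 then (1 : ℝ) else 0) ≤ N' * (η / 3 * N) := by
    rw [Fintype.sum_prod_type]
    refine (sum_le_card_nsmul _ _ (η / 3 * N) fun k _ => ?_).trans (by simp)
    rw [Fin.sum_univ_eq_sum_range (fun n => if bad d D N n then (1 : ℝ) else 0), sum_boole]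
    have h1 : ((((range N).filter (bad d D N)).card : ℕ) : ℝ) * D ≤ 5 * d * N := by
      exact_mod_cast card_bad d D N D0 hN
    have h2 := mul_le_mul_of_nonneg_right hD' (Nat.cast_nonneg (α := ℝ) N)
    refine le_of_mul_le_mul_right ?_ D0'
    linarith
  have s2 : ∑ j : Ix N' N, ‖(p - p') (epx j)‖ ^ 2 ≤ N * (N' * (η / 6)) := by
    rw [Fintype.sum_prod_type_right]
    refine (sum_le_card_nsmul _ _ (N' * (η / 6)) fun n _ => ?_).trans (by simp)
    simp only [epx]
    rw [Fin.sum_univ_eq_sum_range (fun k => ‖(p - p') (ep N' (n.val : ℤ) k)‖ ^ 2), f2]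
    refine (sum_le_card_nsmul _ _ (η / 6) fun b _ => ?_).trans (by simp)
    rw [((hComm θ U V hUV).2.2 _ he).1]
    refine (pow_le_pow_left₀ (norm_nonneg _) hen 2).trans (le_of_eq (Real.sq_sqrt (by positivity)))
  rw [sum_add_distrib, sum_add_distrib, ← mul_sum, sum_const, card_univ, nsmul_eq_mul,
    Fintype.card_prod, Fintype.card_fin, Fintype.card_fin, Nat.cast_mul]
  linarith

end Crest.Agent.R113
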