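import Crest.Agent.R113.DefsR

/-!
Row 113 (S0149), part E: the weight. Level `u` is a counter `⌊M u · x⌋` modulo `Q u = ll u · p u`
that advances by one in each step; at the start of each block of length `ll u = R^u` the weight has a
dip whose depth is given by a pseudo-random symbol. The counters are independent.
-/

set_option autoImplicit false

namespace Crest.Agent.R113

open Finset
open scoped Classical

/-- ratio of the block lengths -/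
def RR : ℕ := 2 ^ 25
/-- number of symbols -/
def VV : ℕ := 2 ^ 224
/-- block length -/
def ll (u : ℕ) : ℕ := RR ^ u
/-- width of the exceptional sets -/
noncomputable def ze (u : ℕ) : ℝ := 1 / (RR : ℝ) ^ (3 * u + 5)
/-- range of coherence -/
def rg (u : ℕ) : ℕ := RR ^ (2 * u + 4)
/-- distance to the nearest integer -/
noncomputable def nz (x : ℝ) : ℝ := |x - round x|
/-- one on `(-∞, 1/2]`, zero on `[1, ∞)` -/
noncomputable def chi (t : ℝ) : ℝ := max 0 (min 1 (2 - 2 * t))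

/-- indicator -/
noncomputable def ind (q : Prop) : ℝ := if q then 1 else 0

/-- the parameters -/
structure Par where
  p : ℕ → ℕ
  s : ℕ → ℤ → ℕ
  N : ℕ → ℕ
  ω : ℕ → ℕ
  r : ℕ → ℝ
  lam : ℕ → ℝ
  d : ℕ → ℕ → ℝ
  κ : ℕ → ℝ
  ε : ℕ → ℝ

/-- a pseudo-random pattern -/
def Pat (p : ℕ) (s : ℤ → ℕ) : Prop :=
  (∀ β, s β < VV) ∧ (∀ β, s (β + p) = s β) ∧
    ∀ δ : ℤ, δ ≠ 0 → |δ| < p → VV * ((range p).filter (fun β : ℕ => s β = s (β + δ))).card ≤ 3 * p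

/-- visits to a shrinking neighbourhood of the integers -/
def Vis (θ : ℝ) (ω : ℕ → ℕ) (r : ℕ → ℝ) : Prop :=
  (∀ u, 1 ≤ ω u ∧ ω u ≤ 2 ^ u ∧ 0 < r u ∧ ∀ x : ℝ, ∃ n < ω u, nz (x + θ * n) ≤ r u / 2) ∧
    Antitone r ∧ Filter.Tendsto r Filter.atTop (nhds 0)

/-- states -/
abbrev Sta : Type := ℕ → ℤ

/-- `n` steps -/
def sft (z : Sta) (n : ℤ) : Sta := fun u => z u + n

/-- distance to the next block of level `i` -/
def dst (i : ℕ) (y : ℤ) : ℤ := ll i - y % ll i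

/-- a higher level starts a block within `ll u` steps -/
def Itf (top u : ℕ) (z : Sta) : Prop := ∃ i, u < i ∧ i < top ∧ dst i (z i) ≤ ll u

/-- `F` only depends on the coordinates in `S` -/
def Dep (F : Sta → ℝ) (S : Set ℕ) : Prop := ∀ z z' : Sta, (∀ u ∈ S, z u = z' u) → F z = F z'

/-- `F` is periodic -/
def Per (Q : ℕ → ℕ) (F : Sta → ℝ) : Prop := ∀ z z' : Sta, (∀ u, (Q u : ℤ) ∣ z' u - z u) → F z = F z'

/-- extension by zero -/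
def up {top : ℕ} (z : Fin top → ℕ) : Sta := fun u => if h : u < top then (z ⟨u, h⟩ : ℤ) else 0

/-- expectation for independent uniform counters -/
noncomputable def Ex (Q : ℕ → ℕ) (top : ℕ) (F : Sta → ℝ) : ℝ :=
  (∑ z ∈ Fintype.piFinset (fun u : Fin top => range (Q u)), F (up z)) / ∏ u ∈ range top, (Q u : ℝ)

/-- the levels used for the range number `x` -/
def Sx (a x : ℕ) : Finset ℕ := Icc (a + x / 2) (a + x)

/-- few interferences -/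
def G2 (a top xm : ℕ) (z : Sta) : Prop :=
  ∀ x < xm, 4 * ((Sx a x).filter (fun u => Itf top u z)).card < (Sx a x).card

namespace Par

variable (P : Par)

/-- period -/
def Q (u : ℕ) : ℕ := ll u * P.p u
/-- resolution -/
def M (u : ℕ) : ℕ := P.N u * P.Q u

/-- the properties of the parameters -/
structure Ok (θ : ℝ) (εB : ℕ → ℝ → ℝ) : Prop where
  pge : ∀ u, RR ^ (u + 3) ≤ P.p u
  pat : ∀ u, Pat (P.p u) (P.s u)
  npos : ∀ u, 0 < P.N u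
  dvd : ∀ u, P.M u ∣ P.N (u + 1)
  app : ∀ u, ∃ n : ℤ, |(P.M u : ℝ) * θ - P.Q u * n - 1| ≤ ze u / (2 * rg u)
  vis : Vis θ P.ω P.r
  lam0 : P.lam 0 = 1
  lams : ∀ u, P.lam (u + 1) = P.lam u * P.d u (VV - 1) * Real.exp (-(RR : ℝ) ^ (3 * u + 5))
  lamp : ∀ u, 0 < P.lam u ∧ P.lam u ≤ 1
  dp : ∀ u t, 0 < P.d u t ∧ P.d u t ≤ 1
  danti : ∀ u, Antitone (P.d u)
  d0 : ∀ u, P.d u 0 ≤ P.lam u ^ ll u * P.ε u ^ 2 ∧ P.d u 0 * P.κ u ^ (2 * VV * u) ≤ 1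
  ds : ∀ u t, P.d u (t + 1) ≤ (P.lam u * P.d u t) ^ ll u * P.ε u ^ 2
  kap : Monotone P.κ ∧ ∀ u, (2 : ℝ) ^ (u + 1) ≤ P.κ u ∧ 100 / P.κ u ≤ εB (ll u - P.ω u) (P.lam u)
  eps : Antitone P.ε ∧ ∀ u, 0 < P.ε u ∧ P.κ u ^ (2 * VV * u + 2) * P.ε u ≤ 1 / 2 ^ (u + 1)

/-- the counters at the point `x` -/
noncomputable def st (x : ℝ) : Sta := fun u => ⌊(P.M u : ℝ) * x⌋

/-- the dips of level `u` -/
noncomputable def gl (u : ℕ) (x : ℝ) : ℝ :=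
  if P.st x u % ll u < P.ω u then
    -Real.log (P.d u (P.s u (P.st x u / ll u))) * min 1 (2 * nz (P.M u * x) / ze u) *
      chi (nz x / P.r u)
  else 0

/-- the central singularity -/
noncomputable def gc (u : ℕ) (x : ℝ) : ℝ := (RR : ℝ) ^ (3 * u + 5) * chi (nz x / ze u)

/-- the weight -/
noncomputable def Fn (x : ℝ) : ℝ :=
  if nz x = 0 then 0 else Real.exp (-∑' u, (P.gl u x + gc u x))

/-- regular points -/
def reg (u : ℕ) (x : ℝ) : Prop := ze u ≤ nz (P.M u * x)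

/-- the next symbol -/
def sym (u : ℕ) (z : Sta) : ℕ := P.s u (z u / ll u + 1)

/-- the test `(u, t)` -/
def Zt (top : ℕ) (t : ℕ × ℕ) (z : Sta) : Prop := t.2 ≤ P.sym t.1 z ∨ Itf top t.1 z

/-- number of positive tests of level `u` -/
noncomputable def Φ (top u : ℕ) (z : Sta) : ℝ := ∑ t ∈ Icc 1 VV, ind (P.Zt top (u, t) z)

/-- start of a cell with odd number -/
def St (a : ℕ) (z : Sta) : Prop := z a % ll a = P.ω a ∧ ((z a / ll a) % P.p a) % 2 = 1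

/-- no test cuts the cell -/
def G1 (a top : ℕ) (z : Sta) : Prop :=
  ∀ i, a < i → i < top → (P.ω i : ℤ) ≤ z i % ll i ∧ (ll a : ℤ) < dst i (z i) ∧
    ∀ u, a ≤ u → u < i → ¬ ((ll u : ℤ) < dst i (z i) ∧ dst i (z i) ≤ ll u + ll a)

/-- coincidence of symbols -/
def Eqv (a u : ℕ) (y : ℤ) (z : Sta) : Prop :=
  ∃ e : ℕ, e < 3 ∧ y * ll a / ll u + e ≠ 0 ∧
    P.s u (z u / ll u + 1) = P.s u (z u / ll u + 1 + (y * ll a / ll u + e))

/-- few coincidences -/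
def G3 (a xm : ℕ) (z : Sta) : Prop :=
  ∀ x < xm, ∀ y : ℤ, |y| ≤ (RR : ℤ) ^ (x + 1) →
    4 * ((Sx a x).filter (fun u => P.Eqv a u y z)).card < (Sx a x).card

/-- exceptional points for the tests of level `u` -/
def Xb (θ : ℝ) (top u : ℕ) {N' N : ℕ} (j : Ix N' N) : Prop :=
  N ≤ j.2.val + ll u ∨ (∃ i, u ≤ i ∧ i < top ∧ ¬ P.reg i (pos θ j)) ∨
    (∃ i, u ≤ i ∧ i < top ∧ (P.st (pos θ j) i % ll i < P.ω i ∨
      (P.st (pos θ j) i + ll u) % ll i < P.ω i)) ∨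
    ∃ n < ll u, nz (pos θ j + θ * n) < max (ze u) (P.r top)

/-- number of exceptional points -/
noncomputable def nX (θ : ℝ) (top u N' N : ℕ) : ℕ :=
  (univ.filter (fun j : Ix N' N => P.Xb θ top u j)).card

/-- the set where the test is positive -/
noncomputable def Zs (θ : ℝ) (top N' N : ℕ) (t : ℕ × ℕ) : Finset (Ix N' N) :=
  univ.filter (fun j => P.Zt top t (P.st (pos θ j)))

/-- good starting points -/
def Bg (θ : ℝ) (top u₁ a : ℕ) {N' N : ℕ} (j : Ix N' N) : Prop :=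
  j.2.val + 3 * ll a ≤ N ∧ j.2.val % ll u₁ + ll a ≤ ll u₁ ∧ P.St a (P.st (pos θ j)) ∧
    P.G1 a top (P.st (pos θ j)) ∧ G2 a top (u₁ - a) (P.st (pos θ j)) ∧
    P.G3 a (u₁ - a) (P.st (pos θ j)) ∧
    ∀ n < ll a, (∀ i, a ≤ i → i < top → P.reg i (pos θ j + θ * n)) ∧
      max (ze a) (P.r top) ≤ nz (pos θ j + θ * n)

/-- the environment of level `a`: low tests `[a, a+U)`, high tests `[a+U, u₁)` -/
noncomputable def env (θ : ℝ) (top u₁ a U N' N : ℕ) : Env (Ix N' N) where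
  σ := sg N' N
  f := fun j => P.Fn (pos θ j)
  L := Ico a (a + U) ×ˢ Icc 1 VV
  H := Ico (a + U) u₁ ×ˢ Icc 1 VV
  Z := P.Zs θ top N' N
  X := fun t => univ.filter (fun j => P.Xb θ top t.1 j)
  r := fun t => ll t.1
  m := fun t => (P.lam t.1 * P.d t.1 (t.2 - 1)) ^ ll t.1
  ε := fun t => P.ε t.1
  wg := fun t => 4 / ((t.1 - a : ℕ) + 1)
  X₀ := univ.filter (fun j => N ≤ j.2.val + ll a ∨ (∃ i, a ≤ i ∧ i < top ∧ ¬ P.reg i (pos θ j)) ∨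
    ∃ i, a ≤ i ∧ i < top ∧ P.st (pos θ j) i % ll i < P.ω i)
  B := univ.filter (fun j => P.Bg θ top u₁ a j)
  w := ll a - P.ω a
  ch := chk (ll u₁)
  κ := P.κ a
  lam := P.lam a

/-- for all large `top`, `N`, `N'` (in this order), `N'` a multiple of the finest resolution -/
def Evt (Φ : ℕ → ℕ → ℕ → Prop) : Prop :=
  ∃ t₀, ∀ top ≥ t₀, ∃ N₀, ∀ N ≥ N₀, ∃ N₀', ∀ N' ≥ N₀', P.M (top - 1) ∣ N' → Φ top N N'

end Par

/-- admissible levels -/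
def Lev (top u₁ a U : ℕ) : Prop := 1 ≤ U ∧ U ≤ a ∧ a + U ≤ u₁ ∧ u₁ < top

/-- **PAT**. `p` a prime `≥ max n VV`, `p > 2`, `s β = VV · (β² mod p) / p`. If `s β = s (β + δ)` the
two residues differ by less than `p/VV`, and `β ↦ 2δβ + δ²` is injective modulo `p`; so the number of
such `β` is at most `2p/VV + 1`. -/
def PatStmt : Prop := ∀ n : ℕ, ∃ p ≥ n, ∃ s : ℤ → ℕ, Pat p s

/-- **DEN**. (1) Dirichlet: a multiple `q α` is within `r` of an integer, not an integer; its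
multiples (in one direction) are `r`-dense. (2) `ω k` from (1) for radius `1/(2(k+1))` (`ω 0 = 1`);
`k u` = the largest `k ≤ u` with `ω k ≤ 2^u` (monotone, unbounded), `r u = 1/(k u + 1)`. -/
def DenStmt : Prop :=
  ∀ α : ℝ, Irrational α →
    (∀ r : ℝ, 0 < r → ∃ ω : ℕ, ∀ x : ℝ, ∃ n < ω, nz (x + α * n) ≤ r) ∧ ∃ ω r, Vis α ω r

/-- **PAR** (uses PAT, DEN). `N (u+1) = k · M u` with `k M u θ` close to `1/Q (u+1)` modulo one (DEN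
for the irrational `M u · θ` and `x = M u · θ - 1/Q`). Recursion on the pair `(lam u, κ (u-1),
ε (u-1))`: `κ u = max (κ (u-1)) (max 2^(u+1) (100/εB))`, `ε u = min (ε (u-1)) (…)`,
`d u 0 = min (lam^ll ε²) κ^(-2Vu)`, `d u (t+1) = (lam d u t)^ll ε²` (`ll u ≥ 1`). -/
def ParStmt : Prop :=
  ∀ (θ : ℝ) (εB : ℕ → ℝ → ℝ), Irrational θ → (∀ w lam, 0 < lam → 0 < εB w lam) →
    ∃ P : Par, P.Ok θ εB

/-- **FUN0**. `gl u` is continuous (a step function of `⌊M x⌋` times a function that vanishes when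
`M x` is an integer), `1`-periodic (`Q u ∣ M u`, `s` is periodic), nonnegative. Near a point that is not
an integer only finitely many terms are nonzero (`r u → 0`, `ze u → 0`); near an integer
`Fn x ≤ exp (-gc u x) = exp (-R^(3u+5))`. -/
def Fun0Stmt : Prop :=
  ∀ (P : Par) (θ : ℝ) (εB : ℕ → ℝ → ℝ), P.Ok θ εB →
    Continuous P.Fn ∧ Function.Periodic P.Fn 1 ∧ (∀ x, 0 ≤ P.Fn x ∧ P.Fn x ≤ 1) ∧
      (∀ x, P.Fn x = 0 ↔ nz x = 0) ∧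
      ∀ x n, P.Fn x ≤ Real.exp (-∑ u ∈ range n, Par.gc u x)

/-- **FUN1**. Descend to the circle, extend to `ℂ` (Tietze, or `z ↦ min ‖z‖ 1 · F (arg z / 2π)`).
The integral is at least `∑_{u<n} R^(3u+5) · π · ze u = n π` (on `t ∈ (0, π ze u]`, `chi = 1`). -/
def Fun1Stmt : Prop :=
  ∀ F : ℝ → ℝ, Continuous F → Function.Periodic F 1 → (∀ x, 0 ≤ F x ∧ F x ≤ 1) →
    (∀ x, F x = 0 ↔ nz x = 0) → (∀ x n, F x ≤ Real.exp (-∑ u ∈ range n, Par.gc u x)) →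
    ∃ f : ℂ → ℝ, Continuous f ∧ (∀ z : ℂ, ‖z‖ = 1 → 0 ≤ f z ∧ f z ≤ 1) ∧
      (∀ z : ℂ, ‖z‖ = 1 → (f z = 0 ↔ z = 1)) ∧
      (∫⁻ t in Set.Ioc (0 : ℝ) (2 * Real.pi),
          ENNReal.ofReal (- Real.log (f (Complex.exp ((t : ℂ) * Complex.I)))) = ⊤) ∧
      ∀ x, f (ee x) = F x

/-- **FUN2**. (1), (2) lower bounds: the levels `< u` cost at most `lam u`, the central terms `≥ u`
and the levels `≥ top` vanish. (3) a dip. (4) coherence: `M (x + θ n) = M x + n (Q k + 1 + e)`,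
`|n e| ≤ ze u / 2`. (5) a whole zone is crossed (use `vis`, (3), (4), `Fn ≤ 1`; `ω u ≤ ll u`,
`n₀ + ω u ≤ rg u`). (6) positions on the grid. -/
def Fun2Stmt : Prop :=
  (∀ (P : Par) (θ : ℝ) (εB : ℕ → ℝ → ℝ), P.Ok θ εB →
    (∀ (top u : ℕ) (x : ℝ), max (ze u) (P.r top) ≤ nz x →
      (∀ i, u ≤ i → i < top → (P.ω i : ℤ) ≤ P.st x i % ll i) → P.lam u ≤ P.Fn x) ∧
    (∀ (top u : ℕ) (x : ℝ), max (ze u) (P.r top) ≤ nz x →
      (∀ i, u < i → i < top → (P.ω i : ℤ) ≤ P.st x i % ll i) →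
      P.lam u * P.d u (P.s u (P.st x u / ll u)) ≤ P.Fn x) ∧
    (∀ (u : ℕ) (x : ℝ), P.st x u % ll u < P.ω u → ze u / 2 ≤ nz (P.M u * x) → nz x ≤ P.r u / 2 →
      P.Fn x ≤ P.d u (P.s u (P.st x u / ll u))) ∧
    (∀ (u : ℕ) (x : ℝ) (n : ℤ), P.reg u x → |n| ≤ rg u →
      (P.Q u : ℤ) ∣ P.st (x + θ * n) u - (P.st x u + n) ∧ ze u / 2 ≤ nz (P.M u * (x + θ * n))) ∧
    ∀ (u n : ℕ) (x : ℝ), P.reg u x → dst u (P.st x u) + P.ω u ≤ n →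
      ∏ i ∈ range n, P.Fn (x + θ * i) ≤ P.d u (P.sym u (P.st x))) ∧
  ∀ (θ : ℝ) (N' N n : ℕ) (j : Ix N' N), j.2.val + n < N →
    ((sg N' N ^ n) j).1 = j.1 ∧ ((sg N' N ^ n) j).2.val = j.2.val + n ∧
      pos θ ((sg N' N ^ n) j) = pos θ j + θ * n

/-- **EXP**. Calculus of `Ex`. Independence: `(x, y) ↦ (x on S and y off S, y on S and x off S)` is
an involution. Shift: `y ↦ (y + n) mod Q u` is a bijection of `range (Q u)`. Last part (large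
deviations): `ind (n ≤ 4 #) ≤ β^n ∏_{u∈S} (1 + β⁻⁴ ind (A u)) = β^n ∑_{S' ⊆ S} β^(-4|S'|) ind (∀ u ∈ S', A u)`. -/
def ExpStmt : Prop :=
  ∀ (Q : ℕ → ℕ) (top : ℕ), (∀ u, 0 < Q u) →
    (∀ (F G : Sta → ℝ) (c : ℝ), Ex Q top (fun z => F z + G z) = Ex Q top F + Ex Q top G ∧
      Ex Q top (fun z => c * F z) = c * Ex Q top F ∧ Ex Q top (fun _ => c) = c ∧
      ((∀ z, F z ≤ G z) → Ex Q top F ≤ Ex Q top G) ∧
      Ex Q top (fun z => |F z|) ^ 2 ≤ Ex Q top (fun z => F z ^ 2)) ∧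
    (∀ (α : Type) (S : Finset α) (F : α → Sta → ℝ),
      Ex Q top (fun z => ∑ i ∈ S, F i z) = ∑ i ∈ S, Ex Q top (F i)) ∧
    (∀ (F G : Sta → ℝ) (S : Set ℕ), Dep F S → Dep G Sᶜ →
      Ex Q top (fun z => F z * G z) = Ex Q top F * Ex Q top G) ∧
    (∀ u < top, ∀ h : ℤ → ℝ, Ex Q top (fun z => h (z u)) = (∑ y ∈ range (Q u), h y) / Q u) ∧
    (∀ (F : Sta → ℝ) (n : ℤ), Per Q F → Dep F (Set.Iio top) →
      Ex Q top (fun z => F (sft z n)) = Ex Q top F) ∧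
    ∀ (W : Sta → ℝ) (A : ℕ → Sta → Prop) (S : Finset ℕ) (β c : ℝ), 0 < β → (∀ z, 0 ≤ W z) →
      (∀ S' ⊆ S, Ex Q top (fun z => W z * ind (∀ u ∈ S', A u z)) ≤ c * (β ^ 4) ^ S'.card) →
      Ex Q top (fun z => W z * ind (S.card ≤ 4 * (S.filter (fun u => A u z)).card)) ≤
        c * (2 * β) ^ S.card

/-- **GRID**. `M' = M (top-1)`, `N' = n' M'`: `⌊M' (k/N' + φ)⌋ = (k + c)/n'` with `c = ⌊N' φ⌋`, and
`⌊M u x⌋ = ⌊M' x⌋ / (M'/M u)`. `y ↦ F (fun u => y / (M'/M u))` is `M'`-periodic; then induction on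
`top` (`M (t+1) = M t · k · Q (t+1)`, `y = k Q y' + Q e + z`). Second part: a grid count. -/
def GridStmt : Prop :=
  (∀ (P : Par) (θ : ℝ) (εB : ℕ → ℝ → ℝ), P.Ok θ εB → ∀ (top N' : ℕ) (φ : ℝ) (F : Sta → ℝ),
    0 < top → 0 < N' → P.M (top - 1) ∣ N' → Per P.Q F → Dep F (Set.Iio top) →
    ∑ k ∈ range N', F (P.st (k / N' + φ)) = N' * Ex P.Q top F) ∧
  ∀ (M N' : ℕ) (φ η : ℝ), 0 < M → 0 < N' → 0 ≤ η →
    (((range N').filter (fun k : ℕ => nz (M * (k / N' + φ)) < η)).card : ℝ) ≤ 6 * η * N' + 3 * M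

/-- **INT** (uses EXP). (1) marginals: count the residues modulo `ll i` (`Q i = ll i · p i`).
(2) union bound. (3) strong induction on `|S|`: the least `u ∈ S` is covered by a level `i > u`
(probability `R^(u-i)`), which is independent of the events for `S ∩ [i, ∞)`, a set with at least
`|S| - (i - u)` elements; `∑_{s ≥ 1} (R γ)^(-s) ≤ 1` for `γ = 2/R`. -/
def IntStmt : Prop :=
  ∀ (P : Par) (top : ℕ), (∀ u, 0 < P.p u) →
    (∀ i < top, ∀ (n lo : ℤ) (m : ℕ),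
      Ex P.Q top (fun z => ind (lo ≤ (z i + n) % ll i ∧ (z i + n) % ll i < lo + m)) ≤ m / ll i) ∧
    (∀ (u u' : ℕ) (n : ℤ), u ≤ u' →
      Ex P.Q top (fun z => ind (∃ i, u' ≤ i ∧ i < top ∧ dst i (z i + n) ≤ ll u)) ≤
        2 / (RR : ℝ) ^ (u' - u)) ∧
    ∀ S : Finset ℕ, Ex P.Q top (fun z => ind (∀ u ∈ S, Itf top u z)) ≤ (2 / (RR : ℝ)) ^ S.card

/-- **GA** (uses EXP, INT). `G1`, `G2` only depend on the levels `> a`. `G1`: union bound,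
`∑_{s≥1} (2^(a+s)/R^(a+s) + (s+1)/R^s) ≤ 1/100`. `G2`: large deviations with `β = 1/64`,
`2 |Sx| ≥ x + 2`, `32^(-|Sx|) ≤ (1/32) (1/5)^x`. -/
def GaStmt : Prop :=
  ∀ (P : Par) (θ : ℝ) (εB : ℕ → ℝ → ℝ), P.Ok θ εB → ∀ a top xm : ℕ, a < top →
    Ex P.Q top (fun z => ind (z a % ll a = P.ω a) * ind (¬ P.G1 a top z)) ≤ 1 / (100 * ll a) ∧
    Ex P.Q top (fun z => ind (z a % ll a = P.ω a) * ind (¬ G2 a top xm z)) ≤ 1 / (20 * ll a)

/-- **GB** (uses EXP, INT). Large deviations with `W = ind (z a % ll a = ω a)`, `c = 1/ll a`,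
`β = 2^(-55)`, `9/VV ≤ β⁴`: the events `Eqv a u y` depend on `z u / ll u` only, three values of
`δ`, `|δ| ≤ R^(u+2) + 3 < p u`. Union bound over `x` and the `2 R^(x+1) + 1` values of `y`. -/
def GbStmt : Prop :=
  ∀ (P : Par) (θ : ℝ) (εB : ℕ → ℝ → ℝ), P.Ok θ εB → ∀ a top xm : ℕ, 1 ≤ a → a + xm ≤ top → a < top →
    Ex P.Q top (fun z => ind (z a % ll a = P.ω a) * ind (¬ P.G3 a xm z)) ≤ 1 / (100 * ll a)

/-- **GOOD** (uses EXP, GA, GB). `St a` has probability `⌊p/2⌋ / (p · ll a) ≥ 1/(3 ll a)`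
(`ω a < ll a`). Also: the event is periodic and depends on the levels below `top`. -/
def GoodStmt : Prop :=
  ∀ (P : Par) (θ : ℝ) (εB : ℕ → ℝ → ℝ), P.Ok θ εB → ∀ a top xm : ℕ, 1 ≤ a → a + xm ≤ top → a < top →
    1 / (4 * (ll a : ℝ)) ≤
      Ex P.Q top (fun z => ind (P.St a z ∧ P.G1 a top z ∧ G2 a top xm z ∧ P.G3 a xm z)) ∧
    Per P.Q (fun z => ind (P.St a z ∧ P.G1 a top z ∧ G2 a top xm z ∧ P.G3 a xm z)) ∧
    Dep (fun z => ind (P.St a z ∧ P.G1 a top z ∧ G2 a top xm z ∧ P.G3 a xm z)) (Set.Iio top)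

/-- **COV** (uses EXP, INT). `0 ≤ Φ ≤ V`. For `u < u' < top`, `Φ u' u` (top replaced by `u'`) depends
on the levels `< u'`, `Φ top u'` on the levels `≥ u'`, and `|Φ top u - Φ u' u| ≤ V · ind (…)`; so the
covariance is `≤ 2 V² / R^(u'-u)` and the variance `≤ 4 V² ∑ λ²`. -/
def CovStmt : Prop :=
  ∀ (P : Par) (θ : ℝ) (εB : ℕ → ℝ → ℝ), P.Ok θ εB → ∀ top : ℕ,
    (∀ u < top, Per P.Q (P.Φ top u) ∧ Dep (P.Φ top u) (Set.Ico u top)) ∧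
    ∀ (S : Finset ℕ) (l : ℕ → ℝ) (n : ℕ → ℤ), (∀ u ∈ S, u < top) →
      Ex P.Q top (fun z => |∑ u ∈ S, l u * (P.Φ top u (sft z (n u)) - Ex P.Q top (P.Φ top u))|) ≤
        2 * VV * √(∑ u ∈ S, l u ^ 2)

/-- **TST** (uses FUN0, FUN2): the fields `f01`, `par`, `tilt`, `mono` of `Env.Ok`.
`tilt`: for `j ∉ X`, in the window `n < ll u` the counters of level `≥ u` advance by `n`. If the test
is negative no level `i > u` enters a zone, and level `u` does so only in the next block, with symbol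
`< t`. If it is positive a whole zone is crossed (for interference: `(z + ll u) % ll i =
ll u - dst ≥ ω i`), `d i σ ≤ d i 0 ≤ lam i ^ ll i ε i ² ≤ m ε²`. `mono`: if `n < dst i` for all
`i ∈ [a, top)` every positive test stays positive; otherwise a whole zone is crossed. -/
def TstStmt : Prop :=
  ∀ (P : Par) (θ : ℝ) (εB : ℕ → ℝ → ℝ), P.Ok θ εB → ∀ top u₁ a U N' N : ℕ, Lev top u₁ a U →
    let e := P.env θ top u₁ a U N' N
    (∀ j, 0 ≤ e.f j ∧ e.f j ≤ 1) ∧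
    (∀ t ∈ e.L ∪ e.H, 0 < e.m t ∧ 0 < e.ε t ∧ e.ε t ≤ 1 / 2 ∧ 0 ≤ e.wg t) ∧
    (∀ t ∈ e.L ∪ e.H, ∀ j ∉ e.X t, (j ∉ e.Z t → e.m t ≤ wt e.σ e.f (e.r t) j) ∧
      (j ∈ e.Z t → wt e.σ e.f (e.r t) j ≤ e.m t * e.ε t ^ 2)) ∧
    ∀ n < e.w, ∀ j ∉ e.X₀, (e.σ ^ n) j ∉ e.X₀ →
      e.Θ j ≤ e.Θ ((e.σ ^ n) j) ∨ wt e.σ e.f n j * e.κ ^ (2 * e.L.card) ≤ 1

/-- **CEL** (uses FUN2): the fields `far`, `cellp`. `far`: same segment, the difference `y` of the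
starting points is a multiple of `ll a` in `(-ll a, 2 ll a)`; `y = ll a` is excluded by parity. -/
def CelStmt : Prop :=
  ∀ (P : Par) (θ : ℝ) (εB : ℕ → ℝ → ℝ), P.Ok θ εB → ∀ top u₁ a U N' N : ℕ, Lev top u₁ a U →
    let e := P.env θ top u₁ a U N' N
    Far e.σ e.w e.B ∧
    ∀ b ∈ e.B, ∀ i < e.w, (e.σ ^ i) b ∉ e.X₀ ∧ e.lam ≤ e.f ((e.σ ^ i) b) ∧
      e.ch ((e.σ ^ i) b) = e.ch b ∧ ∀ t ∈ e.L ∪ e.H, ((e.σ ^ i) b ∈ e.Z t ↔ b ∈ e.Z t)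

/-- **SEP** (uses FUN2): the field `sep`. `y = k.2 - b.2`, `|y| < ll u₁`, `pos k = pos b + θ y`. Take
`x < u₁ - a` with `|y| < ll (a+x+1)` and (`x = 0` or `ll (a+x) ≤ |y|`). For `u ∈ Sx a x`:
`|y| ≤ rg u`, the block difference `δ = (z u % ll u + y) / ll u` is nonzero (for `u = a`: otherwise `k`
is in the cell or in the zone) and equals `y₀ ll a / ll u + e`, `y₀ = y / ll a`, `e < 3`. If neither
`Itf u` nor `Eqv a u y₀` holds at `b`, a test `(u, t)` separates (`t = VV` if `Itf u` holds at `k`,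
else the larger symbol). More than half of `Sx` separates; `2 |Sx| ≥ x + 2`, weights `≥ 4/(x+1)`. -/
def SepStmt : Prop :=
  ∀ (P : Par) (θ : ℝ) (εB : ℕ → ℝ → ℝ), P.Ok θ εB → ∀ top u₁ a U N' N : ℕ, Lev top u₁ a U →
    let e := P.env θ top u₁ a U N' N
    ∀ b ∈ e.B, ∀ k ∉ e.X₀, k ∉ cell e.σ e.w b → e.ch k = e.ch b →
      (∃ t ∈ e.L, ¬ (b ∈ e.Z t ↔ k ∈ e.Z t)) ∨
        1 ≤ ∑ t ∈ e.H, if (b ∈ e.Z t ↔ k ∈ e.Z t) then 0 else e.wg t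

/-- **XCT** (uses EXP, INT, GRID). For each value of `j.2` count the `j.1`; `ω i / ll i ≤ (2/R)^i`.
Also: `Evt` is closed under finite conjunctions. -/
def XctStmt : Prop :=
  ∀ (P : Par) (θ : ℝ) (εB : ℕ → ℝ → ℝ), P.Ok θ εB →
    (∀ (u : ℕ) (τ : ℝ), 0 < τ → P.Evt (fun top N N' =>
      (P.nX θ top u N' N : ℝ) ≤ (10 * (2 / (RR : ℝ)) ^ u + τ) * Fintype.card (Ix N' N))) ∧
    (∀ Φ Ψ : ℕ → ℕ → ℕ → Prop, P.Evt Φ → P.Evt Ψ → P.Evt (fun t N N' => Φ t N N' ∧ Ψ t N N')) ∧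
    ∀ (S : Finset ℕ) (Φ : ℕ → ℕ → ℕ → ℕ → Prop), (∀ u ∈ S, P.Evt (Φ u)) →
      P.Evt (fun t N N' => ∀ u ∈ S, Φ u t N N')

/-- **BCT** (uses GRID, GOOD). At least `99%` of the values of `j.2` satisfy the first two
conditions; for each of them at least `N' (1/(4 ll a) - 1/(50 ll a))` values of `j.1` are good. -/
def BctStmt : Prop :=
  ∀ (P : Par) (θ : ℝ) (εB : ℕ → ℝ → ℝ), P.Ok θ εB → ∀ u₁ a : ℕ, 1 ≤ a → a < u₁ →
    P.Evt (fun top N N' => (Fintype.card (Ix N' N) : ℝ) ≤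
      5 * ll a * (univ.filter (fun j : Ix N' N => P.Bg θ top u₁ a j)).card)

/-- **FLW** (uses EXP, FUN2, GRID, COV). `flow = ∑_j 1_Z j ρ j - ∑_j 1_Z j ρ (σ^r j)`; if `¬ Xb j` then
`1_Z j = ind (Zt (sft (st (σ^r j)) (-r)))`. Reindex; both sums are compared with the same constant. -/
def FlwStmt : Prop :=
  ∀ (P : Par) (θ : ℝ) (εB : ℕ → ℝ → ℝ), P.Ok θ εB → ∀ (top N' N : ℕ) (S : Finset ℕ) (l : ℕ → ℝ),
    0 < top → 0 < N' → P.M (top - 1) ∣ N' → (∀ u ∈ S, u < top ∧ 0 ≤ l u) →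
    (∃ c : ℝ, ∑ j : Ix N' N, |(∑ u ∈ S, ∑ t ∈ Icc 1 VV, if j ∈ P.Zs θ top N' N (u, t) then l u else 0) - c| ≤
      2 * VV * √(∑ u ∈ S, l u ^ 2) * Fintype.card (Ix N' N)) ∧
    ∀ ρ : Ix N' N → ℝ, (∀ j, 0 ≤ ρ j ∧ ρ j ≤ 1) →
      ∑ u ∈ S, l u * ∑ t ∈ Icc 1 VV, flow (sg N' N) ρ (ll u) (P.Zs θ top N' N (u, t)) ≤
        4 * VV * √(∑ u ∈ S, l u ^ 2) * Fintype.card (Ix N' N) +
          VV * ∑ u ∈ S, l u * P.nX θ top u N' N

/-- **OKE** (uses TST, CEL, SEP, FLW). `κt ≤ κ u ^ (2 V u + 2)` for `u ≥ a`; weights `≤ 4`;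
`err (u,t) ≤ card · (10 (2/R)^u + 2τ + 3/2^u)`, `∑_{u ≥ a} (10 (2/R)^u + 3/2^u) ≤ 26/2^a`;
`∑_{i ≥ U} 16/(i+1)² ≤ 16/U`; `X₀ ⊆ Xb a`; `ll a ≤ 2 w`, `2^a ≤ w`. -/
def OkeStmt : Prop :=
  ∀ (P : Par) (θ : ℝ) (εB : ℕ → ℝ → ℝ), P.Ok θ εB → ∀ (top u₁ a U N' N : ℕ) (η δ τ : ℝ),
    Lev top u₁ a U → 2 ≤ a → 0 < N' → P.M (top - 1) ∣ N' → 0 ≤ δ → 0 ≤ τ →
    32 * VV ≤ η * √U → 300 * VV ≤ η * 2 ^ a → 16 * VV * u₁ * τ ≤ η →
    (∀ u < u₁, ∀ t ∈ Icc 1 VV,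
      (ll u : ℝ) ^ 2 * δ / ((P.lam u * P.d u (t - 1)) ^ ll u * P.ε u ^ 2) ^ 2 ≤ τ) →
    (ll a : ℝ) ^ 2 * δ * (P.κ a ^ (2 * VV * a + 2)) ^ 2 ≤ η →
    (∀ u < u₁, (P.nX θ top u N' N : ℝ) ≤ (10 * (2 / (RR : ℝ)) ^ u + τ) * Fintype.card (Ix N' N)) →
    (Fintype.card (Ix N' N) : ℝ) ≤
      5 * ll a * (univ.filter (fun j : Ix N' N => P.Bg θ top u₁ a j)).card →
    let e := P.env θ top u₁ a U N' N
    e.Ok εB η δ ∧ e.κt ≤ P.κ a ^ (2 * VV * a + 2) ∧ 2 ^ a ≤ e.w ∧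
      ∀ ρ : Ix N' N → ℝ, (∀ j, 0 ≤ ρ j ∧ ρ j ≤ 1) →
        ∑ t ∈ e.H, e.wg t * flow e.σ ρ (e.r t) (e.Z t) ≤ η * Fintype.card (Ix N' N)

/-- **ENVP** (uses XCT, BCT, FLW, OKE). Choose `U`, then `A ≥ U`, `κb = κ (2A) ^ (4 V A + 2)`,
`u₁ ≥ 2A + U`, `D = ll u₁ ≥ D₀`, `τ`, `δ`, `top`, `N`, `N'`. The sum over `a ∈ [A, 2A)` of the low
flows is FLW with `l u = #{a ∈ [A,2A) | a ≤ u < a + U} ≤ U`, `S = [A, 2A + U)`; it is `≤ η A card`. -/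
def EnvpStmt : Prop :=
  ∀ (P : Par) (θ : ℝ) (εB : ℕ → ℝ → ℝ), P.Ok θ εB → EnvP θ εB P.Fn

theorem anchorE : True := by
  have := @RR.eq_1; have := @VV.eq_1; have := @ll.eq_1; have := @ze.eq_1; have := @rg.eq_1
  have := @nz.eq_1; have := @chi.eq_1; have := @ind.eq_1; have := @Pat.eq_1; have := @Vis.eq_1
  have := @sft.eq_1; have := @dst.eq_1; have := @Itf.eq_1; have := @Dep.eq_1; have := @Per.eq_1
  have := @up.eq_1; have := @Ex.eq_1; have := @Sx.eq_1; have := @G2.eq_1; have := @Par.Q.eq_1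
  have := @Par.M.eq_1; have := @Par.st.eq_1; have := @Par.gl.eq_1; have := @Par.gc.eq_1
  have := @Par.Fn.eq_1; have := @Par.reg.eq_1; have := @Par.sym.eq_1; have := @Par.Zt.eq_1
  have := @Par.Φ.eq_1; have := @Par.St.eq_1; have := @Par.G1.eq_1; have := @Par.Eqv.eq_1
  have := @Par.G3.eq_1; have := @Par.Xb.eq_1; have := @Par.nX.eq_1; have := @Par.Zs.eq_1
  have := @Par.Bg.eq_1; have := @Par.env.eq_1; have := @Par.Evt.eq_1; have := @Lev.eq_1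
  trivial

end Crest.Agent.R113
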