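import Crest.Agent.R113.DefsR

set_option autoImplicit false

namespace Crest.Agent.R113

open Finset Crest.AnalysisR.RotationRep

namespace ERG

lemma ee_add (x y : ℝ) : ee (x + y) = ee x * ee y := by
  unfold ee; rw [← Complex.exp_add]; congr 1; push_cast; ring

lemma ee_zero : ee 0 = 1 := by unfold ee; simp

lemma norm_ee (x : ℝ) : ‖ee x‖ = 1 := by
  unfold ee
  have : (2 * Real.pi * Complex.I * x : ℂ) = ((2 * Real.pi * x : ℝ) : ℂ) * Complex.I := by
    push_cast; ring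
  rw [this, Complex.norm_exp_ofReal_mul_I]

lemma ee_nat (x : ℝ) (n : ℕ) : ee (x * n) = ee x ^ n := by
  induction n with
  | zero => simp [ee_zero]
  | succ n ih => rw [pow_succ, ← ih, ← ee_add]; congr 1; push_cast; ring

lemma ee_ne_one {θ : ℝ} (hθ : Irrational θ) {m : ℤ} (hm : m ≠ 0) : ee (m * θ) ≠ 1 := by
  intro h
  unfold ee at h
  obtain ⟨n, hn⟩ := Complex.exp_eq_one_iff.1 h
  have h2 : (2 * Real.pi * Complex.I : ℂ) ≠ 0 := Complex.two_pi_I_ne_zero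
  have h3 : ((m * θ : ℝ) : ℂ) = (n : ℂ) := by
    apply mul_left_cancel₀ h2
    rw [hn]; ring
  have h4 : (m * θ : ℝ) = n := by exact_mod_cast h3
  exact (hθ.intCast_mul hm).ne_int n h4

lemma geom_bd {z : ℂ} (hz : ‖z‖ = 1) (h1 : z ≠ 1) (w : ℕ) :
    ‖∑ n ∈ range w, z ^ n‖ ≤ 2 / ‖z - 1‖ := by
  rw [geom_sum_eq h1, norm_div]
  gcongr
  calc ‖z ^ w - 1‖ ≤ ‖z ^ w‖ + ‖(1 : ℂ)‖ := norm_sub_le _ _
    _ = 2 := by rw [norm_pow, hz]; norm_num

lemma inner_dl (x y : ℤ × ℤ) : inner ℂ (dl x) (dl y) = if x = y then (1 : ℂ) else 0 := by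
  unfold dl
  rw [lp.inner_single_left]
  by_cases h : x = y
  · subst h; simp
  · rw [lp.single_apply_ne _ _ _ h]; simp [h]

lemma norm_dl (x : ℤ × ℤ) : ‖dl x‖ = 1 := by
  unfold dl
  rw [lp.norm_single (by norm_num)]; simp

lemma sq_eq_inner {p : HH →L[ℂ] HH} (hp : IsStarProjection p) (v : HH) :
    ((‖p v‖ ^ 2 : ℝ) : ℂ) = inner ℂ v (p v) := by
  have h1 : p (p v) = p v := by
    have := congrArg (fun T : HH →L[ℂ] HH => T v) hp.isIdempotentElem.eq
    simpa using this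
  have h2 : ContinuousLinearMap.adjoint p = p := hp.isSelfAdjoint.adjoint_eq
  have h3 : inner ℂ (p v) (p v) = inner ℂ v (p v) := by
    rw [← ContinuousLinearMap.adjoint_inner_right, h2, h1]
  rw [← h3, inner_self_eq_norm_sq_to_K]; push_cast; rfl

lemma rot_pow {N : ℕ} (n : ℕ) (i : Fin N) (h : i.val + n < N) :
    (((finRotate N) ^ n) i).val = i.val + n := by
  induction n with
  | zero => simp
  | succ n ih =>
    have ih' := ih (by omega)
    rw [pow_succ', Equiv.Perm.mul_apply]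
    obtain ⟨M, rfl⟩ : ∃ M, N = M + 1 := ⟨N - 1, by omega⟩
    rw [coe_finRotate_of_ne_last, ih']
    · ring
    · intro hl
      have := congrArg Fin.val hl
      rw [ih', Fin.val_last] at this
      omega

lemma sg_pow {N' N : ℕ} (n : ℕ) (j : Ix N' N) :
    ((sg N' N) ^ n) j = (j.1, ((finRotate N) ^ n) j.2) := by
  induction n with
  | zero => simp
  | succ n ih => rw [pow_succ', Equiv.Perm.mul_apply, ih, pow_succ', Equiv.Perm.mul_apply]; rfl

lemma pos_pow (θ : ℝ) {N' N : ℕ} (n : ℕ) (j : Ix N' N) (h : j.2.val + n < N) :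
    pos θ (((sg N' N) ^ n) j) = pos θ j + θ * n := by
  rw [sg_pow]
  unfold pos
  simp only
  rw [rot_pow n j.2 h]; push_cast; ring

/-- the symbol -/
noncomputable def qq (S : Finset (ℤ × ℤ)) (c : ℤ × ℤ → ℂ) (x : ℝ) : ℂ :=
  ∑ y ∈ S, if y.1 = 0 then c y * ee (y.2 * x) else 0

/-- the constant term -/
noncomputable def c0 (S : Finset (ℤ × ℤ)) (c : ℤ × ℤ → ℂ) : ℂ :=
  ∑ y ∈ S, if y = 0 then c y else 0

lemma qq_bd (S : Finset (ℤ × ℤ)) (c : ℤ × ℤ → ℂ) (x : ℝ) : ‖qq S c x‖ ≤ ∑ y ∈ S, ‖c y‖ := by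
  unfold qq
  refine (norm_sum_le _ _).trans (sum_le_sum fun y _ => ?_)
  split_ifs
  · rw [norm_mul, norm_ee, mul_one]
  · simp

lemma c0_bd (S : Finset (ℤ × ℤ)) (c : ℤ × ℤ → ℂ) : ‖c0 S c‖ ≤ ∑ y ∈ S, ‖c y‖ := by
  unfold c0
  refine (norm_sum_le _ _).trans (sum_le_sum fun y _ => ?_)
  split_ifs
  · exact le_rfl
  · simp

lemma avg_bd {θ : ℝ} (hθ : Irrational θ) (S : Finset (ℤ × ℤ)) (c : ℤ × ℤ → ℂ) :
    ∃ B : ℝ, 0 ≤ B ∧ ∀ (w : ℕ) (x : ℝ),
      ‖∑ n ∈ range w, qq S c (x + θ * n) - w * c0 S c‖ ≤ B := by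
  refine ⟨∑ y ∈ S, ‖c y‖ * (2 / ‖ee (y.2 * θ) - 1‖), sum_nonneg fun y _ => by positivity,
    fun w x => ?_⟩
  unfold qq c0
  rw [sum_comm, mul_sum, ← sum_sub_distrib]
  refine (norm_sum_le _ _).trans (sum_le_sum fun y _ => ?_)
  by_cases h0 : y = 0
  · subst h0
    simp [ee_zero]
  · rw [if_neg h0, mul_zero, sub_zero]
    by_cases h1 : y.1 = 0
    · have h2 : y.2 ≠ 0 := fun h2 => h0 (Prod.ext h1 h2)
      simp only [if_pos h1]
      have : ∀ n : ℕ, c y * ee (y.2 * (x + θ * n)) = (c y * ee (y.2 * x)) * ee (y.2 * θ) ^ n := by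
        intro n
        rw [← ee_nat, mul_assoc, ← ee_add]; congr 2; ring
      simp_rw [this]
      rw [← mul_sum, norm_mul, norm_mul, norm_ee, mul_one]
      gcongr
      exact geom_bd (norm_ee _) (ee_ne_one hθ h2) w
    · simp only [if_neg h1, sum_const_zero, norm_zero]; positivity

lemma pt_bd {θ : ℝ} {S : Finset (ℤ × ℤ)} {c : ℤ × ℤ → ℂ} {p p' : HH →L[ℂ] HH}
    (hp : IsStarProjection p) {N' : ℕ} (a : ℤ) (k : ℕ) (r : ℝ)
    (horth : ∀ a' : ℤ, inner ℂ (ep N' a k) (ep N' a' k) = if a = a' then (1 : ℂ) else 0)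
    (hr : ‖p' (ep N' a k) - ∑ y ∈ S, (c y * ee (y.2 * (k / N' + θ * a))) • ep N' (a + y.1) k‖ ≤ r) :
    ‖((‖p (ep N' a k)‖ ^ 2 : ℝ) : ℂ) - qq S c (k / N' + θ * a)‖ ≤ ‖(p - p') (ep N' a k)‖ + r := by
  have hn : ‖ep N' a k‖ = 1 := by
    have h := horth a
    rw [if_pos rfl, inner_self_eq_norm_sq_to_K] at h
    have h2 : ‖ep N' a k‖ ^ 2 = 1 := by
      have : ((‖ep N' a k‖ ^ 2 : ℝ) : ℂ) = 1 := by push_cast; exact h
      exact_mod_cast this
    have := norm_nonneg (ep N' a k)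
    nlinarith
  have hq : qq S c (k / N' + θ * a) = inner ℂ (ep N' a k)
      (∑ y ∈ S, (c y * ee (y.2 * (k / N' + θ * a))) • ep N' (a + y.1) k) := by
    rw [inner_sum]
    unfold qq
    refine sum_congr rfl fun y _ => ?_
    rw [inner_smul_right, horth]
    by_cases h : y.1 = 0
    · simp [h]
    · rw [if_neg h, if_neg (by omega), mul_zero]
  rw [sq_eq_inner hp, hq, ← inner_sub_right]
  refine (norm_inner_le_norm _ _).trans ?_
  rw [hn, one_mul]
  have : p (ep N' a k) - ∑ y ∈ S, (c y * ee (y.2 * (k / N' + θ * a))) • ep N' (a + y.1) k =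
      (p - p') (ep N' a k) + (p' (ep N' a k) -
        ∑ y ∈ S, (c y * ee (y.2 * (k / N' + θ * a))) • ep N' (a + y.1) k) := by
    simp
  rw [this]
  exact (norm_add_le _ _).trans (by gcongr)

lemma s_bd {θ : ℝ} {S : Finset (ℤ × ℤ)} {c : ℤ × ℤ → ℂ} {p p' : HH →L[ℂ] HH}
    (hp : IsStarProjection p) (hP : Pol θ S c p') :
    ‖((‖p (dl 0)‖ ^ 2 : ℝ) : ℂ) - c0 S c‖ ≤ ‖(p - p') (dl 0)‖ := by
  have hq : c0 S c = inner ℂ (dl 0) (p' (dl 0)) := by
    have h := hP 0 0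
    have e0 : ((0 : ℤ), (0 : ℤ)) = (0 : ℤ × ℤ) := rfl
    rw [e0] at h
    rw [h, inner_sum]
    unfold c0
    refine sum_congr rfl fun y _ => ?_
    rw [inner_smul_right, inner_dl]
    by_cases hy : y = 0
    · subst hy; simp [ee_zero, e0]
    · rw [if_neg hy, if_neg, mul_zero]
      intro h2
      apply hy
      simpa using h2.symm
  rw [sq_eq_inner hp, hq, ← inner_sub_right]
  refine (norm_inner_le_norm _ _).trans ?_
  rw [norm_dl, one_mul]
  exact le_of_eq (by simp)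

lemma card_bad (N' N w : ℕ) :
    ∑ j : Ix N' N, (if N < j.2.val + w then (1 : ℝ) else 0) ≤ N' * w := by
  rw [Fintype.sum_prod_type]
  have hc : ∑ a : Fin N', ∑ b : Fin N, (if N < b.val + w then (1 : ℝ) else 0) =
      N' * ∑ b : Fin N, (if N < b.val + w then (1 : ℝ) else 0) := by
    rw [sum_const, card_univ, Fintype.card_fin, nsmul_eq_mul]
  refine hc.trans_le ?_
  gcongr
  rw [Fin.sum_univ_eq_sum_range (fun i => if N < i + w then (1 : ℝ) else 0) N, sum_boole]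
  have : ((range N).filter (fun i => N < i + w)).card ≤ w := by
    calc ((range N).filter (fun i => N < i + w)).card ≤ (Ico (N - w) N).card := by
          apply card_le_card
          intro i hi
          simp only [mem_filter, mem_range] at hi
          rw [mem_Ico]; omega
      _ ≤ w := by rw [Nat.card_Ico]; omega
  exact_mod_cast this

lemma comb {N' N : ℕ} (θ : ℝ) (ρ : Ix N' N → ℝ) (g : ℝ → ℂ) (c₀ : ℂ) (s : ℝ) (w : ℕ) (hw : 0 < w)
    (η Q B A : ℝ) (hη : 0 ≤ η) (hs : ‖(s : ℂ) - c₀‖ ≤ η) (hg : ∀ x, ‖g x‖ ≤ Q) (hc : ‖c₀‖ ≤ Q)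
    (hB : ∀ x, ‖∑ n ∈ range w, g (x + θ * n) - w * c₀‖ ≤ B) (hBw : B ≤ η * w)
    (hA : ∑ j, ‖(ρ j : ℂ) - g (pos θ j)‖ ≤ A) :
    ∑ j, |(∑ n ∈ range w, ρ (((sg N' N) ^ n) j)) / w - s| ≤
      A + 2 * η * Fintype.card (Ix N' N) + 2 * Q * (N' * w) := by
  have hw' : (0 : ℝ) < w := by exact_mod_cast hw
  have hQ : 0 ≤ Q := (norm_nonneg _).trans hc
  have key : ∀ j : Ix N' N, |(∑ n ∈ range w, ρ (((sg N' N) ^ n) j)) / w - s| ≤
      (∑ n ∈ range w, ‖(ρ (((sg N' N) ^ n) j) : ℂ) - g (pos θ (((sg N' N) ^ n) j))‖) / w + 2 * η +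
        2 * Q * (if N < j.2.val + w then (1 : ℝ) else 0) := by
    intro j
    have hmid : ‖∑ n ∈ range w, g (pos θ (((sg N' N) ^ n) j)) - w * c₀‖ ≤
        (η + 2 * Q * (if N < j.2.val + w then (1 : ℝ) else 0)) * w := by
      split_ifs with hb
      · calc _ ≤ ‖∑ n ∈ range w, g (pos θ (((sg N' N) ^ n) j))‖ + ‖(w : ℂ) * c₀‖ := norm_sub_le _ _
          _ ≤ ∑ _n ∈ range w, Q + w * Q := by
            gcongr
            · exact (norm_sum_le _ _).trans (sum_le_sum fun n _ => hg _)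
            · rw [norm_mul, Complex.norm_natCast]; gcongr
          _ ≤ _ := by
            rw [sum_const, card_range, nsmul_eq_mul]
            nlinarith [mul_nonneg hη hw'.le]
      · rw [sum_congr rfl (fun n hn => by
          rw [pos_pow θ n j (by have := mem_range.1 hn; omega)])]
        simpa using (hB _).trans hBw
    have hid : (((∑ n ∈ range w, ρ (((sg N' N) ^ n) j)) / w - s : ℝ) : ℂ) =
        (∑ n ∈ range w, ((ρ (((sg N' N) ^ n) j) : ℂ) - g (pos θ (((sg N' N) ^ n) j)))) / w +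
        (∑ n ∈ range w, g (pos θ (((sg N' N) ^ n) j)) - w * c₀) / w - ((s : ℂ) - c₀) := by
      have : (w : ℂ) ≠ 0 := by exact_mod_cast hw.ne'
      rw [sum_sub_distrib]; push_cast; field_simp; ring
    rw [← Real.norm_eq_abs, ← Complex.norm_real, hid]
    refine (norm_sub_le _ _).trans ((add_le_add_left (norm_add_le _ _) _).trans ?_)
    rw [norm_div, norm_div, Complex.norm_natCast]
    have h1 : ‖∑ n ∈ range w, ((ρ (((sg N' N) ^ n) j) : ℂ) - g (pos θ (((sg N' N) ^ n) j)))‖ / w ≤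
        (∑ n ∈ range w, ‖(ρ (((sg N' N) ^ n) j) : ℂ) - g (pos θ (((sg N' N) ^ n) j))‖) / w := by
      gcongr; exact norm_sum_le _ _
    have h2 := (div_le_iff₀ hw').2 hmid
    linarith
  refine (sum_le_sum fun j _ => key j).trans ?_
  rw [sum_add_distrib, sum_add_distrib, ← sum_div, sum_comm, sum_const, card_univ,
    nsmul_eq_mul, ← mul_sum]
  have h1 : ∑ n ∈ range w, ∑ j : Ix N' N,
      ‖(ρ (((sg N' N) ^ n) j) : ℂ) - g (pos θ (((sg N' N) ^ n) j))‖ ≤ A * w := by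
    calc _ ≤ ∑ _n ∈ range w, A := by
          refine sum_le_sum fun n _ => ?_
          rw [Equiv.sum_comp ((sg N' N) ^ n) (fun j => ‖(ρ j : ℂ) - g (pos θ j)‖)]
          exact hA
      _ = A * w := by rw [sum_const, card_range, nsmul_eq_mul, mul_comm]
  have h2 := (div_le_iff₀ hw').2 h1
  have h3 := mul_le_mul_of_nonneg_left (card_bad N' N w) (by positivity : 0 ≤ 2 * Q)
  linarith

end ERG

open ERG in
theorem ERG_proof (hComm : CommStmt) (hPoly : PolyStmt) (hDft : DftStmt) (hDfp : DfpStmt) :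
    ErgStmt := by
  intro θ U V hθ hUV p hpM hp η hη
  set η₁ := η / 5 with hη₁
  have h1 : 0 < η₁ := by positivity
  obtain ⟨S, c, p', hP, heM, he0⟩ := hPoly θ U V hUV p hpM η₁ h1
  obtain ⟨C, hC⟩ := hDfp θ S c p' hP
  obtain ⟨B, hB0, hB⟩ := avg_bd hθ S c
  have hcom := ((hComm θ U V hUV).2.2 _ heM).1
  set Q := ∑ y ∈ S, ‖c y‖ with hQ
  have hQ0 : 0 ≤ Q := sum_nonneg fun y _ => norm_nonneg _
  obtain ⟨w, hw⟩ := exists_nat_gt (B / η₁)
  have hw0 : 0 < w := by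
    have : (0 : ℝ) < w := lt_of_le_of_lt (by positivity) hw
    exact_mod_cast this
  refine ⟨w, hw0, ?_⟩
  obtain ⟨N₀, hN₀⟩ := exists_nat_gt (2 * Q * w / η₁)
  refine ⟨N₀, fun N hN => ?_⟩
  obtain ⟨M, hM⟩ := exists_nat_gt (C / η₁ ^ 2)
  refine ⟨M + 1, fun N' hN' => ?_⟩
  have hN'0 : 0 < N' := by omega
  have hN'r : (0 : ℝ) < N' := by exact_mod_cast hN'0
  obtain ⟨horth, hsum, -⟩ := hDft N' hN'0
  have hcard : (Fintype.card (Ix N' N) : ℝ) = N' * N := by simp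
  have hCN : C / N' ≤ η₁ ^ 2 := by
    rw [div_le_iff₀ hN'r]
    have h2 : (M : ℝ) ≤ N' := by exact_mod_cast (by omega : M ≤ N')
    have h3 := (div_lt_iff₀ (by positivity : 0 < η₁ ^ 2)).1 hM
    nlinarith [sq_nonneg η₁]
  have hpt : ∀ j : Ix N' N, ‖((‖p (epx j)‖ ^ 2 : ℝ) : ℂ) - qq S c (pos θ j)‖ ≤
      ‖(p - p') (epx j)‖ + η₁ := by
    intro j
    have := pt_bd (θ := θ) (S := S) (c := c) (p' := p') hp (N' := N') (j.2.val : ℤ) j.1.val η₁
      (fun a' => by rw [horth _ _ _ j.1.isLt _ j.1.isLt]; simp)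
      (by
        have h2 := (hC N' hN'0 (j.2.val : ℤ) j.1.val).trans hCN
        exact abs_le_of_sq_le_sq' h2 h1.le |>.2)
    simpa [epx, pos] using this
  have hsq : ∑ j : Ix N' N, ‖(p - p') (epx j)‖ ^ 2 ≤ N' * N * η₁ ^ 2 := by
    rw [Fintype.sum_prod_type, sum_comm]
    calc _ ≤ ∑ _a : Fin N, (N' : ℝ) * η₁ ^ 2 := by
          refine sum_le_sum fun a _ => ?_
          have h2 := hsum (p - p') (a.val : ℤ)
          rw [← Fin.sum_univ_eq_sum_range (fun k => ‖(p - p') (ep N' (a.val : ℤ) k)‖ ^ 2) N'] at h2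
          refine le_of_eq_of_le h2 ?_
          calc _ ≤ ∑ _b ∈ range N', η₁ ^ 2 := by
                refine sum_le_sum fun b _ => ?_
                rw [hcom]; gcongr
            _ = _ := by rw [sum_const, card_range, nsmul_eq_mul]
      _ = _ := by rw [sum_const, card_univ, Fintype.card_fin, nsmul_eq_mul]; ring
  have hA : ∑ j : Ix N' N, ‖((‖p (epx j)‖ ^ 2 : ℝ) : ℂ) - qq S c (pos θ j)‖ ≤ 2 * η₁ * (N' * N) := by
    calc _ ≤ ∑ j : Ix N' N, (‖(p - p') (epx j)‖ ^ 2 / (2 * η₁) + 3 / 2 * η₁) := by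
          refine sum_le_sum fun j _ => (hpt j).trans ?_
          have h2 : ‖(p - p') (epx j)‖ - η₁ / 2 ≤ ‖(p - p') (epx j)‖ ^ 2 / (2 * η₁) := by
            rw [le_div_iff₀ (by positivity)]
            nlinarith [sq_nonneg (‖(p - p') (epx j)‖ - η₁)]
          linarith
      _ ≤ N' * N * η₁ ^ 2 / (2 * η₁) + N' * N * (3 / 2 * η₁) := by
          rw [sum_add_distrib, ← sum_div, sum_const, card_univ, nsmul_eq_mul, hcard]
          gcongr
      _ = _ := by field_simp; ring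
  have hfin := comb θ (fun j : Ix N' N => ‖p (epx j)‖ ^ 2) (qq S c) (c0 S c) (‖p (dl 0)‖ ^ 2) w hw0
    η₁ Q B _ h1.le ((s_bd hp hP).trans he0) (qq_bd S c) (c0_bd S c) (hB w)
    (by have := (div_lt_iff₀ h1).1 hw; linarith) hA
  unfold Erg
  refine hfin.trans ?_
  rw [hcard]
  have h2 : (N₀ : ℝ) ≤ N := by exact_mod_cast hN
  have h3 := (div_lt_iff₀ h1).1 hN₀
  have h4 : 2 * Q * w ≤ N * η₁ := by nlinarith
  have h5 : η = 5 * η₁ := by rw [hη₁]; ring
  rw [h5]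
  nlinarith [mul_le_mul_of_nonneg_left h4 hN'r.le]

end Crest.Agent.R113
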