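import Crest.Agent.R113.DefsL

/-! Row 113, task GRD: the scaled subspace is close in rank to a graded subspace. -/

set_option autoImplicit false

namespace Crest.Agent.R113

open Finset Module

namespace GRD

variable {ι : Type} [Fintype ι] [DecidableEq ι]

theorem cut_inner (Y : Finset ι) (x y : E ι) : inner ℂ (cut Y x) y = inner ℂ x (cut Y y) := by
  simp only [PiLp.inner_apply, cut_apply]
  refine sum_congr rfl fun i _ => ?_
  split_ifs <;> simp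

theorem cut_add_compl (Y : Finset ι) (v : E ι) : cut Y v + cut Yᶜ v = v := by
  ext i; by_cases h : i ∈ Y <;> simp [h]

theorem cut_idem (Y : Finset ι) (v : E ι) : cut Y (cut Y v) = cut Y v := by
  ext i; by_cases h : i ∈ Y <;> simp [h]

theorem cut_compl (Y : Finset ι) (v : E ι) : cut Yᶜ v = v - cut Y v :=
  eq_sub_of_add_eq' (cut_add_compl Y v)

theorem cut_cut_compl (Y : Finset ι) (v : E ι) : cut Y (cut Yᶜ v) = 0 := by
  ext i; by_cases h : i ∈ Y <;> simp [h]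

theorem cut_comm (Y Z : Finset ι) (v : E ι) : cut Y (cut Z v) = cut Z (cut Y v) := by
  ext i; by_cases h : i ∈ Y <;> by_cases h' : i ∈ Z <;> simp [h, h']

theorem sq_add {a b : E ι} (h : inner ℂ a b = 0) : ‖a + b‖ ^ 2 = ‖a‖ ^ 2 + ‖b‖ ^ 2 := by
  rw [norm_add_sq (𝕜 := ℂ), h]; simp

/-- Pythagoras for a vector that vanishes on `X` and a vector supported on `X` -/
theorem pyth (X : Finset ι) {a : E ι} (u : E ι) (h : cut X a = 0) :
    ‖a + cut X u‖ ^ 2 = ‖a‖ ^ 2 + ‖cut X u‖ ^ 2 :=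
  sq_add (by rw [← cut_inner, h, inner_zero_left])

theorem sum_cut {C : Finset (Finset ι)} (hC : Dj C) (v : E ι) :
    ∑ c ∈ C, cut c v = cut (un C) v := by
  ext i
  simp only [WithLp.ofLp_sum, Finset.sum_apply, cut_apply]
  by_cases h : i ∈ un C
  · rw [if_pos h]
    obtain ⟨c, hc, hi⟩ := mem_biUnion.1 h
    rw [sum_eq_single_of_mem c hc (fun c' hc' hne => if_neg fun hi' =>
      disjoint_left.1 (hC c' hc' c hc hne) hi' hi)]
    exact if_pos hi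
  · rw [if_neg h]
    exact sum_eq_zero fun c hc => if_neg fun hi => h (mem_biUnion.2 ⟨c, hc, hi⟩)

theorem Cm.adj {g : E ι →ₗ[ℂ] E ι} {Y : Finset ι} (h : Cm g Y) : Cm (LinearMap.adjoint g) Y := by
  intro v
  refine ext_inner_right ℂ fun x => ?_
  rw [LinearMap.adjoint_inner_left, cut_inner, ← h, cut_inner, LinearMap.adjoint_inner_left]

theorem Blk.out {C : Finset (Finset ι)} (hC : Dj C) {g : E ι →ₗ[ℂ] E ι} (h : Blk C g) (v : E ι) :
    cut (un C)ᶜ (g v) = cut (un C)ᶜ v := by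
  have h1 : g (cut (un C) v) = cut (un C) (g v) := by
    rw [← sum_cut hC, ← sum_cut hC, map_sum]
    exact sum_congr rfl fun c hc => h.1 c hc v
  rw [← h.2 v, cut_compl, cut_compl, map_sub, h1]

theorem Blk.adj {C : Finset (Finset ι)} (hC : Dj C) {g : E ι →ₗ[ℂ] E ι} (h : Blk C g) :
    Blk C (LinearMap.adjoint g) := by
  refine ⟨fun c hc => Cm.adj (h.1 c hc), fun v => ext_inner_right ℂ fun x => ?_⟩
  rw [LinearMap.adjoint_inner_left, cut_inner, Blk.out hC h, cut_inner]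

/-- eigenspace of `g g*` -/
noncomputable def Eig (g : E ι →ₗ[ℂ] E ι) (l : ℝ) : Submodule ℂ (E ι) :=
  LinearMap.ker (g ∘ₗ LinearMap.adjoint g - (l : ℂ) • LinearMap.id)

theorem mem_Eig {g : E ι →ₗ[ℂ] E ι} {l : ℝ} {y : E ι} :
    y ∈ Eig g l ↔ g (LinearMap.adjoint g y) = (l : ℂ) • y := by
  simp [Eig, sub_eq_zero]

theorem Eig_out {C : Finset (Finset ι)} (hC : Dj C) {g : E ι →ₗ[ℂ] E ι} (h : Blk C g) {l : ℝ}
    (hl : l ≠ 1) {y : E ι} (hy : y ∈ Eig g l) : cut (un C)ᶜ y = 0 := by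
  have h1 := congrArg (cut (un C)ᶜ) (mem_Eig.1 hy)
  rw [Blk.out hC h, Blk.out hC (Blk.adj hC h), map_smul] at h1
  have h2 : ((l : ℂ) - 1) • cut (un C)ᶜ y = 0 := by rw [sub_smul, ← h1, one_smul, sub_self]
  refine (smul_eq_zero.1 h2).resolve_left fun e => hl ?_
  exact_mod_cast sub_eq_zero.1 e

theorem of_out {Y : Finset ι} {y : E ι} (h : cut Yᶜ y = 0) : cut Y y = y := by
  have := cut_add_compl Y y
  rwa [h, add_zero] at this

theorem Eig_gr {C : Finset (Finset ι)} (hC : Dj C) {g : E ι →ₗ[ℂ] E ι} (h : Blk C g) {l : ℝ}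
    (hl : l ≠ 1) : Gr C (Eig g l) := by
  refine ⟨fun c hc v hv => mem_Eig.2 ?_, fun v hv => of_out (Eig_out hC h hl hv)⟩
  rw [Cm.adj (h.1 c hc), h.1 c hc, mem_Eig.1 hv, map_smul]

theorem Eig_inner {g : E ι →ₗ[ℂ] E ι} {l : ℝ} {y : E ι} (hy : y ∈ Eig g l) (x : E ι) :
    inner ℂ (LinearMap.adjoint g x) (LinearMap.adjoint g y) = l * inner ℂ x y := by
  rw [LinearMap.adjoint_inner_left, mem_Eig.1 hy, inner_smul_right]

theorem Eig_orth {g : E ι →ₗ[ℂ] E ι} {l l' : ℝ} (hl : l ≠ l') {x y : E ι} (hx : x ∈ Eig g l)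
    (hy : y ∈ Eig g l') : inner ℂ x y = 0 := by
  have h1 := Eig_inner hy x
  rw [LinearMap.adjoint_inner_right, mem_Eig.1 hx, inner_smul_left, Complex.conj_ofReal] at h1
  have h2 : ((l : ℂ) - l') * inner ℂ x y = 0 := by rw [sub_mul, h1, sub_self]
  refine (mul_eq_zero.1 h2).resolve_left fun e => hl ?_
  exact_mod_cast sub_eq_zero.1 e

theorem Eig_norm {g : E ι →ₗ[ℂ] E ι} {k : ℝ} (hk : 0 ≤ k) {y : E ι} (hy : y ∈ Eig g (k ^ 2)) :
    ‖LinearMap.adjoint g y‖ = k * ‖y‖ := by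
  have h1 := Eig_inner hy y
  have h2 : ‖LinearMap.adjoint g y‖ ^ 2 = (k * ‖y‖) ^ 2 := by
    rw [mul_pow, ← inner_self_eq_norm_sq (𝕜 := ℂ), ← inner_self_eq_norm_sq (𝕜 := ℂ) y, h1]
    exact Complex.re_ofReal_mul _ _
  exact (pow_left_inj₀ (norm_nonneg _) (by positivity) two_ne_zero).1 h2

theorem pr_mem (K : Submodule ℂ (E ι)) (v : E ι) : pr K v ∈ K := K.starProjection_apply_mem v

theorem pr_inner (K : Submodule ℂ (E ι)) (u v : E ι) : inner ℂ (pr K u) v = inner ℂ u (pr K v) :=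
  K.inner_starProjection_left_eq_right u v

theorem pr_pr (K : Submodule ℂ (E ι)) (v : E ι) : pr K (pr K v) = pr K v :=
  Submodule.starProjection_eq_self_iff.2 (pr_mem K v)

theorem inner_sub_pr {K : Submodule ℂ (E ι)} {y : E ι} (hy : y ∈ K) (v : E ι) :
    inner ℂ y (v - pr K v) = 0 :=
  (K.mem_orthogonal _).1 (K.sub_starProjection_mem_orthogonal v) y hy

theorem inner_pr_self (K : Submodule ℂ (E ι)) (v : E ι) :
    RCLike.re (inner ℂ v (pr K v)) = ‖pr K v‖ ^ 2 := by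
  conv_lhs => rw [← pr_pr, ← pr_inner]
  exact inner_self_eq_norm_sq _

theorem pr_min {K : Submodule ℂ (E ι)} (v : E ι) {z : E ι} (hz : z ∈ K) :
    ‖v - pr K v‖ ≤ ‖v - z‖ := by
  rw [pr_apply, K.starProjection_minimal]
  exact ciInf_le ⟨0, by rintro _ ⟨x, rfl⟩; exact norm_nonneg _⟩ (⟨z, hz⟩ : K)

theorem pr_sub_le (K : Submodule ℂ (E ι)) (v : E ι) : ‖v - pr K v‖ ≤ ‖v‖ := by
  simpa using pr_min v K.zero_mem

theorem decomp {P M : Submodule ℂ (E ι)} {X : Finset ι} (hPM : ∀ x ∈ P, ∀ y ∈ M, inner ℂ x y = 0)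
    (hP : ∀ x ∈ P, cut X x = 0) (hM : ∀ x ∈ M, cut X x = 0) {u : E ι}
    (hu : u ∈ (LinearMap.ker (cut X) ⊓ Pᗮ ⊓ Mᗮ)ᗮ) : u = pr M u + pr P u + cut X u := by
  set r := u - pr M u - pr P u - cut X u with hr
  have h0 : cut X r = 0 := by
    rw [hr, map_sub, map_sub, map_sub, hM _ (pr_mem M u), hP _ (pr_mem P u), cut_idem]; simp
  have h1 : r ∈ Pᗮ := (P.mem_orthogonal _).2 fun y hy => by
    have e : r = (u - pr P u) - pr M u - cut X u := by rw [hr]; abel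
    rw [e, inner_sub_right, inner_sub_right, inner_sub_pr hy, hPM y hy _ (pr_mem M u), ← cut_inner,
      hP y hy]
    simp
  have h2 : r ∈ Mᗮ := (M.mem_orthogonal _).2 fun y hy => by
    rw [hr, inner_sub_right, inner_sub_right, inner_sub_pr hy, ← inner_conj_symm,
      hPM _ (pr_mem P u) y hy, ← cut_inner, hM y hy]
    simp
  have h3 : inner ℂ r u = 0 := (Submodule.mem_orthogonal _ _).1 hu r ⟨⟨h0, h1⟩, h2⟩
  have h4 : inner ℂ r r = 0 := by
    conv_lhs => rw [show r = r from rfl]; arg 3; rw [hr]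
    rw [inner_sub_right, inner_sub_right, inner_sub_right, h3, ← cut_inner, h0,
      (M.mem_orthogonal' _).1 h2 _ (pr_mem M u), (P.mem_orthogonal' _).1 h1 _ (pr_mem P u)]
    simp
  have h5 : r = 0 := inner_self_eq_zero.1 h4
  rw [hr, sub_sub, sub_sub, sub_eq_zero] at h5
  rw [add_assoc]; exact h5

theorem lin_zero (β : ℂ) (φ : ℝ) (h : ∀ t : ℂ, 0 ≤ 2 * (t * β).re + ‖t‖ ^ 2 * φ) : β = 0 := by
  have hs : 0 < 1 / (|φ| + 1) := by positivity
  have hs' : 1 / (|φ| + 1) * φ ≤ 1 := by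
    rw [one_div, inv_mul_le_iff₀ (by positivity)]
    have := le_abs_self φ; linarith
  generalize 1 / (|φ| + 1) = s at hs hs'
  have h1 := h (-(s : ℂ) * (starRingEnd ℂ) β)
  have e1 : (-(s : ℂ) * (starRingEnd ℂ) β * β).re = -s * ‖β‖ ^ 2 := by
    rw [mul_assoc, Complex.conj_mul']
    norm_cast
  have e2 : ‖-(s : ℂ) * (starRingEnd ℂ) β‖ ^ 2 = s ^ 2 * ‖β‖ ^ 2 := by
    rw [norm_mul, norm_neg, Complex.norm_real, Complex.norm_conj, mul_pow, Real.norm_eq_abs, sq_abs]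
  rw [e1, e2] at h1
  have h2 : s * ‖β‖ ^ 2 ≤ 0 := by
    have : 0 ≤ s * ‖β‖ ^ 2 := by positivity
    nlinarith
  have h3 : ‖β‖ ^ 2 ≤ 0 := by
    by_contra hn
    push Not at hn
    have := mul_pos hs hn
    linarith
  exact norm_eq_zero.1 (pow_eq_zero_iff two_ne_zero |>.1 (le_antisymm h3 (by positivity)))

theorem form (Q : Submodule ℂ (E ι)) (w x : E ι) (t : ℂ) :
    ‖pr Q (w + t • x)‖ ^ 2 - ‖w + t • x‖ ^ 2 / 2 = (‖pr Q w‖ ^ 2 - ‖w‖ ^ 2 / 2) +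
      (2 * (t * inner ℂ (pr Q w - (1 / 2 : ℂ) • w) x).re + ‖t‖ ^ 2 * (‖pr Q x‖ ^ 2 - ‖x‖ ^ 2 / 2)) := by
  rw [map_add, map_smul, norm_add_sq (𝕜 := ℂ), norm_add_sq (𝕜 := ℂ), inner_smul_right,
    inner_smul_right, norm_smul, norm_smul, ← pr_inner, pr_pr, inner_sub_left, inner_smul_left]
  simp only [RCLike.re_to_complex, mul_sub, Complex.sub_re, Complex.mul_re, map_div₀, map_one,
    map_ofNat]
  norm_num
  ring

theorem half {Q P M : Submodule ℂ (E ι)} {c : Finset ι} (hPM : ∀ x ∈ P, ∀ y ∈ M, inner ℂ x y = 0)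
    (hP : ∀ x ∈ P, cut c x ∈ P)
    (h1 : ∀ w, cut c w = w → w ∈ Pᗮ → ‖w‖ ^ 2 / 2 ≤ ‖pr Q w‖ ^ 2)
    (h2 : ∀ w, cut c w = w → w ∈ Mᗮ → ‖pr Q w‖ ^ 2 ≤ ‖w‖ ^ 2 / 2) {w : E ι} (hw : cut c w = w)
    (hwP : w ∈ Pᗮ) (hwM : w ∈ Mᗮ) : cut c (pr Q w) = (1 / 2 : ℂ) • w := by
  have h0 : ‖pr Q w‖ ^ 2 - ‖w‖ ^ 2 / 2 = 0 := by
    have := h1 w hw hwP; have := h2 w hw hwM; linarith
  have a1 : ∀ x, cut c x = x → x ∈ Pᗮ → inner ℂ (pr Q w - (1 / 2 : ℂ) • w) x = 0 := by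
    intro x hx hxP
    refine lin_zero _ (‖pr Q x‖ ^ 2 - ‖x‖ ^ 2 / 2) fun t => ?_
    have := h1 (w + t • x) (by rw [map_add, map_smul, hw, hx]) (add_mem hwP (Pᗮ.smul_mem t hxP))
    have e := form Q w x t
    linarith
  have a2 : ∀ x, cut c x = x → x ∈ Mᗮ → inner ℂ (pr Q w - (1 / 2 : ℂ) • w) x = 0 := by
    intro x hx hxM
    refine neg_eq_zero.1 (lin_zero _ (-(‖pr Q x‖ ^ 2 - ‖x‖ ^ 2 / 2)) fun t => ?_)
    have := h2 (w + t • x) (by rw [map_add, map_smul, hw, hx]) (add_mem hwM (Mᗮ.smul_mem t hxM))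
    have e := form Q w x t
    rw [mul_neg, Complex.neg_re]
    linarith
  have a3 : cut c (pr Q w - (1 / 2 : ℂ) • w) = 0 := by
    refine ext_inner_right ℂ fun x => ?_
    have e : cut c x = cut c (x - pr P x) + cut c (pr P x) := by rw [← map_add]; simp
    rw [cut_inner, e, inner_add_right, inner_zero_left,
      a1 _ (cut_idem _ _) ((P.mem_orthogonal _).2 fun y hy => by
        rw [← cut_inner]; exact inner_sub_pr (hP y hy) x),
      a2 _ (cut_idem _ _) ((M.mem_orthogonal' _).2 fun y hy => hPM _ (hP _ (pr_mem P x)) y hy),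
      add_zero]
  rw [map_sub, map_smul, hw, sub_eq_zero] at a3
  exact a3

theorem hs_D {C : Finset (Finset ι)} (hC : Dj C) (q : E ι →ₗ[ℂ] E ι) :
    hs (∑ c ∈ C, cut cᶜ ∘ₗ q ∘ₗ cut c) ≤ ∑ c ∈ C, hs (cut cᶜ ∘ₗ q ∘ₗ cut c) := by
  unfold hs
  rw [sum_comm]
  refine sum_le_sum fun j _ => ?_
  rw [LinearMap.sum_apply]
  have hz : ∀ c : Finset ι, j ∉ c → (cut cᶜ ∘ₗ q ∘ₗ cut c) (ev j) = 0 := by
    intro c hj
    have : cut c (ev j) = 0 := by
      ext i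
      by_cases h : i ∈ c
      · have : i ≠ j := fun e => hj (e ▸ h)
        simp [h, ev, this]
      · simp [h]
    simp [this]
  by_cases h : ∃ c ∈ C, j ∈ c
  · obtain ⟨c, hc, hj⟩ := h
    rw [sum_eq_single_of_mem c hc (fun c' hc' hne => hz c' fun hi' =>
      disjoint_left.1 (hC c' hc' c hc hne) hi' hj)]
    exact single_le_sum (f := fun c => ‖(cut cᶜ ∘ₗ q ∘ₗ cut c) (ev j)‖ ^ 2)
      (fun _ _ => by positivity) hc
  · push Not at h
    rw [sum_eq_zero fun c hc => hz c (h c hc)]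
    simp only [norm_zero, ne_eq, OfNat.ofNat_ne_zero, not_false_eq_true, zero_pow]
    exact sum_nonneg fun _ _ => by positivity

theorem finrank_map_inj {f : E ι →ₗ[ℂ] E ι} (hf : Function.Injective f) (p : Submodule ℂ (E ι)) :
    finrank ℂ (p.map f) = finrank ℂ p := (Submodule.equivMapOfInjective f hf p).finrank_eq.symm

theorem fin_bound {κ a b c d : ℝ} (hκ : 1 < κ) (h1 : a ≤ b) (h2 : b ≤ 2 * c) (hc : 0 ≤ c)
    (hd : 0 ≤ d) (h3 : κ * c ^ 2 ≤ d * c) : a ≤ 2 / κ * d := by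
  have h4 : κ * c ≤ d := by
    rcases hc.eq_or_lt with rfl | h
    · simpa using hd
    · nlinarith
  rw [div_mul_eq_mul_div, le_div_iff₀ (by linarith)]
  nlinarith

end GRD

open GRD in
theorem GRD_proof (hBas : BasStmt) (hScl : SclStmt) (hSub : SubStmt) : GrdStmt := by
  intro ι _ _ C K κ μ hC hκ hμ
  obtain ⟨g, hg, hB, hS⟩ := hScl ι C K κ hC hκ
  obtain ⟨-, -, b3, b4, -, -, -, b8, b9⟩ := hBas ι
  have hκ0 : 0 < κ := by linarith
  have hκi : κ⁻¹ < 1 := inv_lt_one_of_one_lt₀ hκ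
  have hκi0 : 0 < κ⁻¹ := inv_pos.2 hκ0
  have l1 : κ ^ 2 ≠ 1 := by nlinarith
  have l2 : κ⁻¹ ^ 2 ≠ 1 := by nlinarith
  have l3 : κ ^ 2 ≠ κ⁻¹ ^ 2 := by nlinarith
  have hμ' := hμ g hg hB
  set Q := K.map g with hQ
  set P := Eig g (κ ^ 2) with hP
  set M := Eig g (κ⁻¹ ^ 2) with hM
  set gs := LinearMap.adjoint g with hgs
  have hgs' : Blk C gs := Blk.adj hC hg
  have hinj : Function.Injective g := by
    rw [injective_iff_map_eq_zero]
    intro v hv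
    have := (hB v).1
    rw [hv, norm_zero] at this
    exact norm_eq_zero.1 (le_antisymm (by nlinarith [norm_nonneg v]) (norm_nonneg _))
  have hsurj : Function.Surjective g := LinearMap.injective_iff_surjective.1 hinj
  have hinj' : Function.Injective gs := by
    rw [injective_iff_map_eq_zero]
    intro v hv
    obtain ⟨x, rfl⟩ := hsurj v
    refine inner_self_eq_zero (𝕜 := ℂ).1 ?_
    rw [← LinearMap.adjoint_inner_left, ← hgs, hv, inner_zero_left]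
  have hPM : ∀ x ∈ P, ∀ y ∈ M, inner ℂ x y = 0 := fun x hx y hy => Eig_orth l3 hx hy
  have hPo : ∀ x ∈ P, cut (un C)ᶜ x = 0 := fun x hx => Eig_out hC hg l1 hx
  have hMo : ∀ x ∈ M, cut (un C)ᶜ x = 0 := fun x hx => Eig_out hC hg l2 hx
  have hPg : Gr C P := Eig_gr hC hg l1
  have hMg : Gr C M := Eig_gr hC hg l2
  have s1 : ∀ c ∈ C, ∀ w, cut c w = w → w ∈ Pᗮ → ‖w‖ ^ 2 / 2 ≤ ‖pr Q w‖ ^ 2 := fun c hc w hw h =>
    (hS c hc w hw).1 fun y hy => (P.mem_orthogonal _).1 h y (mem_Eig.2 hy)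
  have s2 : ∀ c ∈ C, ∀ w, cut c w = w → w ∈ Mᗮ → ‖pr Q w‖ ^ 2 ≤ ‖w‖ ^ 2 / 2 := fun c hc w hw h =>
    (hS c hc w hw).2 fun y hy => (M.mem_orthogonal _).1 h y (mem_Eig.2 hy)
  set E₀ := LinearMap.ker (cut (un C)ᶜ) ⊓ Pᗮ ⊓ Mᗮ with hE₀
  have hdim : ∀ F G : Submodule ℂ (E ι), (finrank ℂ F : ℝ) - finrank ℂ G ≤
      finrank ℂ (F ⊓ Gᗮ : Submodule ℂ (E ι)) := by
    intro F G
    have h1 := b9 ⊤ F Gᗮ le_top le_top
    have h2 : (finrank ℂ G : ℝ) + finrank ℂ Gᗮ = finrank ℂ (⊤ : Submodule ℂ (E ι)) := by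
      rw [finrank_top]; exact_mod_cast G.finrank_add_finrank_orthogonal
    linarith
  have d0 : (finrank ℂ E₀ : ℝ) ≤ 4 * μ := by
    have h1 := (b4 (∑ c ∈ C, cut cᶜ ∘ₗ pr Q ∘ₗ cut c)).2.2.2 E₀ (1 / 4) (fun v hv => by
      have hv0 : cut (un C) v = v := of_out hv.1.1
      have e : (∑ c ∈ C, cut cᶜ ∘ₗ pr Q ∘ₗ cut c) v = pr Q v - (1 / 2 : ℂ) • v := by
        rw [LinearMap.sum_apply]
        conv_rhs => rw [← hv0, ← sum_cut hC, map_sum, smul_sum, ← sum_sub_distrib]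
        refine sum_congr rfl fun c hc => ?_
        simp only [LinearMap.comp_apply]
        rw [cut_compl, half hPM (hPg.1 c hc) (s1 c hc) (s2 c hc) (cut_idem _ _)
          ((P.mem_orthogonal _).2 fun y hy => by
            rw [← cut_inner]; exact (P.mem_orthogonal _).1 hv.1.2 _ (hPg.1 c hc y hy))
          ((M.mem_orthogonal _).2 fun y hy => by
            rw [← cut_inner]; exact (M.mem_orthogonal _).1 hv.2 _ (hMg.1 c hc y hy))]
      have e2 := inner_pr_self Q v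
      rw [e, norm_sub_sq (𝕜 := ℂ), inner_smul_right, norm_smul, pr_inner]
      simp only [RCLike.re_to_complex] at e2 ⊢
      have e3 : ((1 / 2 : ℂ) * inner ℂ v (pr Q v)).re = 1 / 2 * (inner ℂ v (pr Q v)).re := by
        simp
      rw [e3, e2]
      norm_num
      nlinarith)
    have h2 := hs_D hC (pr Q)
    have h3 : ∑ c ∈ C, hs (cut cᶜ ∘ₗ pr Q ∘ₗ cut c) = ∑ c ∈ C, cross Q c :=
      sum_congr rfl fun c _ => (b3 Q c).2.2.1.symm
    linarith
  have hμ0 : 0 ≤ μ := by have : (0 : ℝ) ≤ finrank ℂ E₀ := Nat.cast_nonneg _; linarith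
  have d1 : ((un C).card : ℝ) ≤ finrank ℂ E₀ + finrank ℂ P + finrank ℂ M := by
    have h1 := b8 ⊤ (un C)ᶜ
    rw [top_inf_eq, finrank_top, finrank_euclideanSpace] at h1
    have h2 : ((un C).card : ℝ) + ((un C)ᶜ).card = Fintype.card ι := by
      exact_mod_cast card_add_card_compl (un C)
    have h3 := hdim (LinearMap.ker (cut (un C)ᶜ)) P
    have h4 := hdim (LinearMap.ker (cut (un C)ᶜ) ⊓ Pᗮ) M
    linarith
  obtain ⟨F₁, f1, f2, f3⟩ := hSub ι C Q M hC hMg (fun c hc w hw h =>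
    s1 c hc w h ((P.mem_orthogonal _).2 fun y hy => hPM y hy w hw))
  obtain ⟨F₂, k1, k2, k3⟩ := hSub ι C Qᗮ P hC hPg (fun c hc w hw h => by
    have h1 := s2 c hc w h ((M.mem_orthogonal' _).2 fun y hy => hPM w hw y hy)
    have h2 := Submodule.norm_sq_eq_add_norm_sq_starProjection w Q
    rw [pr_apply] at h1 ⊢
    linarith)
  rw [sum_congr rfl fun c _ => (b3 Q c).2.2.2.2.2] at k2
  have hgr : ∀ G : Submodule ℂ (E ι), Gr C G → (∀ x ∈ G, cut (un C)ᶜ x = 0) → Gr C (G.map gs) := by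
    intro G hG h0
    refine ⟨?_, ?_⟩
    · rintro c hc _ ⟨y, hy, rfl⟩
      exact ⟨_, hG.1 c hc y hy, hgs'.1 c hc y⟩
    · rintro _ ⟨y, hy, rfl⟩
      exact of_out (by rw [Blk.out hC hgs', h0 y hy])
  have hF : finrank ℂ ((F₁ ⊓ E₀ᗮ).comap g) = finrank ℂ (F₁ ⊓ E₀ᗮ : Submodule ℂ (E ι)) := by
    rw [← finrank_map_inj hinj, Submodule.map_comap_eq_of_surjective hsurj]
  refine ⟨M.map gs, P.map gs, (F₁ ⊓ E₀ᗮ).comap g, (F₂ ⊓ E₀ᗮ).map gs, hgr M hMg hMo, hgr P hPg hPo,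
    ?_, ?_, ?_, ?_, ?_, ?_, ?_, ?_⟩
  · rintro _ ⟨y, hy, rfl⟩
    refine (Submodule.mem_orthogonal _ _).2 ?_
    rintro _ ⟨x, hx, rfl⟩
    rw [Eig_inner hy, hPM x hx y hy, mul_zero]
  · rw [finrank_map_inj hinj', finrank_map_inj hinj']; linarith
  · intro v hv
    obtain ⟨x, hx, e⟩ := f1 hv.1
    rwa [← hinj e]
  · rintro _ ⟨u, hu, rfl⟩
    refine (K.mem_orthogonal _).2 fun x hx => ?_
    rw [LinearMap.adjoint_inner_right]
    exact (Q.mem_orthogonal _).1 (k1 hu.1) _ ⟨x, hx, rfl⟩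
  · rw [finrank_map_inj hinj', hF]
    have := hdim F₁ E₀
    linarith
  · rw [finrank_map_inj hinj', finrank_map_inj hinj']
    have := hdim F₂ E₀
    linarith
  · intro v hv
    set u := g v with hu
    have hd : u = pr M u + pr P u + cut (un C)ᶜ u := decomp hPM hPo hMo hv.2
    have hk2 : ((κ ^ 2 : ℝ) : ℂ) * ((κ⁻¹ ^ 2 : ℝ) : ℂ) = 1 := by
      rw [← Complex.ofReal_mul, ← mul_pow, mul_inv_cancel₀ hκ0.ne']; simp
    have e : v - ((κ ^ 2 : ℝ) : ℂ) • gs (pr M u) =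
        ((κ⁻¹ ^ 2 : ℝ) : ℂ) • gs (pr P u) + cut (un C)ᶜ u := by
      apply hinj
      rw [map_sub, map_add, map_smul, map_smul, mem_Eig.1 (pr_mem M u), mem_Eig.1 (pr_mem P u),
        smul_smul, smul_smul, hk2, mul_comm, hk2, one_smul, one_smul, hg.2, ← hu]
      conv_lhs => arg 1; rw [hd]
      abel
    have n1 : ‖v - ((κ ^ 2 : ℝ) : ℂ) • gs (pr M u)‖ ≤ ‖u - pr M u‖ := by
      have e' : u - pr M u = pr P u + cut (un C)ᶜ u := by
        conv_lhs => arg 1; rw [hd]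
        abel
      refine (pow_le_pow_iff_left₀ (norm_nonneg _) (norm_nonneg _) two_ne_zero).1 ?_
      rw [e, e', pyth _ _ (by rw [map_smul, Blk.out hC hgs', hPo _ (pr_mem P u), smul_zero]),
        pyth _ _ (hPo _ (pr_mem P u)), norm_smul, Eig_norm hκ0.le (pr_mem P u), Complex.norm_real,
        Real.norm_eq_abs, abs_of_nonneg (by positivity)]
      have : κ⁻¹ ^ 2 * (κ * ‖pr P u‖) = κ⁻¹ * ‖pr P u‖ := by field_simp
      rw [this]
      have h0 := norm_nonneg (pr P u)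
      have : (κ⁻¹ * ‖pr P u‖) ^ 2 ≤ ‖pr P u‖ ^ 2 :=
        pow_le_pow_left₀ (by positivity) (by nlinarith) 2
      linarith
    have n2 : ‖pr M u‖ ^ 2 ≤ ‖v‖ * (κ⁻¹ * ‖pr M u‖) := by
      rw [← Eig_norm hκi0.le (pr_mem M u), ← inner_pr_self, hu, ← LinearMap.adjoint_inner_right]
      exact re_inner_le_norm _ _
    refine fin_bound hκ ((pr_min v ((M.map gs).smul_mem _ (Submodule.mem_map_of_mem (pr_mem M u)))).trans
      (n1.trans (pr_sub_le M u))) (f3 u hv.1) (norm_nonneg _) (norm_nonneg _) ?_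
    calc κ * ‖pr M u‖ ^ 2 ≤ κ * (‖v‖ * (κ⁻¹ * ‖pr M u‖)) := mul_le_mul_of_nonneg_left n2 hκ0.le
      _ = _ := by field_simp
  · rintro _ ⟨u, hu, rfl⟩
    have hd : u = pr M u + pr P u + cut (un C)ᶜ u := decomp hPM hPo hMo hu.2
    have e : gs u - gs (pr P u) = gs (pr M u) + cut (un C)ᶜ u := by
      conv_lhs => arg 1; rw [hd]
      rw [map_add, map_add, hgs'.2]
      abel
    have n1 : ‖gs u - gs (pr P u)‖ ≤ ‖u - pr P u‖ := by
      have e' : u - pr P u = pr M u + cut (un C)ᶜ u := by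
        conv_lhs => arg 1; rw [hd]
        abel
      refine (pow_le_pow_iff_left₀ (norm_nonneg _) (norm_nonneg _) two_ne_zero).1 ?_
      rw [e, e', pyth _ _ (by rw [Blk.out hC hgs', hMo _ (pr_mem M u)]),
        pyth _ _ (hMo _ (pr_mem M u)), Eig_norm hκi0.le (pr_mem M u)]
      have h0 := norm_nonneg (pr M u)
      have : (κ⁻¹ * ‖pr M u‖) ^ 2 ≤ ‖pr M u‖ ^ 2 :=
        pow_le_pow_left₀ (by positivity) (by nlinarith) 2
      linarith
    have n2 : κ ^ 2 * ‖pr P u‖ ^ 2 ≤ ‖gs u‖ * (κ * ‖pr P u‖) := by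
      have h1 := re_inner_le_norm (𝕜 := ℂ) (gs u) (gs (pr P u))
      rw [Eig_inner (pr_mem P u), Eig_norm hκ0.le (pr_mem P u)] at h1
      have h2 := inner_pr_self P u
      simp only [RCLike.re_to_complex] at h1 h2
      rwa [Complex.re_ofReal_mul, h2] at h1
    refine fin_bound hκ ((pr_min _ (⟨_, pr_mem P u, rfl⟩ : gs (pr P u) ∈ P.map gs)).trans
      (n1.trans (pr_sub_le P u))) (k3 u hu.1) (norm_nonneg _) (norm_nonneg _) ?_
    nlinarith

end Crest.Agent.R113
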