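import Crest.Agent.R113.DefsR

set_option autoImplicit false

namespace Crest.Agent.R113

open Finset Crest.AnalysisR.RotationRep

namespace MAIN

lemma norm_dl (y : ℤ × ℤ) : ‖dl y‖ = 1 := by
  unfold dl
  rw [lp.norm_single (by norm_num)]; simp

lemma pyth (p : HH →L[ℂ] HH) (hp : IsStarProjection p) (v : HH) :
    ‖v‖ ^ 2 = ‖p v‖ ^ 2 + ‖(1 - p) v‖ ^ 2 := by
  have h0 : inner ℂ (p v) ((1 - p) v) = 0 := by
    have hsa : ContinuousLinearMap.adjoint p = p := hp.isSelfAdjoint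
    rw [← ContinuousLinearMap.adjoint_inner_right, hsa]
    have : p ((1 - p) v) = 0 := by
      have e : p * (1 - p) = 0 := by rw [mul_sub, mul_one, hp.isIdempotentElem.eq, sub_self]
      have := congrArg (fun A : HH →L[ℂ] HH => A v) e
      simpa using this
    rw [this, inner_zero_right]
  have h1 : v = p v + (1 - p) v := by simp
  have := norm_add_sq_eq_norm_sq_add_norm_sq_of_inner_eq_zero (p v) ((1 - p) v) h0
  rw [← h1] at this
  simpa [sq] using this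

lemma one_sub_mem (S : Set (HH →L[ℂ] HH)) (p : HH →L[ℂ] HH) (hp : p ∈ vonNeumannGenerated S) :
    1 - p ∈ vonNeumannGenerated S := by
  intro x hx
  have := hp x hx
  rw [mul_sub, sub_mul, this, mul_one, one_mul]

lemma far_nonneg {ι : Type} [Fintype ι] [DecidableEq ι] (K : Submodule ℂ (E ι)) (ch : ι → ℕ × ℕ) :
    0 ≤ far K ch := by
  unfold far
  refine Finset.sum_nonneg fun j _ => Finset.sum_nonneg fun k _ => ?_
  split_ifs
  · exact le_rfl
  · unfold ent; positivity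

lemma nonpos_of (x : ℝ) (h : ∀ η : ℝ, 0 < η → η ≤ 1 / 4 → x ≤ 30000 * √η) : x ≤ 0 := by
  by_contra hx
  push Not at hx
  set a := min (x / 60000) (1 / 2) with ha
  have ha0 : 0 < a := lt_min (by positivity) (by norm_num)
  have ha1 : a ≤ 1 / 2 := min_le_right _ _
  have ha2 : a ≤ x / 60000 := min_le_left _ _
  have := h (a ^ 2) (by positivity) (by nlinarith)
  rw [Real.sqrt_sq ha0.le] at this
  linarith

end MAIN

open MAIN in
theorem MAIN_proof (hBas : BasStmt) (hBlk : BlkStmt) (hCore : CoreStmt) (hComm : CommStmt)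
    (hRed : RedStmt) (hEnv : EnvStmt) : MainStmt := by
  intro θ hθ _ _
  obtain ⟨εB, hB⟩ := hBlk
  obtain ⟨f, hf, hf01, hf0, hint, hE⟩ := hEnv θ εB hθ (fun w lam h => (hB w lam h).1)
  refine ⟨f, hf, hf01, hf0, hint, ?_⟩
  intro U V hUV p hp hproj hinv
  have hpy := pyth p hproj (dl 0)
  rw [norm_dl] at hpy
  have hs0 : 0 ≤ ‖p (dl 0)‖ ^ 2 := by positivity
  have hs1 : ‖p (dl 0)‖ ^ 2 ≤ 1 := by nlinarith [sq_nonneg ‖(1 - p) (dl 0)‖]
  have main : ‖p (dl 0)‖ ^ 2 * (1 - ‖p (dl 0)‖ ^ 2) ≤ 0 := by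
    refine nonpos_of _ fun η hη hη4 => ?_
    obtain ⟨w', hw', H1⟩ := hRed θ U V hθ hUV f hf hf01 p hp hproj hinv η hη
    obtain ⟨κb, hκb, H2⟩ := hE η hη w'
    obtain ⟨D₀, H1⟩ := H1 (η / (2 * κb ^ 2)) (by positivity)
    obtain ⟨D, hD, δ, hδ, H2⟩ := H2 D₀
    obtain ⟨N₀, H1⟩ := H1 D hD δ hδ
    obtain ⟨N, hN, H2⟩ := H2 N₀
    obtain ⟨N₀', H1⟩ := H1 N hN
    obtain ⟨N', hN', hNpos, hN'pos, H2⟩ := H2 N₀'
    obtain ⟨K, hK1, hK2, hK3⟩ := H1 N' hN'
    obtain ⟨e, heσ, hef, hech, hOk, hκ, hw, hfl, hfh⟩ := H2 (rho K)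
      (fun j => ⟨((hBas (Ix N' N)).1 K j).1, ((hBas (Ix N' N)).1 K j).2.1⟩)
    haveI : Nonempty (Ix N' N) := ⟨(⟨0, hN'pos⟩, ⟨0, hNpos⟩)⟩
    have hκ0 : 0 ≤ e.κt := by
      have := hOk.kap.1
      unfold Env.κt; positivity
    have hKp : e.Kp K η δ := by
      refine ⟨by rw [heσ, hef]; exact hK1, ?_, hfl, hfh⟩
      rw [hech]
      have h1 := far_nonneg K (chk D : Ix N' N → ℕ × ℕ)
      calc 2 * e.κt ^ 2 * far K (chk D) ≤ 2 * κb ^ 2 * (η / (2 * κb ^ 2) * Fintype.card (Ix N' N)) := by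
            gcongr
        _ = η * Fintype.card (Ix N' N) := by field_simp
    exact hCore (Ix N' N) e K εB η δ _ w' hδ.le hη hη4 hB hOk hKp hs0 hs1 hw' hw
      (by rw [heσ]; exact hK3)
  obtain ⟨-, -, hc⟩ := hComm θ U V hUV
  by_cases h0 : ‖p (dl 0)‖ ^ 2 = 0
  · left
    exact (hc p hp).2 (by simpa using h0)
  · right
    have hpos : 0 < ‖p (dl 0)‖ ^ 2 := lt_of_le_of_ne hs0 (Ne.symm h0)
    have h1 : 1 - ‖p (dl 0)‖ ^ 2 ≤ 0 := by
      by_contra hh
      push Not at hh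
      nlinarith [mul_pos hpos hh]
    have h2 : ‖(1 - p) (dl 0)‖ ^ 2 = 0 := le_antisymm (by nlinarith) (by positivity)
    have h3 := (hc (1 - p) (one_sub_mem _ p hp)).2 (by
      have := pow_eq_zero_iff (two_ne_zero) |>.mp h2
      exact norm_eq_zero.mp this)
    exact (sub_eq_zero.mp h3).symm

end Crest.Agent.R113
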