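import Crest.Agent.R113.DefsL

set_option autoImplicit false

namespace Crest.Agent.R113

open Finset Module

namespace MONO

variable {ι : Type} [Fintype ι] [DecidableEq ι]

lemma inner_ev (j : ι) (v : E ι) : inner ℂ (ev j) v = v j := by
  unfold ev
  rw [EuclideanSpace.inner_single_left]; simp

lemma key (K K' : Submodule ℂ (E ι)) (j : ι)
    (h : ∀ v ∈ K, ∃ v' ∈ K', v' j = v j ∧ ‖v'‖ ≤ ‖v‖) : rho K j ≤ rho K' j := by
  set v := pr K (ev j) with hv
  have hvK : v ∈ K := by rw [hv, pr_apply]; exact K.starProjection_apply_mem _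
  obtain ⟨v', hv'K, hj, hn⟩ := h v hvK
  have h1 : inner ℂ (ev j) v = ((‖v‖ ^ 2 : ℝ) : ℂ) := by
    have : inner ℂ (ev j) v = inner ℂ v v := by
      conv_lhs => rw [← (Submodule.starProjection_eq_self_iff.mpr hvK : K.starProjection v = v)]
      rw [← Submodule.inner_starProjection_left_eq_right]
      rfl
    rw [this, inner_self_eq_norm_sq_to_K]; simp
  have h2 : inner ℂ (ev j) v' = inner ℂ (pr K' (ev j)) v' := by
    conv_lhs => rw [← (Submodule.starProjection_eq_self_iff.mpr hv'K : K'.starProjection v' = v')]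
    rw [← Submodule.inner_starProjection_left_eq_right]
    rfl
  have h3 : ‖v‖ ^ 2 ≤ ‖pr K' (ev j)‖ * ‖v‖ := by
    have e1 : ((‖v‖ ^ 2 : ℝ) : ℂ) = inner ℂ (pr K' (ev j)) v' := by
      rw [← h1, ← h2, inner_ev, inner_ev, hj]
    have e2 : ‖v‖ ^ 2 = ‖inner ℂ (pr K' (ev j)) v'‖ := by
      rw [← e1, Complex.norm_real, Real.norm_of_nonneg (by positivity)]
    rw [e2]
    exact (norm_inner_le_norm _ _).trans (by gcongr)
  have h4 : ‖v‖ ≤ ‖pr K' (ev j)‖ := by
    by_cases h0 : ‖v‖ = 0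
    · rw [h0]; exact norm_nonneg _
    · have hp : 0 < ‖v‖ := lt_of_le_of_ne (norm_nonneg _) (Ne.symm h0)
      nlinarith
  unfold rho
  rw [← hv]
  gcongr

lemma norm_sq_split (Y : Finset ι) (v : E ι) : ‖v‖ ^ 2 = ‖cut Y v‖ ^ 2 + ‖cut Yᶜ v‖ ^ 2 := by
  simp only [EuclideanSpace.norm_sq_eq, cut_apply, ← Finset.sum_add_distrib]
  refine Finset.sum_congr rfl fun i _ => ?_
  by_cases h : i ∈ Y <;> simp [h]

lemma cut_add_cut (Y : Finset ι) (v : E ι) : cut Y v + cut Yᶜ v = v := by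
  ext i; by_cases h : i ∈ Y <;> simp [h]

lemma cut_cut (Y : Finset ι) (v : E ι) : cut Y (cut Y v) = cut Y v := by
  ext i; by_cases h : i ∈ Y <;> simp [h]

lemma cut_cut_compl (Y : Finset ι) (v : E ι) : cut Y (cut Yᶜ v) = 0 := by
  ext i; by_cases h : i ∈ Y <;> simp [h]

lemma cut_compl_cut (Y : Finset ι) (v : E ι) : cut Yᶜ (cut Y v) = 0 := by
  ext i; by_cases h : i ∈ Y <;> simp [h]

lemma cm_compl {g : E ι →ₗ[ℂ] E ι} {Y : Finset ι} (h : Cm g Y) : Cm g Yᶜ := by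
  intro v
  have h1 : cut Yᶜ v = v - cut Y v := by rw [eq_sub_iff_add_eq, add_comm, cut_add_cut]
  have h2 : cut Yᶜ (g v) = g v - cut Y (g v) := by rw [eq_sub_iff_add_eq, add_comm, cut_add_cut]
  rw [h1, h2, map_sub, h v]

end MONO

open MONO in
theorem MONO_proof (hBas : BasStmt) : MonoStmt := by
  intro ι _ _ K g Y c hc _ hCm hlo hhi
  have hCm' := cm_compl hCm
  have hsum := (hBas ι).2.1
  set h : E ι →ₗ[ℂ] E ι := cut Y + ((c⁻¹ : ℝ) : ℂ) • (g ∘ₗ cut Yᶜ) with hh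
  have happ : ∀ v, h v = cut Y v + ((c⁻¹ : ℝ) : ℂ) • cut Yᶜ (g v) := by
    intro v; simp only [hh, LinearMap.add_apply, LinearMap.smul_apply, LinearMap.comp_apply, hCm' v]
  have hY : ∀ v, cut Y (h v) = cut Y v := by
    intro v; rw [happ, map_add, map_smul, cut_cut, cut_cut_compl, smul_zero, add_zero]
  have hYc : ∀ v, cut Yᶜ (h v) = ((c⁻¹ : ℝ) : ℂ) • cut Yᶜ (g v) := by
    intro v; rw [happ, map_add, map_smul, cut_cut, cut_compl_cut, zero_add]
  have hns : ∀ x : E ι, ‖((c⁻¹ : ℝ) : ℂ) • x‖ = c⁻¹ * ‖x‖ := by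
    intro x; rw [norm_smul, Complex.norm_real, Real.norm_of_nonneg (by positivity)]
  have hlow : ∀ v, ‖v‖ ≤ ‖h v‖ := by
    intro v
    have e1 := norm_sq_split Y v
    have e2 := norm_sq_split Y (h v)
    rw [hY, hYc, hns, ← hCm' v] at e2
    have e3 : ‖cut Yᶜ v‖ ≤ c⁻¹ * ‖g (cut Yᶜ v)‖ := by
      rw [le_inv_mul_iff₀ hc]; exact hhi v
    have e4 : ‖cut Yᶜ v‖ ^ 2 ≤ (c⁻¹ * ‖g (cut Yᶜ v)‖) ^ 2 := by gcongr
    exact (pow_le_pow_iff_left₀ (norm_nonneg _) (norm_nonneg _) two_ne_zero).mp (by linarith)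
  have hinj : Function.Injective h := by
    rw [injective_iff_map_eq_zero]
    intro v hv
    have := hlow v
    rw [hv, norm_zero] at this
    exact norm_le_zero_iff.mp this
  have s1 : ∀ j ∈ Y, rho (K.map h) j ≤ rho K j := by
    intro j hj
    refine key _ _ j ?_
    rintro _ ⟨v, hv, rfl⟩
    refine ⟨v, hv, ?_, hlow v⟩
    have := congrArg (fun x : E ι => x j) (hY v)
    simpa [hj] using this.symm
  have s2 : ∀ j ∈ Yᶜ, rho (K.map h) j ≤ rho (K.map g) j := by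
    intro j hj
    refine key _ _ j ?_
    rintro _ ⟨v, hv, rfl⟩
    refine ⟨((c⁻¹ : ℝ) : ℂ) • g v, Submodule.smul_mem _ _ (Submodule.mem_map_of_mem hv), ?_, ?_⟩
    · have := congrArg (fun x : E ι => x j) (hYc v)
      have hj' : j ∉ Y := by simpa using hj
      simpa [hj'] using this.symm
    · have e1 := norm_sq_split Y (((c⁻¹ : ℝ) : ℂ) • g v)
      have e2 := norm_sq_split Y (h v)
      rw [hY, hYc] at e2
      rw [map_smul, map_smul, hns (cut Y _), ← hCm v] at e1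
      have e3 : c⁻¹ * ‖g (cut Y v)‖ ≤ ‖cut Y v‖ := by
        rw [inv_mul_le_iff₀ hc]; exact hlo v
      have e4 : (c⁻¹ * ‖g (cut Y v)‖) ^ 2 ≤ ‖cut Y v‖ ^ 2 := by gcongr
      exact (pow_le_pow_iff_left₀ (norm_nonneg _) (norm_nonneg _) two_ne_zero).mp (by linarith)
  have d1 : finrank ℂ (K.map h) = finrank ℂ K :=
    (Submodule.equivMapOfInjective h hinj K).finrank_eq.symm
  have d2 : finrank ℂ (K.map g) ≤ finrank ℂ K := Submodule.finrank_map_le g K
  have d3 : (finrank ℂ (K.map g) : ℝ) ≤ finrank ℂ (K.map h) := by rw [d1]; exact_mod_cast d2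
  have t1 := hsum (K.map h)
  have t2 := hsum (K.map g)
  rw [← Finset.sum_add_sum_compl Y] at t1 t2
  have u1 := Finset.sum_le_sum s1
  have u2 := Finset.sum_le_sum s2
  unfold mass
  linarith

end Crest.Agent.R113
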