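import Crest.Agent.R113.DefsL

/-! Row 113, task PIV: pivots. -/

set_option autoImplicit false

namespace Crest.Agent.R113

open Finset Module

namespace PIV

theorem mass_le (hBas : BasStmt) {w : ℕ} (G : Submodule ℂ (E (Fin w))) (X Y : Finset (Fin w))
    (h : ∀ v ∈ G, (∀ j ∈ X, v j = 0) → ∀ j ∈ Y, v j = 0) : mass G Y ≤ X.card := by
  obtain ⟨-, h2, h3, h4, -, -, -, h8, -⟩ := hBas (Fin w)
  have e1 := h8 G X
  have e2 := (h4 (pr G ∘ₗ cut Yᶜ)).2.2.2 (G ⊓ LinearMap.ker (cut X)) 1 (by
    intro v hv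
    have h1 : cut Yᶜ v = v := by
      ext i
      rw [cut_apply]
      split_ifs with hi
      · rfl
      · refine (h v hv.1 (fun j hj => ?_) i (by simpa using hi)).symm
        have := congrArg (fun u : E (Fin w) => u j) (LinearMap.mem_ker.1 hv.2)
        simpa [hj] using this
    rw [LinearMap.comp_apply, h1, pr_apply, Submodule.starProjection_eq_self_iff.2 hv.1, one_mul])
  rw [← (h3 G Yᶜ).1, one_mul] at e2
  have e3 : mass G Y + mass G Yᶜ = finrank ℂ G := by
    rw [← h2 G, mass, mass, sum_add_sum_compl]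
  linarith

theorem mass_nonneg {w : ℕ} (G : Submodule ℂ (E (Fin w))) (Y : Finset (Fin w)) : 0 ≤ mass G Y :=
  sum_nonneg fun _ _ => sq_nonneg _

theorem first {w : ℕ} (v : E (Fin w)) {j : Fin w} (hj : v j ≠ 0) :
    ∃ i, i ≤ j ∧ v i ≠ 0 ∧ ∀ l < i, v l = 0 := by
  obtain ⟨i, hi, hm⟩ := exists_min_image (univ.filter fun i => v i ≠ 0) id ⟨j, by simpa using hj⟩
  refine ⟨i, hm j (by simpa using hj), by simpa using hi, fun l hl => ?_⟩
  by_contra h
  exact absurd (hm l (by simpa using h)) (not_le.2 hl)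

theorem last {w : ℕ} (v : E (Fin w)) {j : Fin w} (hj : v j ≠ 0) :
    ∃ i, j ≤ i ∧ v i ≠ 0 ∧ ∀ l, i < l → v l = 0 := by
  obtain ⟨i, hi, hm⟩ := exists_max_image (univ.filter fun i => v i ≠ 0) id ⟨j, by simpa using hj⟩
  refine ⟨i, hm j (by simpa using hj), by simpa using hi, fun l hl => ?_⟩
  by_contra h
  exact absurd (hm l (by simpa using h)) (not_le.2 hl)

theorem card_le {w : ℕ} (G : Submodule ℂ (E (Fin w))) (I : Finset (Fin w))
    (hI : ∀ j ∈ I, ∃ v ∈ G, v j ≠ 0 ∧ ∀ l < j, v l = 0) : I.card ≤ finrank ℂ G := by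
  classical
  choose! v hv using hI
  have hli : LinearIndependent ℂ (fun j : I => (⟨v j, (hv j j.2).1⟩ : G)) := by
    rw [Fintype.linearIndependent_iff]
    intro g hg
    by_contra hne
    push Not at hne
    obtain ⟨i, hi, hm⟩ := exists_min_image (univ.filter fun i => g i ≠ 0) (fun i => i.1)
      (by obtain ⟨i, hi⟩ := hne; exact ⟨i, by simpa using hi⟩)
    have h1 := congrArg (fun u : G => (u : E (Fin w)) i.1) hg
    simp only [Submodule.coe_sum, Submodule.coe_smul, WithLp.ofLp_sum, WithLp.ofLp_smul,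
      Finset.sum_apply, Pi.smul_apply, smul_eq_mul, ZeroMemClass.coe_zero, WithLp.ofLp_zero,
      Pi.zero_apply] at h1
    rw [sum_eq_single i] at h1
    · exact mul_ne_zero (by simpa using hi) (hv i i.2).2.1 h1
    · intro b _ hb
      by_cases hgb : g b = 0
      · rw [hgb, zero_mul]
      · have h2 := hm b (by simpa using hgb)
        rw [(hv b b.2).2.2 i (lt_of_le_of_ne h2 fun h => hb (Subtype.ext h.symm)), mul_zero]
    · simp
  simpa using hli.fintype_card_le_finrank

theorem count {w : ℕ} (I I' : Finset (Fin w)) :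
    (I ∩ hd w).card * (I' ∩ (hd w)ᶜ).card ≤
      ∑ n ∈ range w, (I.filter fun j => ∃ k ∈ I', k.val = j.val + n).card := by
  rw [← card_product, ← card_sigma]
  refine card_le_card_of_injOn (fun p => (⟨p.2.val - p.1.val, p.1⟩ : Σ _ : ℕ, Fin w)) ?_ ?_
  · rintro ⟨j, k⟩ hp
    simp only [coe_product, Set.mem_prod, mem_coe, mem_inter, hd, mem_filter, mem_univ, true_and,
      mem_compl, not_lt] at hp
    simp only [coe_sigma, Set.mem_sigma_iff, mem_coe, mem_range, mem_filter]
    exact ⟨by omega, hp.1.1, k, hp.2.1, by omega⟩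
  · rintro ⟨j, k⟩ hp ⟨j', k'⟩ hp' h
    simp only [coe_product, Set.mem_prod, mem_coe, mem_inter, hd, mem_filter, mem_univ, true_and,
      mem_compl, not_lt] at hp hp'
    simp only [Sigma.mk.injEq, heq_eq_eq] at h
    obtain ⟨h1, rfl⟩ := h
    exact Prod.ext rfl (Fin.ext (by simp only; omega))

end PIV

open PIV in
theorem PIV_proof (hBas : BasStmt) : PivStmt := by
  classical
  intro w G G' a ha
  set I : Finset (Fin w) := univ.filter fun j => ∃ v ∈ G, v j ≠ 0 ∧ ∀ l < j, v l = 0 with hI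
  set I' : Finset (Fin w) := univ.filter fun j => ∃ v ∈ G', v j ≠ 0 ∧ ∀ l, j < l → v l = 0 with hI'
  set S : ℕ → Finset (Fin w) := fun n => I.filter fun j => ∃ k ∈ I', k.val = j.val + n with hS
  refine ⟨fun n => G ⊓ LinearMap.ker (cut (I \ S n)), fun n v hv h0 => ?_, ?_⟩
  · by_contra hne
    obtain ⟨j₀, hj₀⟩ : ∃ j, v j ≠ 0 := by
      by_contra h
      push Not at h
      exact hne (by ext j; simpa using h j)
    obtain ⟨j, -, hj, hlt⟩ := first v hj₀
    have hjI : j ∈ I := mem_filter.2 ⟨mem_univ _, v, hv.1, hj, hlt⟩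
    have hjS : j ∈ S n := by
      by_contra h
      have := congrArg (fun u : E (Fin w) => u j) (LinearMap.mem_ker.1 hv.2)
      simp only [cut_apply, mem_sdiff, hjI, h, not_false_eq_true, and_self, if_true] at this
      exact hj (by simpa using this)
    obtain ⟨k, hk, hkj⟩ := (mem_filter.1 hjS).2
    obtain ⟨u, hu, huk, hgt⟩ := (mem_filter.1 hk).2
    rw [pr_apply G, Submodule.starProjection_eq_self_iff.2 hv.1, pr_apply,
      Submodule.starProjection_apply_eq_zero_iff] at h0
    have h1 := (Submodule.mem_orthogonal _ _).1 h0 u hu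
    rw [PiLp.inner_apply, sum_eq_single k] at h1
    · rw [ts_apply, dif_pos (by omega), inner_eq_zero_symm] at h1
      have h2 : (⟨k.val - n, by omega⟩ : Fin w) = j := Fin.ext (by simp only; omega)
      have h3 : (0 : ℝ) < ∏ i ∈ range n, a (k.val - n + i) :=
        prod_pos fun i hi => ha _ (by have := mem_range.1 hi; omega)
      rw [h2, RCLike.inner_apply] at h1
      refine mul_ne_zero huk ?_ h1
      rw [map_ne_zero]
      exact mul_ne_zero (by exact_mod_cast h3.ne') hj
    · intro l _ hl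
      rcases lt_or_gt_of_ne hl with h | h
      · rw [ts_apply]
        split_ifs with hn
        · rw [hlt ⟨l.val - n, by omega⟩ (by rw [Fin.lt_def] at h ⊢; simp only; omega), mul_zero,
            inner_zero_right]
        · rw [inner_zero_right]
      · rw [hgt l h, inner_zero_left]
    · simp
  · have m1 := mass_le hBas G (I ∩ hd w) (hd w) (fun v hv h j hj => by
      by_contra hne
      obtain ⟨i, hi, h1, h2⟩ := first v hne
      refine h1 (h i (mem_inter.2 ⟨mem_filter.2 ⟨mem_univ _, v, hv, h1, h2⟩, ?_⟩))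
      simp only [hd, mem_filter, mem_univ, true_and] at hj ⊢
      exact lt_of_le_of_lt hi hj)
    have m2 := mass_le hBas G' (I' ∩ (hd w)ᶜ) (hd w)ᶜ (fun v hv h j hj => by
      by_contra hne
      obtain ⟨i, hi, h1, h2⟩ := last v hne
      refine h1 (h i (mem_inter.2 ⟨mem_filter.2 ⟨mem_univ _, v, hv, h1, h2⟩, ?_⟩))
      simp only [hd, mem_compl, mem_filter, mem_univ, true_and, not_lt] at hj ⊢
      exact le_trans hj hi)
    have m3 : ((I ∩ hd w).card * (I' ∩ (hd w)ᶜ).card : ℝ) ≤ ∑ n ∈ range w, ((S n).card : ℝ) := by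
      exact_mod_cast count I I'
    have m4 : (I.card : ℝ) ≤ finrank ℂ G := by
      exact_mod_cast card_le G I fun j hj => (mem_filter.1 hj).2
    refine (mul_le_mul m1 m2 (mass_nonneg _ _) (by positivity)).trans (m3.trans
      (sum_le_sum fun n _ => ?_))
    have m5 := (hBas (Fin w)).2.2.2.2.2.2.2.1 G (I \ S n)
    have m6 : ((I \ S n).card : ℝ) + (S n).card = I.card := by
      exact_mod_cast card_sdiff_add_card_eq_card (filter_subset _ _)
    linarith

end Crest.Agent.R113
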