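import Crest.Agent.R113.DefsR

set_option autoImplicit false

namespace Crest.Agent.R113

open Finset Crest.AnalysisR.RotationRep

namespace RED

lemma norm_ee (x : ℝ) : ‖ee x‖ = 1 := by
  unfold ee
  rw [show 2 * (Real.pi : ℂ) * Complex.I * x = ((2 * Real.pi * x : ℝ) : ℂ) * Complex.I by
    push_cast; ring]
  exact Complex.norm_exp_ofReal_mul_I _

lemma orth (hDft : DftStmt) (N' N : ℕ) (h : 0 < N') : Orthonormal ℂ (epx : Ix N' N → HH) := by
  rw [orthonormal_iff_ite]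
  intro i j
  unfold epx
  rw [(hDft N' h).1 _ _ _ i.1.isLt _ j.1.isLt]
  congr 1
  apply propext
  constructor
  · rintro ⟨h1, h2⟩
    exact Prod.ext (Fin.ext h2) (Fin.ext (by exact_mod_cast h1))
  · rintro rfl
    exact ⟨rfl, rfl⟩

lemma sg_step (N' N : ℕ) (j : Ix N' N) (hj : j.2.val + 1 < N) :
    epx (sg N' N j) = ep N' ((j.2.val : ℤ) + 1) j.1.val := by
  obtain ⟨n, rfl⟩ : ∃ n, N = n + 1 := ⟨N - 1, by omega⟩
  have h1 : j.2 ≠ Fin.last n := by
    intro h
    rw [h, Fin.val_last] at hj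
    omega
  have h2 : ((sg N' (n + 1) j).2.val : ℕ) = j.2.val + 1 := coe_finRotate_of_ne_last h1
  unfold epx
  rw [h2]
  rfl

lemma erg_move {ι : Type} [Fintype ι] (σ : Equiv.Perm ι) (ρ ρ' : ι → ℝ) (w' : ℕ) (hw : 0 < w')
    (s η : ℝ) (hη : 0 < η) (h1 : Erg σ ρ' w' s (η / 2))
    (h2 : ∑ j, (ρ j - ρ' j) ^ 2 ≤ (η / 2) ^ 2 * Fintype.card ι) : Erg σ ρ w' s η := by
  unfold Erg at *
  have hw' : (0 : ℝ) < w' := by exact_mod_cast hw
  have h3 : ∑ j, |ρ j - ρ' j| ≤ η / 2 * Fintype.card ι := by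
    have h4 := sq_sum_le_card_mul_sum_sq (s := (univ : Finset ι)) (f := fun j => |ρ j - ρ' j|)
    simp only [sq_abs, Finset.card_univ] at h4
    refine (pow_le_pow_iff_left₀ (Finset.sum_nonneg fun _ _ => abs_nonneg _) (by positivity)
      two_ne_zero).1 (h4.trans ?_)
    have := mul_le_mul_of_nonneg_left h2 (Nat.cast_nonneg (α := ℝ) (Fintype.card ι))
    nlinarith
  have h5 : ∀ j, |(∑ n ∈ range w', ρ ((σ ^ n) j)) / w' - s| ≤
      |(∑ n ∈ range w', ρ' ((σ ^ n) j)) / w' - s| +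
        (∑ n ∈ range w', |ρ ((σ ^ n) j) - ρ' ((σ ^ n) j)|) / w' := by
    intro j
    have h6 : (∑ n ∈ range w', ρ ((σ ^ n) j)) / w' - s =
        ((∑ n ∈ range w', ρ' ((σ ^ n) j)) / w' - s) +
          (∑ n ∈ range w', (ρ ((σ ^ n) j) - ρ' ((σ ^ n) j))) / w' := by
      rw [Finset.sum_sub_distrib]; ring
    rw [h6]
    refine (abs_add_le _ _).trans (add_le_add le_rfl ?_)
    rw [abs_div, abs_of_pos hw']
    exact div_le_div_of_nonneg_right (Finset.abs_sum_le_sum_abs _ _) hw'.le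
  refine (Finset.sum_le_sum fun j _ => h5 j).trans ?_
  rw [Finset.sum_add_distrib, ← Finset.sum_div, Finset.sum_comm]
  have h7 : ∀ n ∈ range w', ∑ j, |ρ ((σ ^ n) j) - ρ' ((σ ^ n) j)| = ∑ j, |ρ j - ρ' j| :=
    fun n _ => Equiv.sum_comp (σ ^ n) (fun j => |ρ j - ρ' j|)
  rw [Finset.sum_congr rfl h7, Finset.sum_const, Finset.card_range, nsmul_eq_mul,
    mul_div_cancel_left₀ _ hw'.ne']
  linarith

lemma sum_last (N' N : ℕ) :
    ∑ j : Ix N' N, (if j.2.val + 1 < N then (0 : ℝ) else 4) ≤ 4 * N' := by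
  rw [Fintype.sum_prod_type]
  have h : ∑ b : Fin N, (if b.val + 1 < N then (0 : ℝ) else 4) ≤ 4 := by
    cases N with
    | zero => simp
    | succ n =>
      rw [Fin.sum_univ_castSucc]
      have : ∑ i : Fin n, (if (Fin.castSucc i).val + 1 < n + 1 then (0 : ℝ) else 4) = 0 :=
        Finset.sum_eq_zero fun i _ => if_pos (by simp)
      rw [this]
      simp
  refine (Finset.sum_le_sum fun a _ => h).trans ?_
  simp [mul_comm]

end RED

open RED in
theorem RED_proof (_hBas : BasStmt) (hComm : CommStmt) (hDft : DftStmt) (hApe : ApeStmt)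
    (hRnd : RndStmt) (hDlt : DltStmt) (hErg : ErgStmt) : RedStmt := by
  intro θ U V hθ hUV f hf hf01 p hp hps hinv η hη
  obtain ⟨hU, hV, -⟩ := hComm θ U V hUV
  obtain ⟨hn1, hap⟩ := hApe V hV f hf
  have hfabs : ∀ z : ℂ, ‖z‖ = 1 → |f z| ≤ 1 := fun z hz => by
    rw [abs_of_nonneg (hf01 z hz).1]; exact (hf01 z hz).2
  have hF1 := hn1 hfabs
  set F : HH →L[ℂ] HH := cfc (fun z : ℂ => (f z : ℂ)) V with hF
  have hT1 : ‖U * F‖ ≤ 1 := by rw [CStarRing.norm_mem_unitary_mul F hU]; exact hF1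
  obtain ⟨w', hw', Ne, hNe⟩ := hErg θ U V hθ hUV p hp hps (η / 2) (by positivity)
  refine ⟨w', hw', fun η' hη' => ?_⟩
  obtain ⟨D₀, hD₀⟩ := hDlt θ U V hUV p hp hps (η' / 4) (by positivity)
  refine ⟨D₀, fun D hD δ hδ => ?_⟩
  set η₂ : ℝ := min (δ / 72) ((η / 2) ^ 2) with hη₂
  have hη₂0 : 0 < η₂ := lt_min (by positivity) (by positivity)
  obtain ⟨D₁, hD₁⟩ := hDlt θ U V hUV p hp hps η₂ hη₂0
  obtain ⟨C, hC0, hC⟩ := hap (δ / 8) (by positivity)
  obtain ⟨M₁, hM₁⟩ := exists_nat_ge (32 / δ)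
  obtain ⟨M₂, hM₂⟩ := exists_nat_ge (32 * C / δ)
  refine ⟨max (max Ne D) (max D₁ (M₁ + 1)), fun N hN => ?_⟩
  have hN1 : Ne ≤ N := le_trans (le_trans (le_max_left _ _) (le_max_left _ _)) hN
  have hN2 : D ≤ N := le_trans (le_trans (le_max_right _ _) (le_max_left _ _)) hN
  have hN3 : D₁ ≤ N := le_trans (le_trans (le_max_left _ _) (le_max_right _ _)) hN
  have hN4 : M₁ + 1 ≤ N := le_trans (le_trans (le_max_right _ _) (le_max_right _ _)) hN
  obtain ⟨A₁, hA₁⟩ := hNe N hN1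
  obtain ⟨A₂, hA₂⟩ := hD₀ D hD N hN2
  obtain ⟨A₃, hA₃⟩ := hD₁ N hN3 N le_rfl
  refine ⟨max (max A₁ A₂) (max A₃ (M₂ + 1)), fun N' hN' => ?_⟩
  have hM1 : A₁ ≤ N' := le_trans (le_trans (le_max_left _ _) (le_max_left _ _)) hN'
  have hM2 : A₂ ≤ N' := le_trans (le_trans (le_max_right _ _) (le_max_left _ _)) hN'
  have hM3 : A₃ ≤ N' := le_trans (le_trans (le_max_left _ _) (le_max_right _ _)) hN'
  have hM4 : M₂ + 1 ≤ N' := le_trans (le_trans (le_max_right _ _) (le_max_right _ _)) hN'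
  have hN'0 : 0 < N' := by omega
  have hN'r : (0 : ℝ) < N' := by exact_mod_cast hN'0
  have hNr : (0 : ℝ) < N := by exact_mod_cast (show 0 < N by omega)
  have horth := orth hDft N' N hN'0
  obtain ⟨K, hK1, hK2, hK3⟩ := hRnd (Ix N' N) epx p horth hps
  have hcard : (Fintype.card (Ix N' N) : ℝ) = N' * N := by simp
  have e1 := hA₁ N' hM1
  have e2 := hA₂ N' hM2
  have e3 := hA₃ N' hM3
  have hc0 : (0 : ℝ) ≤ Fintype.card (Ix N' N) := Nat.cast_nonneg _
  refine ⟨K, ?_, ?_, ?_⟩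
  · have h1 := hK3 (chk N) (U * F) (sg N' N) (fun j => f (ee (pos θ j))) hT1
      (fun j => hfabs _ (norm_ee _)) hinv
    have h2 : ∀ j : Ix N' N, ‖(U * F) (epx j) - (f (ee (pos θ j)) : ℂ) • epx (sg N' N j)‖ ^ 2 ≤
        (δ / 8 + C * (4 / N')) + (if j.2.val + 1 < N then (0 : ℝ) else 4) := by
      intro j
      have hpos : 0 ≤ δ / 8 + C * (4 / N') := by positivity
      split_ifs with hj
      · obtain ⟨hUe, hVe⟩ := (hDft N' hN'0).2.2 θ U V hUV (j.2.val : ℤ) j.1.val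
        rw [sg_step N' N j hj, ← hUe, add_zero]
        have h3 : (U * F) (epx j) - (f (ee (pos θ j)) : ℂ) • U (ep N' (j.2.val : ℤ) j.1.val) =
            U (F (epx j) - (f (ee (pos θ j)) : ℂ) • epx j) := by
          rw [map_sub, map_smul]; rfl
        rw [h3, ContinuousLinearMap.norm_map_of_mem_unitary hU]
        refine (hC _ _ (norm_ee _)).trans ?_
        rw [horth.1 j, one_pow, mul_one]
        refine add_le_add le_rfl (mul_le_mul_of_nonneg_left ?_ hC0)
        simpa [pos, epx] using hVe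
      · have h4 : ‖(U * F) (epx j)‖ ≤ 1 := by
          refine ((U * F).le_opNorm _).trans ?_
          rw [horth.1 j, mul_one]; exact hT1
        have h5 : ‖(f (ee (pos θ j)) : ℂ) • (epx (sg N' N j) : HH)‖ ≤ 1 := by
          rw [norm_smul, horth.1, mul_one, Complex.norm_real, Real.norm_eq_abs]
          exact hfabs _ (norm_ee _)
        have h6 := norm_sub_le ((U * F) (epx j)) ((f (ee (pos θ j)) : ℂ) • (epx (sg N' N j) : HH))
        have h7 := pow_le_pow_left₀ (norm_nonneg _) (h6.trans (add_le_add h4 h5)) 2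
        linarith
    have h3 := Finset.sum_le_sum fun j (_ : j ∈ (univ : Finset (Ix N' N))) => h2 j
    rw [Finset.sum_add_distrib, Finset.sum_const, Finset.card_univ, nsmul_eq_mul] at h3
    have h4 := sum_last N' N
    have h5 : η₂ ≤ δ / 72 := min_le_left _ _
    have h6 : C * (4 / N') ≤ δ / 8 := by
      rw [div_le_iff₀ hδ] at hM₂
      have : (M₂ : ℝ) ≤ N' := by exact_mod_cast (show M₂ ≤ N' by omega)
      rw [← mul_div_assoc, div_le_iff₀ hN'r]
      nlinarith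
    have h7 : (4 : ℝ) * N' ≤ δ / 8 * Fintype.card (Ix N' N) := by
      rw [div_le_iff₀ hδ] at hM₁
      have : (M₁ : ℝ) ≤ N := by exact_mod_cast (show M₁ ≤ N by omega)
      have h8 : 32 ≤ δ * N := by nlinarith
      rw [hcard]
      nlinarith
    have h8 := mul_le_mul_of_nonneg_right h5 hc0
    have h9 := mul_le_mul_of_nonneg_right h6 hc0
    nlinarith
  · have := hK1 (chk D)
    linarith
  · refine erg_move _ _ _ w' hw' _ η hη e1 ((hK2 (chk N)).trans (e3.trans ?_))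
    exact mul_le_mul_of_nonneg_right (min_le_right _ _) hc0

end Crest.Agent.R113
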