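import Crest.Agent.R113.DefsL
import Crest.Prelude.Def_RotationRep

/-!
Row 113 (S0149), part R: from a projection of the rotation algebra to finite matrices.
-/

set_option autoImplicit false

namespace Crest.Agent.R113

open Finset Crest.AnalysisR.RotationRep

/-- the Hilbert space -/
abbrev HH : Type := lp (fun _ : ℤ × ℤ => ℂ) 2

/-- basis vector -/
noncomputable def dl (y : ℤ × ℤ) : HH := lp.single 2 y (1 : ℂ)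

/-- `e^{2πix}` -/
noncomputable def ee (x : ℝ) : ℂ := Complex.exp (2 * Real.pi * Complex.I * x)

/-- approximate eigenvectors of `V` -/
noncomputable def ep (N' : ℕ) (a : ℤ) (k : ℕ) : HH :=
  ((√N' : ℝ) : ℂ)⁻¹ • ∑ b ∈ range N', ee (-(k * b / N')) • dl (a, b)

/-- the index set: `N'` orbit segments of length `N` -/
abbrev Ix (N' N : ℕ) : Type := Fin N' × Fin N

/-- the cyclic shift along the segments -/
def sg (N' N : ℕ) : Equiv.Perm (Ix N' N) := Equiv.prodCongr (Equiv.refl _) (finRotate N)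

/-- the point of the circle -/
noncomputable def pos (θ : ℝ) {N' N : ℕ} (j : Ix N' N) : ℝ := (j.1.val : ℝ) / N' + θ * j.2.val

/-- chunks of length `D` -/
def chk (D : ℕ) {N' N : ℕ} (j : Ix N' N) : ℕ × ℕ := (j.1.val, j.2.val / D)

/-- the orthonormal family -/
noncomputable def epx {N' N : ℕ} (j : Ix N' N) : HH := ep N' j.2.val j.1.val

/-- mass of `p` that leaves the chunks -/
noncomputable def Dlt {ι : Type} [Fintype ι] (p : HH →L[ℂ] HH) (ε : ι → HH) (ch : ι → ℕ × ℕ) : ℝ :=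
  ∑ j, (‖p (ε j)‖ ^ 2 - ∑ k, if ch k = ch j then ‖inner ℂ (ε k) (p (ε j))‖ ^ 2 else 0)

/-- `p'` is a polynomial in `U, V` -/
def Pol (θ : ℝ) (S : Finset (ℤ × ℤ)) (c : ℤ × ℤ → ℂ) (p' : HH →L[ℂ] HH) : Prop :=
  ∀ a b : ℤ, p' (dl (a, b)) = ∑ y ∈ S, (c y * ee (θ * a * y.2)) • dl (a + y.1, b + y.2)

/-- **COMM**. `dl` is a Hilbert basis. For a permutation `π` of `ℤ × ℤ` and phases `φ` of modulus one
there is a unitary with `dl y ↦ φ y • dl (π y)` (a new Hilbert basis; or `lp` by hand); bounded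
operators that agree on all `dl y` are equal. So `U, V` are unitary, and the unitaries
`A : dl (a,b) ↦ ee (θ b) • dl (a+1,b)`, `B : dl (a,b) ↦ dl (a,b+1)` commute with `U, V` and their
adjoints, hence with every `e` of the von Neumann algebra. -/
def CommStmt : Prop :=
  ∀ (θ : ℝ) (U V : HH →L[ℂ] HH), IsRotationPair θ U V →
    U ∈ unitary (HH →L[ℂ] HH) ∧ V ∈ unitary (HH →L[ℂ] HH) ∧
    ∀ e ∈ vonNeumannGenerated {U, V}, (∀ y, ‖e (dl y)‖ = ‖e (dl 0)‖) ∧ (e (dl 0) = 0 → e = 0)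

/-- **POLY** (uses COMM). `c y = (p (dl 0)) y`, `S` a finite set carrying most of the norm,
`p' = ∑ c y • U^y.1 V^y.2` (powers of `star U`, `star V` for negative exponents); a centralizer is
closed under sums, products, scalars, and contains `U, V, star U, star V`. -/
def PolyStmt : Prop :=
  ∀ (θ : ℝ) (U V : HH →L[ℂ] HH), IsRotationPair θ U V → ∀ p ∈ vonNeumannGenerated {U, V},
    ∀ η : ℝ, 0 < η → ∃ (S : Finset (ℤ × ℤ)) (c : ℤ × ℤ → ℂ) (p' : HH →L[ℂ] HH), Pol θ S c p' ∧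
      p - p' ∈ vonNeumannGenerated {U, V} ∧ ‖(p - p') (dl 0)‖ ≤ η

/-- **DFT**. Orthogonality of the characters of `ℤ/N'`. -/
def DftStmt : Prop :=
  ∀ N' : ℕ, 0 < N' →
    (∀ (a a' : ℤ), ∀ k < N', ∀ k' < N',
      inner ℂ (ep N' a k) (ep N' a' k') = if a = a' ∧ k = k' then (1 : ℂ) else 0) ∧
    (∀ (e : HH →L[ℂ] HH) (a : ℤ),
      ∑ k ∈ range N', ‖e (ep N' a k)‖ ^ 2 = ∑ b ∈ range N', ‖e (dl (a, b))‖ ^ 2) ∧
    ∀ (θ : ℝ) (U V : HH →L[ℂ] HH), IsRotationPair θ U V → ∀ (a : ℤ) (k : ℕ),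
      U (ep N' a k) = ep N' (a + 1) k ∧
      ‖V (ep N' a k) - ee (k / N' + θ * a) • ep N' a k‖ ^ 2 ≤ 4 / N'

/-- **DFP**. Shifting the range of summation by `y.2` changes at most `2 |y.2|` terms, each of norm
`1/√N'`. -/
def DfpStmt : Prop :=
  ∀ (θ : ℝ) (S : Finset (ℤ × ℤ)) (c : ℤ × ℤ → ℂ) (p' : HH →L[ℂ] HH), Pol θ S c p' →
    ∃ C : ℝ, ∀ N' : ℕ, 0 < N' → ∀ (a : ℤ) (k : ℕ),
      ‖p' (ep N' a k) - ∑ y ∈ S, (c y * ee (y.2 * (k / N' + θ * a))) • ep N' (a + y.1) k‖ ^ 2 ≤ C / N'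

/-- **APE**. On the circle `|f z - f λ|² ≤ ε + C |z - λ|²` (uniform continuity), and the functional
calculus is monotone: `(f(V) - f λ)* (f(V) - f λ) ≤ ε + C (V - λ)* (V - λ)`. -/
def ApeStmt : Prop :=
  ∀ (V : HH →L[ℂ] HH), V ∈ unitary (HH →L[ℂ] HH) → ∀ f : ℂ → ℝ, Continuous f →
    ((∀ z : ℂ, ‖z‖ = 1 → |f z| ≤ 1) → ‖cfc (fun z : ℂ => (f z : ℂ)) V‖ ≤ 1) ∧
    ∀ ε : ℝ, 0 < ε → ∃ C : ℝ, 0 ≤ C ∧ ∀ (l : ℂ) (v : HH), ‖l‖ = 1 →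
      ‖cfc (fun z : ℂ => (f z : ℂ)) V v - (f l : ℂ) • v‖ ^ 2 ≤ ε * ‖v‖ ^ 2 + C * ‖V v - l • v‖ ^ 2

/-- **RND** (uses BAS). `J : E ι → HH` the isometry `ev j ↦ ε j`, `P₀ = J* p J` symmetric with
`0 ≤ P₀ ≤ 1`, `K` the span of the eigenvectors with eigenvalue `≥ 1/2`:
`hs (P₀ - pr K) ≤ tr (P₀ - P₀²) = Δ₀ := Dlt p ε (const)`, as `(x - 1_{x ≥ 1/2})² ≤ x (1 - x)`.
`(1-P₀) T_f P₀ = J*(1-p)(J T_f - T J) P₀ + J*(1-p) T (J J* - 1) p J`, and `Δ₀ ≤ Dlt p ε ch`. -/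
def RndStmt : Prop :=
  ∀ (ι : Type) [Fintype ι] [DecidableEq ι] (ε : ι → HH) (p : HH →L[ℂ] HH), Orthonormal ℂ ε →
    IsStarProjection p → ∃ K : Submodule ℂ (E ι),
      (∀ ch, far K ch ≤ 4 * Dlt p ε ch) ∧
      (∀ ch, ∑ j, (rho K j - ‖p (ε j)‖ ^ 2) ^ 2 ≤ Dlt p ε ch) ∧
      ∀ (ch : ι → ℕ × ℕ) (T : HH →L[ℂ] HH) (σ : Equiv.Perm ι) (f : ι → ℝ), ‖T‖ ≤ 1 → (∀ j, |f j| ≤ 1) →
        (1 - p) * T * p = 0 →
        dfc K (wp σ f) ≤ 18 * Dlt p ε ch + 2 * ∑ j, ‖T (ε j) - (f j : ℂ) • ε (σ j)‖ ^ 2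

/-- **DLT** (uses COMM, POLY, DFT, DFP). A term of `Dlt` is the squared distance from `p (ε j)` to the
span of the `ε k` in the chunk of `j`; it is `≤ 1`, and if `j.2` is at distance `> d` from the ends of
its chunk (`|y.1| ≤ d` on `S`) it is `≤ 2 ‖(p - p') (ε j)‖² + 2 C / N'`;
`∑_k ‖(p - p') (ep a k)‖² = N' ‖(p - p') (dl 0)‖²`. -/
def DltStmt : Prop :=
  ∀ (θ : ℝ) (U V : HH →L[ℂ] HH), IsRotationPair θ U V → ∀ p ∈ vonNeumannGenerated {U, V},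
    IsStarProjection p → ∀ η : ℝ, 0 < η → ∃ D₀ : ℕ, ∀ D ≥ D₀, ∀ N ≥ D, ∃ N₀' : ℕ, ∀ N' ≥ N₀',
      Dlt p (epx : Ix N' N → HH) (chk D) ≤ η * Fintype.card (Ix N' N)

/-- **ERG** (uses COMM, POLY, DFT, DFP). `‖p ε_j‖² = ⟪ε_j, p ε_j⟫` is close in mean to
`∑_{y ∈ S, y.1 = 0} c y · ee (y.2 · pos j)`; for `y.2 ≠ 0` the geometric sums
`∑_{n<w'} ee (y.2 θ n)` are bounded (`θ` irrational); `‖p (dl 0)‖² = ⟪dl 0, p (dl 0)⟫` is close to the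
constant term; `pos ((sg^n) j) = pos j + θ n` if `j.2 + n < N`. -/
def ErgStmt : Prop :=
  ∀ (θ : ℝ) (U V : HH →L[ℂ] HH), Irrational θ → IsRotationPair θ U V →
    ∀ p ∈ vonNeumannGenerated {U, V}, IsStarProjection p → ∀ η : ℝ, 0 < η →
      ∃ w' : ℕ, 0 < w' ∧ ∃ N₀ : ℕ, ∀ N ≥ N₀, ∃ N₀' : ℕ, ∀ N' ≥ N₀',
        Erg (sg N' N) (fun j => ‖p (epx j)‖ ^ 2) w' (‖p (dl 0)‖ ^ 2) η

/-- **RED** (uses COMM, DFT, APE, RND, DLT, ERG). `T = U f(V)`;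
`‖T ε_j - f_j ε_{σ j}‖ = ‖f(V) ε_j - f_j ε_j‖` if `j.2 + 1 < N`, and `≤ 2` always. Use DLT for `D` and
for `D = N`; `∑ |ρ_K - ‖p ε‖²| ≤ √(card · Dlt)`, and `sg^n` is a permutation. -/
def RedStmt : Prop :=
  ∀ (θ : ℝ) (U V : HH →L[ℂ] HH), Irrational θ → IsRotationPair θ U V → ∀ f : ℂ → ℝ, Continuous f →
    (∀ z : ℂ, ‖z‖ = 1 → 0 ≤ f z ∧ f z ≤ 1) → ∀ p ∈ vonNeumannGenerated {U, V}, IsStarProjection p →
    (1 - p) * (U * cfc (fun z : ℂ => (f z : ℂ)) V) * p = 0 →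
    ∀ η : ℝ, 0 < η → ∃ w' : ℕ, 0 < w' ∧ ∀ η' : ℝ, 0 < η' → ∃ D₀ : ℕ, ∀ D ≥ D₀, ∀ δ : ℝ, 0 < δ →
      ∃ N₀ : ℕ, ∀ N ≥ N₀, ∃ N₀' : ℕ, ∀ N' ≥ N₀', ∃ K : Submodule ℂ (E (Ix N' N)),
        dfc K (wp (sg N' N) (fun j => f (ee (pos θ j)))) ≤ δ * Fintype.card (Ix N' N) ∧
        far K (chk D) ≤ η' * Fintype.card (Ix N' N) ∧
        Erg (sg N' N) (rho K) w' (‖p (dl 0)‖ ^ 2) η

/-- what the environment provides for the weight `F x = f (ee x)` -/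
def EnvP (θ : ℝ) (εB : ℕ → ℝ → ℝ) (F : ℝ → ℝ) : Prop :=
  ∀ η : ℝ, 0 < η → ∀ w' : ℕ, ∃ κb : ℝ, 0 < κb ∧ ∀ D₀ : ℕ, ∃ D ≥ D₀, ∃ δ : ℝ, 0 < δ ∧
    ∀ N₀ : ℕ, ∃ N ≥ N₀, ∀ N₀' : ℕ, ∃ N' ≥ N₀', 0 < N ∧ 0 < N' ∧
      ∀ ρ : Ix N' N → ℝ, (∀ j, 0 ≤ ρ j ∧ ρ j ≤ 1) → ∃ e : Env (Ix N' N),
        e.σ = sg N' N ∧ e.f = (fun j => F (pos θ j)) ∧ e.ch = chk D ∧ e.Ok εB η δ ∧ e.κt ≤ κb ∧
        (w' : ℝ) ≤ η * e.w ∧
        ∑ t ∈ e.L, flow e.σ ρ (e.r t) (e.Z t) ≤ η * Fintype.card (Ix N' N) ∧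
        ∑ t ∈ e.H, e.wg t * flow e.σ ρ (e.r t) (e.Z t) ≤ η * Fintype.card (Ix N' N)

/-- **ENV** (proved in part E). -/
def EnvStmt : Prop :=
  ∀ (θ : ℝ) (εB : ℕ → ℝ → ℝ), Irrational θ → (∀ w lam, 0 < lam → 0 < εB w lam) →
    ∃ f : ℂ → ℝ, Continuous f ∧ (∀ z : ℂ, ‖z‖ = 1 → 0 ≤ f z ∧ f z ≤ 1) ∧
      (∀ z : ℂ, ‖z‖ = 1 → (f z = 0 ↔ z = 1)) ∧
      (∫⁻ t in Set.Ioc (0 : ℝ) (2 * Real.pi),
          ENNReal.ofReal (- Real.log (f (Complex.exp ((t : ℂ) * Complex.I)))) = ⊤) ∧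
      EnvP θ εB (fun x => f (ee x))

/-- **MAIN** (uses BAS, BLK, CORE, COMM, RED, ENV): the statement S0149. `s = ‖p (dl 0)‖²`,
`‖(1-p) (dl 0)‖² = 1 - s`; `s (1-s) ≤ 30000 √η` for all small `η` (take `η' = η/(2 κb²)`). -/
def MainStmt : Prop :=
  ∀ (θ : ℝ), Irrational θ → 0 < θ → θ < 1 →
    ∃ f : ℂ → ℝ, Continuous f ∧ (∀ z : ℂ, ‖z‖ = 1 → 0 ≤ f z ∧ f z ≤ 1) ∧
      (∀ z : ℂ, ‖z‖ = 1 → (f z = 0 ↔ z = 1)) ∧
      (∫⁻ t in Set.Ioc (0 : ℝ) (2 * Real.pi),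
          ENNReal.ofReal (- Real.log (f (Complex.exp ((t : ℂ) * Complex.I)))) = ⊤) ∧
      ∀ U V : lp (fun _ : ℤ × ℤ => ℂ) 2 →L[ℂ] lp (fun _ : ℤ × ℤ => ℂ) 2, IsRotationPair θ U V →
        ∀ p : lp (fun _ : ℤ × ℤ => ℂ) 2 →L[ℂ] lp (fun _ : ℤ × ℤ => ℂ) 2,
          p ∈ vonNeumannGenerated {U, V} → IsStarProjection p →
          (1 - p) * (U * cfc (fun z : ℂ => (f z : ℂ)) V) * p = 0 → p = 0 ∨ p = 1

theorem anchorR : True := by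
  have := @dl.eq_1; have := @ee.eq_1; have := @ep.eq_1; have := @sg.eq_1; have := @pos.eq_1
  have := @chk.eq_1; have := @epx.eq_1; have := @Dlt.eq_1; have := @Pol.eq_1; have := @EnvP.eq_1
  trivial

end Crest.Agent.R113
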