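import Mathlib
import Crest.Agent.R113.DefsR

set_option autoImplicit false

namespace Crest.Agent.R113

open Finset Module

namespace RND

variable {ι : Type} [Fintype ι] [DecidableEq ι]
variable {H : Type} [NormedAddCommGroup H] [InnerProductSpace ℂ H]

/-- the isometry -/
noncomputable def J (ε : ι → H) : E ι →ₗ[ℂ] H where
  toFun v := ∑ j, v j • ε j
  map_add' v w := by simp [add_smul, sum_add_distrib]
  map_smul' c v := by simp [smul_sum, mul_smul]

/-- its adjoint -/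
noncomputable def Js (ε : ι → H) : H →ₗ[ℂ] E ι where
  toFun x := WithLp.toLp 2 (fun k => inner ℂ (ε k) x)
  map_add' v w := by ext i; simp [inner_add_right]
  map_smul' c v := by ext i; simp [inner_smul_right]

omit [DecidableEq ι] in
lemma J_apply (ε : ι → H) (v : E ι) : J ε v = ∑ j, v j • ε j := rfl

omit [Fintype ι] [DecidableEq ι] in
lemma Js_apply (ε : ι → H) (x : H) (k : ι) : Js ε x k = inner ℂ (ε k) x := rfl

omit [DecidableEq ι] in
lemma inner_J (ε : ι → H) (v : E ι) (x : H) : inner ℂ (J ε v) x = inner ℂ v (Js ε x) := by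
  rw [J_apply, sum_inner, PiLp.inner_apply]
  refine sum_congr rfl fun j _ => ?_
  rw [inner_smul_left, Js_apply]
  simp [mul_comm]

omit [DecidableEq ι] in
lemma inner_J' (ε : ι → H) (v : E ι) (x : H) : inner ℂ x (J ε v) = inner ℂ (Js ε x) v := by
  rw [← inner_conj_symm, inner_J, inner_conj_symm]

omit [DecidableEq ι] in
lemma Js_J {ε : ι → H} (hε : Orthonormal ℂ ε) (v : E ι) : Js ε (J ε v) = v := by
  ext k
  rw [Js_apply, J_apply]
  exact hε.inner_right_fintype (fun j => v j) k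

omit [DecidableEq ι] in
lemma norm_J {ε : ι → H} (hε : Orthonormal ℂ ε) (v : E ι) : ‖J ε v‖ = ‖v‖ := by
  have h : ‖J ε v‖ ^ 2 = ‖v‖ ^ 2 := by
    rw [← inner_self_eq_norm_sq (𝕜 := ℂ), inner_J, Js_J hε, inner_self_eq_norm_sq]
  exact (sq_eq_sq₀ (norm_nonneg _) (norm_nonneg _)).mp h

omit [DecidableEq ι] in
lemma norm_J_Js_sub {ε : ι → H} (hε : Orthonormal ℂ ε) (x : H) :
    ‖J ε (Js ε x) - x‖ ^ 2 = ‖x‖ ^ 2 - ‖Js ε x‖ ^ 2 := by
  rw [@norm_sub_sq ℂ, norm_J hε, inner_J, inner_self_eq_norm_sq]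
  ring

omit [DecidableEq ι] in
lemma norm_Js {ε : ι → H} (hε : Orthonormal ℂ ε) (x : H) : ‖Js ε x‖ ≤ ‖x‖ := by
  have h := norm_J_Js_sub hε x
  have h2 := sq_nonneg ‖J ε (Js ε x) - x‖
  exact (sq_le_sq₀ (norm_nonneg _) (norm_nonneg _)).mp (by linarith)

lemma J_ev (ε : ι → H) (j : ι) : J ε (ev j) = ε j := by
  rw [J_apply, sum_eq_single j]
  · simp [ev]
  · intro k _ hk
    simp [ev, hk]
  · simp

lemma inner_ev (j : ι) (v : E ι) : inner ℂ (ev j) v = v j := by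
  simp [ev, EuclideanSpace.inner_single_left]

lemma wp_ev (σ : Equiv.Perm ι) (f : ι → ℝ) (j : ι) : wp σ f (ev j) = (f j : ℂ) • ev (σ j) := by
  ext i
  by_cases h : i = σ j
  · subst h
    simp [ev]
  · have h' : σ⁻¹ i ≠ j := fun e => h (by rw [← e]; simp)
    have h'' : σ.symm i ≠ j := h'
    simp [ev, h, h'']

lemma trace_basis {n : ℕ} (u : OrthonormalBasis (Fin n) ℂ (E ι)) (A : E ι →ₗ[ℂ] E ι) :
    ∑ j, inner ℂ (ev j) (A (ev j)) = ∑ i, inner ℂ (u i) (A (u i)) := by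
  rw [← LinearMap.trace_eq_sum_inner A u,
    LinearMap.trace_eq_sum_inner A (EuclideanSpace.basisFun ι ℂ)]
  simp [ev]

/-- rounding a symmetric operator with spectrum in `[0,1]` -/
lemma round (P : E ι →ₗ[ℂ] E ι) (hP : P.IsSymmetric)
    (h01 : ∀ v, 0 ≤ (inner ℂ v (P v)).re ∧ (inner ℂ v (P v)).re ≤ ‖v‖ ^ 2) :
    ∃ K : Submodule ℂ (E ι), hs (P - pr K) ≤ ∑ j, ((inner ℂ (ev j) (P (ev j))).re - ‖P (ev j)‖ ^ 2) := by
  set n := finrank ℂ (E ι) with hn
  set u := hP.eigenvectorBasis hn.symm with hu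
  set lam := hP.eigenvalues hn.symm with hlam
  have hPu : ∀ i, P (u i) = (lam i : ℂ) • u i := fun i => hP.apply_eigenvectorBasis hn.symm i
  have hu1 : ∀ i, inner ℂ (u i) (u i) = (1 : ℂ) := fun i => by
    rw [inner_self_eq_norm_sq_to_K, u.orthonormal.1 i]
    simp
  have hl : ∀ i, 0 ≤ lam i ∧ lam i ≤ 1 := by
    intro i
    have := h01 (u i)
    rw [hPu, inner_smul_right, hu1, u.orthonormal.1 i] at this
    simpa using this
  let K : Submodule ℂ (E ι) := Submodule.span ℂ (u '' {i | 1 / 2 ≤ lam i})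
  let c : Fin n → ℝ := fun i => if 1 / 2 ≤ lam i then 1 else 0
  have hQu : ∀ i, pr K (u i) = (c i : ℂ) • u i := by
    intro i
    by_cases h : 1 / 2 ≤ lam i
    · simp only [c, h, if_true, Complex.ofReal_one, one_smul, pr_apply]
      exact Submodule.starProjection_eq_self_iff.mpr (Submodule.subset_span ⟨i, h, rfl⟩)
    · simp only [c, h, if_false, Complex.ofReal_zero, zero_smul, pr_apply]
      rw [Submodule.starProjection_apply_eq_zero_iff, Submodule.mem_orthogonal]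
      intro x hx
      induction hx using Submodule.span_induction with
      | mem x hx =>
        obtain ⟨k, hk, rfl⟩ := hx
        exact u.orthonormal.2 (fun e => h (e ▸ hk))
      | zero => simp
      | add x y _ _ hx hy => rw [inner_add_left, hx, hy, add_zero]
      | smul a x _ hx => rw [inner_smul_left, hx, mul_zero]
  refine ⟨K, ?_⟩
  have hQ : (pr K).IsSymmetric := K.starProjection_isSymmetric
  have hD : (P - pr K).IsSymmetric := hP.sub hQ
  have key := congrArg Complex.re (trace_basis u (P - P ∘ₗ P - (P - pr K) ∘ₗ (P - pr K)))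
  rw [Complex.re_sum, Complex.re_sum] at key
  have hL : ∀ j, (inner ℂ (ev j) ((P - P ∘ₗ P - (P - pr K) ∘ₗ (P - pr K)) (ev j))).re
      = ((inner ℂ (ev j) (P (ev j))).re - ‖P (ev j)‖ ^ 2) - ‖(P - pr K) (ev j)‖ ^ 2 := by
    intro j
    rw [LinearMap.sub_apply, LinearMap.sub_apply, inner_sub_right, inner_sub_right,
      LinearMap.comp_apply, LinearMap.comp_apply, ← hP (ev j) (P (ev j)),
      ← hD (ev j) ((P - pr K) (ev j)), Complex.sub_re, Complex.sub_re]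
    have e1 := inner_self_eq_norm_sq (𝕜 := ℂ) (P (ev j))
    have e2 := inner_self_eq_norm_sq (𝕜 := ℂ) ((P - pr K) (ev j))
    simp only [RCLike.re_to_complex] at e1 e2
    rw [e1, e2]
  have hR : ∀ i, 0 ≤ (inner ℂ (u i) ((P - P ∘ₗ P - (P - pr K) ∘ₗ (P - pr K)) (u i))).re := by
    intro i
    have hDu : (P - pr K) (u i) = ((lam i - c i : ℝ) : ℂ) • u i := by
      rw [LinearMap.sub_apply, hPu, hQu, ← sub_smul]
      push_cast
      rfl
    have e : (P - P ∘ₗ P - (P - pr K) ∘ₗ (P - pr K)) (u i)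
        = ((lam i - lam i ^ 2 - (lam i - c i) ^ 2 : ℝ) : ℂ) • u i := by
      rw [LinearMap.sub_apply, LinearMap.sub_apply, LinearMap.comp_apply, LinearMap.comp_apply,
        hDu, map_smul, hDu, hPu, map_smul, hPu, smul_smul, smul_smul, ← sub_smul, ← sub_smul]
      push_cast
      congr 1
      ring
    rw [e, inner_smul_right, hu1, mul_one, Complex.ofReal_re]
    obtain ⟨h0, h1⟩ := hl i
    by_cases h : 1 / 2 ≤ lam i
    · simp only [c, h, if_true]
      nlinarith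
    · simp only [c, h, if_false]
      nlinarith
  simp only [hL] at key
  have h2 : 0 ≤ ∑ i, (inner ℂ (u i) ((P - P ∘ₗ P - (P - pr K) ∘ₗ (P - pr K)) (u i))).re :=
    sum_nonneg fun i _ => hR i
  rw [← key, sum_sub_distrib] at h2
  unfold hs
  linarith

lemma hs_nonneg (B : E ι →ₗ[ℂ] E ι) : 0 ≤ hs B := sum_nonneg fun _ _ => sq_nonneg _

theorem main [CompleteSpace H] (hBas : BasStmt) (ε : ι → H) (p : H →L[ℂ] H) (hε : Orthonormal ℂ ε)
    (hp : IsStarProjection p) : ∃ K : Submodule ℂ (E ι),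
      (∀ ch : ι → ℕ × ℕ, far K ch ≤ 4 * ∑ j, (‖p (ε j)‖ ^ 2 -
        ∑ k, if ch k = ch j then ‖inner ℂ (ε k) (p (ε j))‖ ^ 2 else 0)) ∧
      (∀ ch : ι → ℕ × ℕ, ∑ j, (rho K j - ‖p (ε j)‖ ^ 2) ^ 2 ≤ ∑ j, (‖p (ε j)‖ ^ 2 -
        ∑ k, if ch k = ch j then ‖inner ℂ (ε k) (p (ε j))‖ ^ 2 else 0)) ∧
      ∀ (ch : ι → ℕ × ℕ) (T : H →L[ℂ] H) (σ : Equiv.Perm ι) (f : ι → ℝ), ‖T‖ ≤ 1 → (∀ j, |f j| ≤ 1) →
        (1 - p) * T * p = 0 →
        dfc K (wp σ f) ≤ 18 * (∑ j, (‖p (ε j)‖ ^ 2 -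
        ∑ k, if ch k = ch j then ‖inner ℂ (ε k) (p (ε j))‖ ^ 2 else 0))
          + 2 * ∑ j, ‖T (ε j) - (f j : ℂ) • ε (σ j)‖ ^ 2 := by
  obtain ⟨hB1, -, -, hB4, -, hB6, -⟩ := hBas ι
  have hps : (p : H →ₗ[ℂ] H).IsSymmetric := hp.isSelfAdjoint.isSymmetric
  have hps' : ∀ x y, inner ℂ (p x) y = inner ℂ x (p y) := hps
  have hpp : ∀ x, p (p x) = p x := fun x => by
    have := congrArg (fun q : H →L[ℂ] H => q x) hp.isIdempotentElem.eq
    exact this
  have hpin : ∀ x, inner ℂ x (p x) = ((‖p x‖ ^ 2 : ℝ) : ℂ) := fun x => by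
    conv_lhs => rw [← hpp x, ← hps', inner_self_eq_norm_sq_to_K]
    simp
  have hpn : ∀ x, ‖p x‖ ≤ ‖x‖ := fun x =>
    (p.le_opNorm x).trans (mul_le_of_le_one_left (norm_nonneg _) hp.norm_le)
  have hqn : ∀ x, ‖(1 - p) x‖ ≤ ‖x‖ := fun x =>
    ((1 - p).le_opNorm x).trans (mul_le_of_le_one_left (norm_nonneg _) hp.one_sub.norm_le)
  set P : E ι →ₗ[ℂ] E ι := Js ε ∘ₗ (p : H →ₗ[ℂ] H) ∘ₗ J ε with hPdef
  have hPa : ∀ v, P v = Js ε (p (J ε v)) := fun v => rfl
  have hP : P.IsSymmetric := by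
    intro v w
    rw [hPa, hPa, ← inner_J', ← inner_J, hps']
  have hPin : ∀ v, inner ℂ v (P v) = ((‖p (J ε v)‖ ^ 2 : ℝ) : ℂ) := fun v => by
    rw [hPa, ← inner_J, hpin]
  have hPn : ∀ v, ‖P v‖ ≤ 1 * ‖v‖ := fun v => by
    rw [hPa, one_mul]
    exact (norm_Js hε _).trans ((hpn _).trans (norm_J hε v).le)
  obtain ⟨K, hK⟩ := round P hP (fun v => by
    rw [hPin, Complex.ofReal_re]
    refine ⟨sq_nonneg _, pow_le_pow_left₀ (norm_nonneg _) ((hpn _).trans (norm_J hε v).le) 2⟩)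
  simp only [hPin, Complex.ofReal_re, J_ev] at hK
  set Δ := ∑ j, (‖p (ε j)‖ ^ 2 - ‖P (ev j)‖ ^ 2) with hΔ
  have hent : ∀ j k, P (ev j) k = inner ℂ (ε k) (p (ε j)) := fun j k => by
    rw [hPa, J_ev, Js_apply]
  have hsplit : ∀ ch : ι → ℕ × ℕ, ∑ j, (‖p (ε j)‖ ^ 2 -
        ∑ k, if ch k = ch j then ‖inner ℂ (ε k) (p (ε j))‖ ^ 2 else 0)
      = Δ + ∑ j, ∑ k, if ch j = ch k then 0 else ‖P (ev j) k‖ ^ 2 := by
    intro ch
    rw [hΔ, ← sum_add_distrib]
    refine sum_congr rfl fun j _ => ?_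
    rw [EuclideanSpace.norm_sq_eq (P (ev j)), sub_add, ← sum_sub_distrib]
    congr 1
    refine sum_congr rfl fun k _ => ?_
    rw [hent]
    by_cases h : ch k = ch j
    · simp [h]
    · have h' : ¬ ch j = ch k := fun e => h e.symm
      simp [h, h']
  have hfar0 : ∀ ch : ι → ℕ × ℕ,
      0 ≤ ∑ j, ∑ k, if ch j = ch k then 0 else ‖P (ev j) k‖ ^ 2 := fun ch =>
    sum_nonneg fun j _ => sum_nonneg fun k _ => by split_ifs <;> positivity
  have hΔ0 : 0 ≤ Δ := (hs_nonneg _).trans hK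
  refine ⟨K, fun ch => ?_, fun ch => ?_, fun ch T σ f hT hf hinv => ?_⟩
  · rw [hsplit]
    have h1 : far K ch ≤ ∑ j, ∑ k, (2 * (if ch j = ch k then 0 else ‖P (ev j) k‖ ^ 2)
        + 2 * ‖(P - pr K) (ev j) k‖ ^ 2) := by
      refine sum_le_sum fun j _ => sum_le_sum fun k _ => ?_
      by_cases h : ch j = ch k
      · simp only [h, if_true]
        positivity
      · simp only [h, if_false, ent]
        have e : pr K (ev j) k = P (ev j) k - (P - pr K) (ev j) k := by simp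
        have h3 := norm_sub_le (P (ev j) k) ((P - pr K) (ev j) k)
        rw [← e] at h3
        have h4 := pow_le_pow_left₀ (norm_nonneg _) h3 2
        nlinarith [sq_nonneg (‖P (ev j) k‖ - ‖(P - pr K) (ev j) k‖)]
    have h2 : hs (P - pr K) = ∑ j, ∑ k, ‖(P - pr K) (ev j) k‖ ^ 2 :=
      sum_congr rfl fun j _ => EuclideanSpace.norm_sq_eq _
    simp only [sum_add_distrib, ← mul_sum] at h1
    have := hfar0 ch
    linarith
  · rw [hsplit]
    have h1 : ∑ j, (rho K j - ‖p (ε j)‖ ^ 2) ^ 2 ≤ hs (P - pr K) := by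
      refine sum_le_sum fun j _ => ?_
      have e : (P - pr K) (ev j) j = ((‖p (ε j)‖ ^ 2 - rho K j : ℝ) : ℂ) := by
        rw [LinearMap.sub_apply, PiLp.sub_apply, hent, hpin, (hB1 K j).2.2.2.2.2.1]
        push_cast
        rfl
      have h3 : ‖(P - pr K) (ev j) j‖ ≤ ‖(P - pr K) (ev j)‖ := PiLp.norm_apply_le _ _
      rw [e, Complex.norm_real, Real.norm_eq_abs] at h3
      have h4 := pow_le_pow_left₀ (abs_nonneg _) h3 2
      rw [sq_abs] at h4
      nlinarith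
    have := hfar0 ch
    linarith
  · rw [hsplit]
    set S := ∑ j, ‖T (ε j) - (f j : ℂ) • ε (σ j)‖ ^ 2 with hS
    set W := wp σ f with hW
    have hWn : ∀ v, ‖W v‖ ≤ 1 * ‖v‖ := fun v => hB6 σ f 1 v zero_le_one fun j _ => hf j
    have hTn : ∀ x, ‖T x‖ ≤ ‖x‖ := fun x =>
      (T.le_opNorm x).trans (mul_le_of_le_one_left (norm_nonneg _) hT)
    set A : E ι →ₗ[ℂ] E ι := Js ε ∘ₗ ((1 - p : H →L[ℂ] H) : H →ₗ[ℂ] H) ∘ₗ
      (J ε ∘ₗ W - (T : H →ₗ[ℂ] H) ∘ₗ J ε) with hA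
    set B : E ι →ₗ[ℂ] E ι := Js ε ∘ₗ ((1 - p : H →L[ℂ] H) : H →ₗ[ℂ] H) ∘ₗ (T : H →ₗ[ℂ] H) ∘ₗ
      (J ε ∘ₗ P - (p : H →ₗ[ℂ] H) ∘ₗ J ε) with hB
    have hAa : ∀ v, A v = Js ε ((1 - p) (J ε (W v) - T (J ε v))) := fun v => rfl
    have hBa : ∀ v, B v = Js ε ((1 - p) (T (J ε (P v) - p (J ε v)))) := fun v => rfl
    have hinv' : ∀ x, (1 - p) (T (p x)) = 0 := fun x => by
      have := congrArg (fun q : H →L[ℂ] H => q x) hinv
      exact this
    have hAs : hs A ≤ S := by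
      refine sum_le_sum fun j _ => pow_le_pow_left₀ (norm_nonneg _) ?_ 2
      rw [hAa]
      refine (norm_Js hε _).trans ((hqn _).trans (le_of_eq ?_))
      rw [hW, wp_ev, map_smul, J_ev, J_ev, norm_sub_rev]
    have hBs : hs B ≤ Δ := by
      refine sum_le_sum fun j _ => ?_
      have h1 : ‖B (ev j)‖ ≤ ‖J ε (Js ε (p (ε j))) - p (ε j)‖ := by
        rw [hBa]
        refine (norm_Js hε _).trans ((hqn _).trans ((hTn _).trans (le_of_eq ?_)))
        rw [hPa, J_ev]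
      have h2 := pow_le_pow_left₀ (norm_nonneg _) h1 2
      rw [norm_J_Js_sub hε] at h2
      rw [hPa, J_ev]
      exact h2
    have hQo : ∀ v, pr Kᗮ v = v - pr K v := fun v => by
      rw [pr_apply, pr_apply, Submodule.starProjection_orthogonal_val]
    have hdec : pr Kᗮ ∘ₗ W ∘ₗ pr K = (A ∘ₗ P + B) +
        ((P - pr K) ∘ₗ (W ∘ₗ P) + (-(pr Kᗮ ∘ₗ W)) ∘ₗ (P - pr K)) := by
      ext1 v
      have e1 : A (P v) + B v = W (P v) - P (W (P v)) := by
        rw [hAa, hBa, map_sub T, map_sub (1 - p) (T _), hinv', sub_zero, ← map_add, ← map_add,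
          sub_add_cancel, hPa (W (P v))]
        rw [ContinuousLinearMap.sub_apply, map_sub]
        congr 1
        exact Js_J hε _
      simp only [LinearMap.comp_apply, LinearMap.add_apply, LinearMap.neg_apply,
        LinearMap.sub_apply, e1, hQo, map_sub]
      abel
    have h1 : hs (A ∘ₗ P) ≤ S := by
      have := ((hB4 A).2.1 P 1 hPn).2
      linarith
    have h2 : hs ((P - pr K) ∘ₗ (W ∘ₗ P)) ≤ Δ := by
      have := ((hB4 (P - pr K)).2.1 (W ∘ₗ P) 1 (fun v => by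
        have := hWn (P v)
        have := hPn v
        rw [LinearMap.comp_apply]
        linarith)).2
      linarith
    have h3 : hs ((-(pr Kᗮ ∘ₗ W)) ∘ₗ (P - pr K)) ≤ Δ := by
      have := ((hB4 (P - pr K)).2.1 (-(pr Kᗮ ∘ₗ W)) 1 (fun v => by
        rw [LinearMap.neg_apply, norm_neg, LinearMap.comp_apply, pr_apply]
        exact (Submodule.norm_starProjection_apply_le _ _).trans (hWn v))).1
      linarith
    have t1 := (hB4 B).2.2.1 (A ∘ₗ P)
    have t2 := (hB4 ((-(pr Kᗮ ∘ₗ W)) ∘ₗ (P - pr K))).2.2.1 ((P - pr K) ∘ₗ (W ∘ₗ P))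
    have t3 := (hB4 ((P - pr K) ∘ₗ (W ∘ₗ P) + (-(pr Kᗮ ∘ₗ W)) ∘ₗ (P - pr K))).2.2.1 (A ∘ₗ P + B)
    rw [← hdec] at t3
    have s1 := Real.sqrt_le_sqrt h1
    have s2 := Real.sqrt_le_sqrt h2
    have s3 := Real.sqrt_le_sqrt h3
    have s4 := Real.sqrt_le_sqrt hBs
    have hS0 : 0 ≤ S := sum_nonneg fun _ _ => sq_nonneg _
    have hfin : √(dfc K W) ≤ √S + 3 * √Δ := by
      unfold dfc
      linarith
    have hd0 : 0 ≤ dfc K W := hs_nonneg _
    have q1 := Real.sq_sqrt hd0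
    have q2 := Real.sq_sqrt hS0
    have q3 := Real.sq_sqrt hΔ0
    have q4 := pow_le_pow_left₀ (Real.sqrt_nonneg _) hfin 2
    have := hfar0 ch
    nlinarith [sq_nonneg (√S - 3 * √Δ)]

end RND

theorem RND_proof (hBas : BasStmt) : RndStmt := by
  intro ι _ _ ε p hε hp
  exact RND.main hBas ε p hε hp

end Crest.Agent.R113
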