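import Crest.Agent.R113.DefsL

/-! Row 113, task SCL: operator scaling. -/

set_option autoImplicit false

namespace Crest.Agent.R113

open Finset Module
open scoped ComplexOrder

namespace SCL

section General

variable {V : Type} [NormedAddCommGroup V] [InnerProductSpace ℂ V]

/-- the rank one perturbation `1 + t w w*` -/
noncomputable def rk (w : V) (t : ℝ) : V →ₗ[ℂ] V where
  toFun y := y + ((t : ℂ) * inner ℂ w y) • w
  map_add' x y := by
    simp only [inner_add_right, mul_add, add_smul]; abel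
  map_smul' c y := by
    simp only [inner_smul_right, RingHom.id_apply, smul_add, smul_smul]
    congr 2; ring

lemma rk_apply (w : V) (t : ℝ) (y : V) : rk w t y = y + ((t : ℂ) * inner ℂ w y) • w := rfl

lemma inner_rk (w : V) (t : ℝ) (x y : V) :
    inner ℂ (rk w t x) (rk w t y) =
      inner ℂ x y + ((2 * t + t ^ 2 * ‖w‖ ^ 2 : ℝ) : ℂ) * (inner ℂ x w * inner ℂ w y) := by
  simp only [rk_apply, inner_add_left, inner_add_right, inner_smul_left, inner_smul_right, map_mul,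
    Complex.conj_ofReal, inner_conj_symm, inner_self_eq_norm_sq_to_K]
  push_cast
  simp only [Complex.coe_algebraMap]
  ring

lemma norm_rk (w : V) (t : ℝ) (y : V) :
    ‖rk w t y‖ ^ 2 = ‖y‖ ^ 2 + (2 * t + t ^ 2 * ‖w‖ ^ 2) * ‖inner ℂ w y‖ ^ 2 := by
  have h := inner_rk w t y y
  rw [inner_self_eq_norm_sq_to_K, inner_self_eq_norm_sq_to_K, ← inner_conj_symm y w,
    Complex.conj_mul'] at h
  simp only [Complex.coe_algebraMap] at h
  exact_mod_cast h

lemma det_gram_rk {n : Type} [Fintype n] [DecidableEq n] (v : n → V) (w : V) (t : ℝ)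
    (L : Submodule ℂ V) [L.HasOrthogonalProjection] (hL : Submodule.span ℂ (Set.range v) = L) :
    (Matrix.gram ℂ (fun i => rk w t (v i))).det =
      (Matrix.gram ℂ v).det *
        ((1 + (2 * t + t ^ 2 * ‖w‖ ^ 2) * ‖L.starProjection w‖ ^ 2 : ℝ) : ℂ) := by
  have hp : L.starProjection w ∈ Submodule.span ℂ (Set.range v) := by
    rw [hL]; exact L.starProjection_apply_mem w
  obtain ⟨c, hc⟩ := (Submodule.mem_span_range_iff_exists_fun ℂ).mp hp
  have hv : ∀ i, v i ∈ L := fun i => hL ▸ Submodule.subset_span ⟨i, rfl⟩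
  have h1 : ∀ x ∈ L, inner ℂ x w = inner ℂ x (L.starProjection w) := by
    intro x hx
    rw [← L.inner_starProjection_left_eq_right, Submodule.starProjection_eq_self_iff.mpr hx]
  set s : ℝ := 2 * t + t ^ 2 * ‖w‖ ^ 2 with hs
  have key : Matrix.gram ℂ (fun i => rk w t (v i)) = Matrix.gram ℂ v *
      (1 + Matrix.replicateCol Unit c *
        Matrix.replicateRow Unit (fun j => (s : ℂ) * inner ℂ w (v j))) := by
    ext i j
    rw [Matrix.mul_add, Matrix.mul_one, Matrix.add_apply, Matrix.gram_apply, Matrix.gram_apply,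
      inner_rk, h1 _ (hv i), ← hc, inner_sum, Matrix.mul_apply]
    congr 1
    rw [Finset.sum_mul, Finset.mul_sum]
    refine Finset.sum_congr rfl fun k _ => ?_
    simp only [Matrix.mul_apply, Finset.univ_unique, Finset.sum_singleton,
      Matrix.replicateCol_apply, Matrix.replicateRow_apply, Matrix.gram_apply, inner_smul_right]
    ring
  rw [key, Matrix.det_mul, Matrix.det_one_add_replicateCol_mul_replicateRow]
  congr 1
  have h2 : inner ℂ w (L.starProjection w) = ((‖L.starProjection w‖ ^ 2 : ℝ) : ℂ) := by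
    rw [← inner_conj_symm, h1 _ (L.starProjection_apply_mem w), inner_self_eq_norm_sq_to_K]
    simp
  have h3 : (fun j => (s : ℂ) * inner ℂ w (v j)) ⬝ᵥ c =
      (s : ℂ) * inner ℂ w (L.starProjection w) := by
    rw [← hc, inner_sum, Finset.mul_sum, dotProduct]
    refine Finset.sum_congr rfl fun k _ => ?_
    rw [inner_smul_right]; ring
  rw [h3, h2]
  push_cast
  ring

/-- weak Cauchy–Schwarz for a nonnegative symmetric operator -/
lemma cs [FiniteDimensional ℂ V] (A : V →ₗ[ℂ] V) (hA : A.IsSymmetric)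
    (h0 : ∀ x, 0 ≤ (inner ℂ x (A x)).re) (u : V) (hu : ∀ x, A x = 0 → inner ℂ x u = 0) :
    ∃ c : ℝ, 0 < c ∧ ∀ x, ‖inner ℂ u x‖ ^ 2 ≤ c * (inner ℂ x (A x)).re := by
  have h1 : u ∈ (LinearMap.ker A)ᗮ := by
    rw [Submodule.mem_orthogonal]
    intro x hx
    exact hu x hx
  rw [LinearMap.orthogonal_ker, hA.adjoint_eq] at h1
  obtain ⟨z, rfl⟩ := h1
  refine ⟨(inner ℂ z (A z)).re + 1, by linarith [h0 z], fun x => ?_⟩
  set Q : ℝ := (inner ℂ z (A z)).re with hQ
  have hQ0 : 0 ≤ Q := h0 z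
  set a : ℂ := inner ℂ (A z) x with ha
  set r : ℝ := 1 / (Q + 1) with hr
  have h2 := h0 (x - ((r : ℂ) * a) • z)
  have h3 : inner ℂ z (A x) = a := (hA z x).symm
  have h4 : inner ℂ x (A z) = (starRingEnd ℂ) a := by rw [ha, inner_conj_symm]
  have h5 : (inner ℂ (x - ((r : ℂ) * a) • z) (A (x - ((r : ℂ) * a) • z))) =
      inner ℂ x (A x) - ((2 * r * ‖a‖ ^ 2 : ℝ) : ℂ) +
        ((r ^ 2 * ‖a‖ ^ 2 : ℝ) : ℂ) * inner ℂ z (A z) := by
    simp only [map_sub, map_smul, inner_sub_left, inner_sub_right, inner_smul_left,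
      inner_smul_right, h3, h4, map_mul, Complex.conj_ofReal]
    have h6 : ((‖a‖ : ℝ) : ℂ) ^ 2 = (starRingEnd ℂ) a * a := (Complex.conj_mul' a).symm
    push_cast
    rw [h6]
    ring
  rw [h5, Complex.add_re, Complex.sub_re, Complex.ofReal_re, Complex.re_ofReal_mul, ← hQ] at h2
  have hQ1 : 0 < Q + 1 := by linarith
  have h7 : r * (Q + 1) = 1 := by rw [hr]; field_simp
  have hr0 : 0 < r := by rw [hr]; positivity
  have h8 : r * ‖a‖ ^ 2 ≤ (inner ℂ x (A x)).re := by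
    have h9 : r ^ 2 * ‖a‖ ^ 2 * Q ≤ r * ‖a‖ ^ 2 := by
      have : r * Q ≤ 1 := by nlinarith
      have h10 : 0 ≤ r * ‖a‖ ^ 2 := by positivity
      nlinarith
    linarith
  calc ‖a‖ ^ 2 = (Q + 1) * (r * ‖a‖ ^ 2) := by rw [← mul_assoc, mul_comm (Q + 1), h7, one_mul]
    _ ≤ _ := mul_le_mul_of_nonneg_left h8 hQ1.le

lemma inner_form [FiniteDimensional ℂ V] (g : V →ₗ[ℂ] V) (l : ℝ) (x : V) :
    (inner ℂ x ((((l : ℝ) : ℂ) • (1 : V →ₗ[ℂ] V) - LinearMap.adjoint g ∘ₗ g) x)).re =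
      l * ‖x‖ ^ 2 - ‖g x‖ ^ 2 := by
  simp only [LinearMap.sub_apply, LinearMap.smul_apply, Module.End.one_apply, LinearMap.comp_apply,
    inner_sub_right, inner_smul_right, LinearMap.adjoint_inner_right, inner_self_eq_norm_sq_to_K,
    Complex.coe_algebraMap]
  norm_cast

lemma symm_form [FiniteDimensional ℂ V] (g : V →ₗ[ℂ] V) (l : ℝ) :
    (((l : ℝ) : ℂ) • (1 : V →ₗ[ℂ] V) - LinearMap.adjoint g ∘ₗ g).IsSymmetric := by
  intro x y
  simp only [LinearMap.sub_apply, LinearMap.smul_apply, Module.End.one_apply, LinearMap.comp_apply,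
    inner_sub_right, inner_sub_left, inner_smul_right, inner_smul_left,
    LinearMap.adjoint_inner_right, LinearMap.adjoint_inner_left, Complex.conj_ofReal]

lemma ker_form [FiniteDimensional ℂ V] (g : V →ₗ[ℂ] V) (l : ℝ) (w : V)
    (hw : ∀ y, g (LinearMap.adjoint g y) = ((l : ℝ) : ℂ) • y → inner ℂ y w = 0) (x : V)
    (hx : (((l : ℝ) : ℂ) • (1 : V →ₗ[ℂ] V) - LinearMap.adjoint g ∘ₗ g) x = 0) :
    inner ℂ x (LinearMap.adjoint g w) = 0 := by
  rw [LinearMap.adjoint_inner_right]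
  apply hw
  simp only [LinearMap.sub_apply, LinearMap.smul_apply, Module.End.one_apply,
    LinearMap.comp_apply, sub_eq_zero] at hx
  rw [← hx, map_smul]

lemma cs_up [FiniteDimensional ℂ V] (g : V →ₗ[ℂ] V) (l : ℝ) (w : V)
    (hg : ∀ x, ‖g x‖ ^ 2 ≤ l * ‖x‖ ^ 2)
    (hw : ∀ y, g (LinearMap.adjoint g y) = ((l : ℝ) : ℂ) • y → inner ℂ y w = 0) :
    ∃ c : ℝ, 0 < c ∧ ∀ x, ‖inner ℂ w (g x)‖ ^ 2 ≤ c * (l * ‖x‖ ^ 2 - ‖g x‖ ^ 2) := by
  obtain ⟨c, hc, h⟩ := cs _ (symm_form g l) (fun x => by rw [inner_form]; linarith [hg x])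
    (LinearMap.adjoint g w) (ker_form g l w hw)
  refine ⟨c, hc, fun x => ?_⟩
  have := h x
  rwa [inner_form, LinearMap.adjoint_inner_left] at this

lemma cs_lo [FiniteDimensional ℂ V] (g : V →ₗ[ℂ] V) (l : ℝ) (w : V)
    (hg : ∀ x, l * ‖x‖ ^ 2 ≤ ‖g x‖ ^ 2)
    (hw : ∀ y, g (LinearMap.adjoint g y) = ((l : ℝ) : ℂ) • y → inner ℂ y w = 0) :
    ∃ c : ℝ, 0 < c ∧ ∀ x, ‖inner ℂ w (g x)‖ ^ 2 ≤ c * (‖g x‖ ^ 2 - l * ‖x‖ ^ 2) := by
  have e : ∀ x, (inner ℂ x ((-(((l : ℝ) : ℂ) • (1 : V →ₗ[ℂ] V) - LinearMap.adjoint g ∘ₗ g)) x)).re =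
      ‖g x‖ ^ 2 - l * ‖x‖ ^ 2 := by
    intro x
    rw [LinearMap.neg_apply, inner_neg_right, Complex.neg_re, inner_form]; ring
  obtain ⟨c, hc, h⟩ := cs (-(((l : ℝ) : ℂ) • (1 : V →ₗ[ℂ] V) - LinearMap.adjoint g ∘ₗ g))
    (fun x y => by
      rw [LinearMap.neg_apply, LinearMap.neg_apply, inner_neg_left, inner_neg_right,
        symm_form g l x y]) (fun x => by rw [e]; linarith [hg x])
    (LinearMap.adjoint g w) (fun x hx => ker_form g l w hw x (by
      rw [LinearMap.neg_apply, neg_eq_zero] at hx; exact hx))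
  refine ⟨c, hc, fun x => ?_⟩
  have := h x
  rwa [e, LinearMap.adjoint_inner_left] at this

/-- the Gram determinant -/
noncomputable def D {n : Type} [Fintype n] [DecidableEq n] (u : n → V) (g : V →ₗ[ℂ] V) : ℝ :=
  (Matrix.gram ℂ (fun i => g (u i))).det.re

lemma D_pos {n : Type} [Fintype n] [DecidableEq n] (u : n → V) (hu : LinearIndependent ℂ u)
    (g : V →ₗ[ℂ] V) (hg : Function.Injective g) : 0 < D u g := by
  have h1 : LinearIndependent ℂ (fun i => g (u i)) :=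
    hu.map' g (LinearMap.ker_eq_bot.mpr hg)
  have h2 := (Matrix.posDef_gram_of_linearIndependent h1).det_pos
  exact (Complex.pos_iff.mp h2).1

lemma D_cont {n : Type} [Fintype n] [DecidableEq n] (u : n → V) :
    Continuous (fun g : V →L[ℂ] V => D u g.toLinearMap) := by
  unfold D
  refine Complex.continuous_re.comp (Continuous.matrix_det ?_)
  refine continuous_matrix fun i j => ?_
  simp only [Matrix.gram_apply, ContinuousLinearMap.coe_coe]
  fun_prop

lemma D_rk [FiniteDimensional ℂ V] {n : Type} [Fintype n] [DecidableEq n] (u : n → V)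
    (K : Submodule ℂ V) (hK : Submodule.span ℂ (Set.range u) = K) (g : V →ₗ[ℂ] V) (w : V) (t : ℝ) :
    D u (rk w t ∘ₗ g) =
      D u g * (1 + (2 * t + t ^ 2 * ‖w‖ ^ 2) * ‖(K.map g).starProjection w‖ ^ 2) := by
  unfold D
  have h := det_gram_rk (fun i => g (u i)) w t (K.map g) (by
    rw [← hK, Submodule.map_span, ← Set.range_comp]; rfl)
  simp only [LinearMap.comp_apply]
  rw [h, Complex.re_mul_ofReal]

end General

variable {ι : Type} [Fintype ι] [DecidableEq ι]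

lemma inner_cut (Y : Finset ι) (x y : E ι) : inner ℂ x (cut Y y) = inner ℂ (cut Y x) y := by
  simp only [PiLp.inner_apply, cut_apply]
  refine Finset.sum_congr rfl fun i _ => ?_
  split_ifs <;> simp

lemma rk_cm (w : E ι) (t : ℝ) (Y : Finset ι) (h : cut Y w = w ∨ cut Y w = 0) : Cm (rk w t) Y := by
  intro v
  rw [rk_apply, rk_apply, map_add, map_smul, inner_cut]
  rcases h with h | h
  · rw [h]
  · rw [h]; simp

lemma cut_disj (w : E ι) (c Y : Finset ι) (hw : cut c w = w) (h : Disjoint c Y) : cut Y w = 0 := by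
  ext i
  rw [cut_apply]
  split_ifs with hi
  · rw [← hw, cut_apply, if_neg (Finset.disjoint_right.mp h hi)]; rfl
  · rfl

lemma blk_rk (C : Finset (Finset ι)) (hC : Dj C) (g : E ι →ₗ[ℂ] E ι) (hg : Blk C g)
    (c : Finset ι) (hc : c ∈ C) (w : E ι) (hw : cut c w = w) (t : ℝ) : Blk C (rk w t ∘ₗ g) := by
  refine ⟨fun c' hc' v => ?_, fun v => ?_⟩
  · have h : cut c' w = w ∨ cut c' w = 0 := by
      by_cases e : c = c'
      · left; rw [← e]; exact hw
      · right; exact cut_disj w c c' hw (hC c hc c' hc' e)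
    rw [LinearMap.comp_apply, LinearMap.comp_apply, hg.1 c' hc' v, rk_cm w t c' h]
  · have h : cut (un C)ᶜ w = 0 := by
      refine cut_disj w c _ hw ?_
      rw [Finset.disjoint_left]
      intro i hi hi'
      exact (Finset.mem_compl.mp hi') (Finset.mem_biUnion.mpr ⟨c, hc, hi⟩)
    rw [LinearMap.comp_apply, hg.2 v, rk_apply, inner_cut, h]
    simp

lemma compact_set (C : Finset (Finset ι)) (κ : ℝ) (hκ : 0 ≤ κ) :
    IsCompact {g : E ι →L[ℂ] E ι | Blk C g.toLinearMap ∧ Bd g.toLinearMap κ⁻¹ κ} := by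
  have : ProperSpace (E ι →L[ℂ] E ι) := FiniteDimensional.proper ℂ _
  apply Metric.isCompact_of_isClosed_isBounded
  · have hc : ∀ Y : Finset ι, Continuous (cut Y : E ι → E ι) := fun Y =>
      (cut Y).continuous_of_finiteDimensional
    simp only [Blk, Cm, Bd, Set.ofPred_and, Set.ofPred_forall, ContinuousLinearMap.coe_coe]
    refine IsClosed.inter (IsClosed.inter ?_ ?_) ?_
    · refine isClosed_iInter fun c => isClosed_iInter fun _ => isClosed_iInter fun v => ?_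
      exact isClosed_eq (by fun_prop) ((hc c).comp (by fun_prop))
    · exact isClosed_iInter fun v => isClosed_eq (by fun_prop) continuous_const
    · refine isClosed_iInter fun v => IsClosed.inter ?_ ?_
      · exact isClosed_le continuous_const (by fun_prop)
      · exact isClosed_le (by fun_prop) continuous_const
  · refine (Metric.isBounded_closedBall (x := (0 : E ι →L[ℂ] E ι)) (r := κ)).subset ?_
    intro g hg
    rw [mem_closedBall_zero_iff]
    exact g.opNorm_le_bound hκ fun v => (hg.2 v).2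

omit [DecidableEq ι] in
lemma bd_inj (g : E ι →ₗ[ℂ] E ι) (lo hi : ℝ) (hlo : 0 < lo) (h : Bd g lo hi) :
    Function.Injective g := by
  rw [← LinearMap.ker_eq_bot, LinearMap.ker_eq_bot']
  intro v hv
  have := (h v).1
  rw [hv, norm_zero] at this
  have h2 : ‖v‖ ≤ 0 := by
    by_contra h3
    push Not at h3
    have := mul_pos hlo h3
    linarith
  exact norm_le_zero_iff.mp h2

omit [DecidableEq ι] in
lemma bd_iff (g : E ι →ₗ[ℂ] E ι) (lo hi : ℝ) (hlo : 0 ≤ lo) (hhi : 0 ≤ hi) :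
    Bd g lo hi ↔ ∀ v, lo ^ 2 * ‖v‖ ^ 2 ≤ ‖g v‖ ^ 2 ∧ ‖g v‖ ^ 2 ≤ hi ^ 2 * ‖v‖ ^ 2 := by
  refine forall_congr' fun v => ?_
  rw [← mul_pow, ← mul_pow, sq_le_sq₀ (by positivity) (by positivity),
    sq_le_sq₀ (by positivity) (by positivity)]

/-- existence of the minimiser and its first order condition -/
lemma exists_min (C : Finset (Finset ι)) (K : Submodule ℂ (E ι)) (κ : ℝ) (hC : Dj C) (hκ : 1 < κ) :
    ∃ g : E ι →ₗ[ℂ] E ι, Blk C g ∧ Bd g κ⁻¹ κ ∧ ∀ c ∈ C, ∀ w : E ι, cut c w = w → ∀ t : ℝ,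
      Bd (rk w t ∘ₗ g) κ⁻¹ κ →
        (1 + t * ‖w‖ ^ 2) ^ 2 ≤ (1 + (2 * t + t ^ 2 * ‖w‖ ^ 2) * ‖pr (K.map g) w‖ ^ 2) ^ 2 := by
  have hκ0 : 0 < κ := by linarith
  let b := Module.finBasis ℂ K
  let u : Fin (finrank ℂ K) → E ι := fun i => (b i : E ι)
  have hu : LinearIndependent ℂ u := b.linearIndependent.map' K.subtype K.ker_subtype
  have hus : Submodule.span ℂ (Set.range u) = K := by
    have : Set.range u = K.subtype '' Set.range b := by rw [← Set.range_comp]; rfl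
    rw [this, ← Submodule.map_span, b.span_eq, Submodule.map_top, Submodule.range_subtype]
  let e := Module.finBasis ℂ (E ι)
  let J : (E ι →L[ℂ] E ι) → ℝ := fun g => D u g.toLinearMap ^ 2 / D e g.toLinearMap
  have hpos : ∀ g : E ι →ₗ[ℂ] E ι, Bd g κ⁻¹ κ → 0 < D u g ∧ 0 < D e g := fun g hg =>
    ⟨D_pos u hu g (bd_inj g _ _ (inv_pos.mpr hκ0) hg),
      D_pos e e.linearIndependent g (bd_inj g _ _ (inv_pos.mpr hκ0) hg)⟩
  have hJ : ContinuousOn J
      {g : E ι →L[ℂ] E ι | Blk C g.toLinearMap ∧ Bd g.toLinearMap κ⁻¹ κ} := by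
    refine ContinuousOn.div ((D_cont u).pow 2).continuousOn (D_cont e).continuousOn ?_
    intro g hg
    exact (hpos _ hg.2).2.ne'
  have hne : Set.Nonempty
      {g : E ι →L[ℂ] E ι | Blk C g.toLinearMap ∧ Bd g.toLinearMap κ⁻¹ κ} := by
    refine ⟨ContinuousLinearMap.id ℂ _, ⟨fun c _ v => rfl, fun v => rfl⟩, fun v => ⟨?_, ?_⟩⟩
    · exact mul_le_of_le_one_left (norm_nonneg _) (inv_le_one_of_one_le₀ hκ.le)
    · exact le_mul_of_one_le_left (norm_nonneg _) hκ.le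
  obtain ⟨g, hg, hmin⟩ := (compact_set C κ hκ0.le).exists_isMinOn hne hJ
  refine ⟨g.toLinearMap, hg.1, hg.2, fun c hc w hw t ht => ?_⟩
  have h1 : J g ≤ J (LinearMap.toContinuousLinearMap (rk w t ∘ₗ g.toLinearMap)) :=
    hmin (show _ ∧ _ from ⟨blk_rk C hC _ hg.1 c hc w hw t, ht⟩)
  have h2 := hpos _ hg.2
  have h3 := hpos _ ht
  simp only [J, LinearMap.coe_toContinuousLinearMap] at h1
  rw [div_le_div_iff₀ h2.2 h3.2, D_rk u K hus, D_rk e ⊤ e.span_eq] at h1
  have htop : (⊤ : Submodule ℂ (E ι)).map g.toLinearMap = ⊤ := by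
    rw [Submodule.map_top, LinearMap.range_eq_top]
    exact LinearMap.injective_iff_surjective.mp (bd_inj _ _ _ (inv_pos.mpr hκ0) hg.2)
  have h4 : ((⊤ : Submodule ℂ (E ι)).map g.toLinearMap).starProjection w = w := by
    rw [Submodule.starProjection_eq_self_iff, htop]; trivial
  rw [h4] at h1
  rw [pr_apply]
  have h5 : 0 < D u g.toLinearMap ^ 2 * D e g.toLinearMap := mul_pos (pow_pos h2.1 2) h2.2
  refine le_of_mul_le_mul_left ?_ h5
  calc _ = D u g.toLinearMap ^ 2 *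
        (D e g.toLinearMap * (1 + (2 * t + t ^ 2 * ‖w‖ ^ 2) * ‖w‖ ^ 2)) := by ring
    _ ≤ _ := h1
    _ = _ := by ring

lemma real_up (N p c : ℝ) (hN : 0 ≤ N) (hp : 0 ≤ p) (hc : 0 < c)
    (h : ∀ t : ℝ, 0 < t → (2 * t + t ^ 2 * N) * c ≤ 1 →
      (1 + t * N) ^ 2 ≤ (1 + (2 * t + t ^ 2 * N) * p) ^ 2) : N / 2 ≤ p := by
  by_contra hcon
  push Not at hcon
  have hd : 0 < N - 2 * p := by linarith
  set t : ℝ := min (min 1 (1 / ((2 + N) * c))) ((N - 2 * p) / (N * p + 1)) with ht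
  have ht0 : 0 < t := by positivity
  have ht1 : t ≤ 1 := (min_le_left _ _).trans (min_le_left _ _)
  have ht2 : t ≤ 1 / ((2 + N) * c) := (min_le_left _ _).trans (min_le_right _ _)
  have ht3 : t ≤ (N - 2 * p) / (N * p + 1) := min_le_right _ _
  rw [le_div_iff₀ (by positivity)] at ht2 ht3
  have h1 : (2 * t + t ^ 2 * N) * c ≤ 1 := by
    have : t ^ 2 * N ≤ t * N := mul_le_mul_of_nonneg_right (by nlinarith) hN
    nlinarith
  have h2 := h t ht0 h1
  rw [sq_le_sq₀ (by positivity) (by positivity)] at h2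
  have h3 : t * N ≤ t * ((2 + t * N) * p) := by nlinarith
  have h4 := le_of_mul_le_mul_left h3 ht0
  nlinarith

lemma real_lo (N p c : ℝ) (hp : 0 ≤ p) (hpN : p ≤ N) (hc : 0 < c)
    (h : ∀ t : ℝ, 2 * t + t ^ 2 * N ≤ 0 → -(2 * t + t ^ 2 * N) * c ≤ 1 →
      (1 + t * N) ^ 2 ≤ (1 + (2 * t + t ^ 2 * N) * p) ^ 2) : p ≤ N / 2 := by
  by_contra hcon
  push Not at hcon
  have hN : 0 ≤ N := hp.trans hpN
  have hd : 0 < 2 * p - N := by linarith
  set t : ℝ := min (min (1 / (N + 1)) (1 / (2 * c))) ((2 * p - N) / (N * p + 1)) with ht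
  have ht0 : 0 < t := by positivity
  have ht1 : t ≤ 1 / (N + 1) := (min_le_left _ _).trans (min_le_left _ _)
  have ht2 : t ≤ 1 / (2 * c) := (min_le_left _ _).trans (min_le_right _ _)
  have ht3 : t ≤ (2 * p - N) / (N * p + 1) := min_le_right _ _
  rw [le_div_iff₀ (by positivity)] at ht1 ht2 ht3
  have h0 : 2 * (-t) + (-t) ^ 2 * N ≤ 0 := by nlinarith
  have h1 : -(2 * (-t) + (-t) ^ 2 * N) * c ≤ 1 := by
    have : 0 ≤ (-t) ^ 2 * N * c := by positivity
    nlinarith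
  have h2 := h (-t) h0 h1
  have h5 : 0 ≤ 1 + (2 * (-t) + (-t) ^ 2 * N) * p := by
    have : (2 * (-t) + (-t) ^ 2 * N) * N ≤ (2 * (-t) + (-t) ^ 2 * N) * p :=
      mul_le_mul_of_nonpos_left hpN h0
    nlinarith [sq_nonneg (1 + (-t) * N)]
  have h6 := le_trans (le_abs_self _) (abs_le_of_sq_le_sq h2 h5)
  have h3 : t * ((2 - t * N) * p) ≤ t * N := by nlinarith
  have h4 := le_of_mul_le_mul_left h3 ht0
  nlinarith

end SCL

open SCL in
theorem SCL_proof : SclStmt := by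
  intro ι _ _ C K κ hC hκ
  have hκ0 : 0 < κ := by linarith
  obtain ⟨g, hg1, hg2, hmin⟩ := exists_min C K κ hC hκ
  have hb := (bd_iff g _ _ (inv_pos.mpr hκ0).le hκ0.le).mp hg2
  refine ⟨g, hg1, hg2, fun c hc w hw => ⟨fun h => ?_, fun h => ?_⟩⟩
  · obtain ⟨a, ha, hcs⟩ := cs_up g (κ ^ 2) w (fun x => (hb x).2) h
    refine real_up _ _ a (by positivity) (by positivity) ha fun t ht hs => hmin c hc w hw t ?_
    rw [bd_iff _ _ _ (inv_pos.mpr hκ0).le hκ0.le]
    intro v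
    rw [LinearMap.comp_apply, norm_rk]
    have hs0 : 0 ≤ 2 * t + t ^ 2 * ‖w‖ ^ 2 := by positivity
    constructor
    · have : 0 ≤ (2 * t + t ^ 2 * ‖w‖ ^ 2) * ‖inner ℂ w (g v)‖ ^ 2 := by positivity
      linarith [(hb v).1]
    · have h1 := mul_le_mul_of_nonneg_left (hcs v) hs0
      have h2 : 0 ≤ κ ^ 2 * ‖v‖ ^ 2 - ‖g v‖ ^ 2 := by linarith [(hb v).2]
      have h3 := mul_le_mul_of_nonneg_right hs h2
      nlinarith
  · obtain ⟨a, ha, hcs⟩ := cs_lo g (κ⁻¹ ^ 2) w (fun x => (hb x).1) h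
    have hpN : ‖pr (K.map g) w‖ ^ 2 ≤ ‖w‖ ^ 2 :=
      pow_le_pow_left₀ (norm_nonneg _) ((K.map g).norm_starProjection_apply_le w) 2
    refine real_lo _ _ a (by positivity) hpN ha fun t ht hs => hmin c hc w hw t ?_
    rw [bd_iff _ _ _ (inv_pos.mpr hκ0).le hκ0.le]
    intro v
    rw [LinearMap.comp_apply, norm_rk]
    constructor
    · have h1 := mul_le_mul_of_nonneg_left (hcs v) (neg_nonneg.mpr ht)
      have h2 : 0 ≤ ‖g v‖ ^ 2 - κ⁻¹ ^ 2 * ‖v‖ ^ 2 := by linarith [(hb v).1]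
      have h3 := mul_le_mul_of_nonneg_right hs h2
      nlinarith
    · have : (2 * t + t ^ 2 * ‖w‖ ^ 2) * ‖inner ℂ w (g v)‖ ^ 2 ≤ 0 :=
        mul_nonpos_of_nonpos_of_nonneg ht (by positivity)
      linarith [(hb v).2]

end Crest.Agent.R113
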