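import Crest.Agent.R113.DefsL

/-! Row 113, task SPEC: spectral splitting. -/

set_option autoImplicit false

namespace Crest.Agent.R113

open Finset Module

namespace SPEC

variable {K F : Type} [NormedAddCommGroup K] [InnerProductSpace ℂ K] [NormedAddCommGroup F]
  [InnerProductSpace ℂ F]

theorem span_facts {n : ℕ} (b : OrthonormalBasis (Fin n) ℂ K) (I : Finset (Fin n)) :
    finrank ℂ (Submodule.span ℂ (Set.range fun i : I => b i)) = I.card ∧
      ∀ x ∈ Submodule.span ℂ (Set.range fun i : I => b i), ∀ j ∉ I, b.repr x j = 0 := by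
  refine ⟨?_, fun x hx j hj => ?_⟩
  · have h : LinearIndependent ℂ (fun i : I => b i) :=
      b.orthonormal.linearIndependent.comp _ Subtype.val_injective
    rw [finrank_span_eq_card h]
    simp
  · induction hx using Submodule.span_induction with
    | mem x h =>
      obtain ⟨i, rfl⟩ := h
      have : j ≠ i.1 := fun h => hj (h ▸ i.2)
      simp [this]
    | zero => simp
    | add x y _ _ h1 h2 => simp [h1, h2]
    | smul c x _ h => simp [h]

theorem split [FiniteDimensional ℂ K] [FiniteDimensional ℂ F] (A : K →ₗ[ℂ] F) (t : ℝ)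
    (ht : 0 ≤ t) : ∃ K₁ K₂ : Submodule ℂ K, finrank ℂ K₁ + finrank ℂ K₂ = finrank ℂ K ∧
      (∀ v ∈ K₁, ‖A v‖ ≤ t * ‖v‖) ∧ ∀ v ∈ K₂, t * ‖v‖ ≤ ‖A v‖ := by
  have hT : (LinearMap.adjoint A ∘ₗ A).IsSymmetric := fun x y => by
    simp only [LinearMap.comp_apply, LinearMap.adjoint_inner_left, LinearMap.adjoint_inner_right]
  set b := hT.eigenvectorBasis rfl with hb
  set μ := hT.eigenvalues rfl with hμ
  have h1 : ∀ x : K, ‖A x‖ ^ 2 = ∑ i, μ i * ‖b.repr x i‖ ^ 2 := by
    intro x
    have e1 : inner ℂ x ((LinearMap.adjoint A ∘ₗ A) x) = ((‖A x‖ ^ 2 : ℝ) : ℂ) := by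
      rw [LinearMap.comp_apply, LinearMap.adjoint_inner_right, inner_self_eq_norm_sq_to_K]
      simp
    rw [← b.repr.inner_map_map, PiLp.inner_apply] at e1
    have e2 : ∀ i, b.repr ((LinearMap.adjoint A ∘ₗ A) x) i = (μ i : ℂ) * b.repr x i := fun i =>
      hT.eigenvectorBasis_apply_self_apply rfl x i
    simp only [e2] at e1
    apply Complex.ofReal_injective
    rw [← e1]
    push_cast
    refine sum_congr rfl fun i _ => ?_
    rw [RCLike.inner_apply, mul_assoc, Complex.mul_conj']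
  have h2 : ∀ x : K, ‖x‖ ^ 2 = ∑ i, ‖b.repr x i‖ ^ 2 := by
    intro x
    rw [← EuclideanSpace.norm_sq_eq, b.repr.norm_map]
  obtain ⟨f1, g1⟩ := span_facts b (univ.filter fun i => μ i ≤ t ^ 2)
  obtain ⟨f2, g2⟩ := span_facts b (univ.filter fun i => ¬ μ i ≤ t ^ 2)
  refine ⟨_, _, (congrArg₂ (· + ·) f1 f2).trans
    (by rw [card_filter_add_card_filter_not, card_univ, Fintype.card_fin]),
    fun x hx => ?_, fun x hx => ?_⟩
  · refine (pow_le_pow_iff_left₀ (norm_nonneg _) (by positivity) two_ne_zero).1 ?_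
    rw [h1, mul_pow, h2, mul_sum]
    refine sum_le_sum fun i _ => ?_
    by_cases h : μ i ≤ t ^ 2
    · exact mul_le_mul_of_nonneg_right h (sq_nonneg _)
    · rw [g1 x hx i (by simpa using h)]; simp
  · refine (pow_le_pow_iff_left₀ (by positivity) (norm_nonneg _) two_ne_zero).1 ?_
    rw [h1, mul_pow, h2, mul_sum]
    refine sum_le_sum fun i _ => ?_
    by_cases h : μ i ≤ t ^ 2
    · rw [g2 x hx i (by simpa using h)]; simp
    · exact mul_le_mul_of_nonneg_right (not_le.1 h).le (sq_nonneg _)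

end SPEC

theorem SPEC_proof : SpecStmt := by
  intro ι _ _ K B t ht
  obtain ⟨K₁, K₂, h1, h2, h3⟩ := SPEC.split (K := K) (F := E ι) (B ∘ₗ K.subtype) t ht
  refine ⟨K₁.map K.subtype, K₂.map K.subtype, Submodule.map_subtype_le _ _,
    Submodule.map_subtype_le _ _, by
      rw [Submodule.finrank_map_subtype_eq, Submodule.finrank_map_subtype_eq, h1], ?_, ?_⟩
  · rintro _ ⟨x, hx, rfl⟩
    exact h2 x hx
  · rintro _ ⟨x, hx, rfl⟩
    exact h3 x hx

end Crest.Agent.R113
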