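import Crest.Agent.R113.DefsL

set_option autoImplicit false

namespace Crest.Agent.R113

open Finset Module

namespace SUB

variable {ι : Type} [Fintype ι] [DecidableEq ι]

lemma inner_cut (Y : Finset ι) (x y : E ι) : inner ℂ (cut Y x) y = inner ℂ x (cut Y y) := by
  rw [PiLp.inner_apply, PiLp.inner_apply]
  refine Finset.sum_congr rfl fun j _ => ?_
  by_cases h : j ∈ Y <;> simp [h]

lemma cut_add_compl (Y : Finset ι) (x : E ι) : cut Y x + cut Yᶜ x = x := by
  ext j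
  by_cases h : j ∈ Y <;> simp [h]

omit [Fintype ι] in
lemma cut_cut (Y : Finset ι) (x : E ι) : cut Y (cut Y x) = cut Y x := by
  ext j
  by_cases h : j ∈ Y <;> simp [h]

omit [Fintype ι] in
lemma sum_cut {C : Finset (Finset ι)} (hC : Dj C) (x : E ι) :
    ∑ c ∈ C, cut c x = cut (un C) x := by
  ext j
  rw [WithLp.ofLp_sum, Finset.sum_apply]
  simp only [cut_apply]
  by_cases h : j ∈ un C
  · rw [if_pos h]
    obtain ⟨c, hc, hj⟩ := mem_biUnion.1 h
    rw [Finset.sum_eq_single c]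
    · exact if_pos hj
    · intro c' hc' hne
      exact if_neg fun hj' => Finset.disjoint_left.1 (hC c' hc' c hc hne) hj' hj
    · intro h'; exact absurd hc h'
  · rw [if_neg h]
    exact Finset.sum_eq_zero fun c hc => if_neg fun hj => h (mem_biUnion.2 ⟨c, hc, hj⟩)

omit [DecidableEq ι] in
lemma inner_pr_self (K : Submodule ℂ (E ι)) (v : E ι) :
    inner ℂ v (pr K v) = ((‖pr K v‖ ^ 2 : ℝ) : ℂ) := by
  have h : inner ℂ (v - pr K v) (pr K v) = 0 :=
    Submodule.inner_left_of_mem_orthogonal (K.starProjection_apply_mem v)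
      (K.sub_starProjection_mem_orthogonal v)
  rw [inner_sub_left, sub_eq_zero] at h
  rw [h, inner_self_eq_norm_sq_to_K]
  norm_cast

omit [DecidableEq ι] in
lemma inner_pr_mem (G : Submodule ℂ (E ι)) (u v : E ι) (hv : v ∈ G) :
    inner ℂ (pr G u) v = inner ℂ u v := by
  have h : inner ℂ (u - pr G u) v = 0 :=
    Submodule.inner_left_of_mem_orthogonal hv (G.sub_starProjection_mem_orthogonal u)
  rw [inner_sub_left, sub_eq_zero] at h
  exact h.symm

omit [Fintype ι] in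
lemma cut_ev_of_not {c : Finset ι} {j : ι} (h : j ∉ c) : cut c (ev j : E ι) = 0 := by
  ext k
  by_cases hk : k ∈ c
  · have : k ≠ j := fun e => h (e ▸ hk)
    simp [hk, ev, this]
  · simp [hk]

lemma hs_sum {C : Finset (Finset ι)} (hC : Dj C) (A : Finset ι → E ι →ₗ[ℂ] E ι) :
    hs (∑ c ∈ C, A c ∘ₗ cut c) = ∑ c ∈ C, hs (A c ∘ₗ cut c) := by
  unfold hs
  rw [Finset.sum_comm]
  refine Finset.sum_congr rfl fun j _ => ?_
  rw [LinearMap.sum_apply]
  by_cases h : ∃ c ∈ C, j ∈ c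
  · obtain ⟨c, hc, hj⟩ := h
    have h0 : ∀ c' ∈ C, c' ≠ c → (A c' ∘ₗ cut c') (ev j) = 0 := by
      intro c' hc' hne
      rw [LinearMap.comp_apply,
        cut_ev_of_not fun hj' => Finset.disjoint_left.1 (hC c' hc' c hc hne) hj' hj, map_zero]
    rw [Finset.sum_eq_single c h0 (fun h' => absurd hc h'), Finset.sum_eq_single c]
    · intro c' hc' hne
      rw [h0 c' hc' hne]; simp
    · intro h'; exact absurd hc h'
  · push Not at h
    have h0 : ∀ c ∈ C, (A c ∘ₗ cut c) (ev j) = 0 := by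
      intro c hc
      rw [LinearMap.comp_apply, cut_ev_of_not (h c hc), map_zero]
    rw [Finset.sum_eq_zero h0, Finset.sum_eq_zero fun c hc => by rw [h0 c hc]; simp]
    simp

lemma norm_sq_sum {C : Finset (Finset ι)} (hC : Dj C) (v : E ι) (hv : cut (un C) v = v) :
    ‖v‖ ^ 2 = ∑ c ∈ C, ‖cut c v‖ ^ 2 := by
  have h1 : ((‖v‖ ^ 2 : ℝ) : ℂ) = ((∑ c ∈ C, ‖cut c v‖ ^ 2 : ℝ) : ℂ) := by
    have h2 : inner ℂ v v = ((‖v‖ ^ 2 : ℝ) : ℂ) := by
      rw [inner_self_eq_norm_sq_to_K]; norm_cast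
    rw [← h2]
    conv_lhs => rw [← hv, ← sum_cut hC]
    rw [sum_inner]
    push_cast
    refine Finset.sum_congr rfl fun c _ => ?_
    rw [sum_cut hC, hv, ← cut_cut c v, inner_cut, cut_cut, inner_self_eq_norm_sq_to_K]
    norm_cast
  exact_mod_cast h1

lemma key {C : Finset (Finset ι)} (hC : Dj C) (K : Submodule ℂ (E ι)) (v : E ι)
    (hv : cut (un C) v = v) :
    inner ℂ v (pr K v) = ((∑ c ∈ C, ‖pr K (cut c v)‖ ^ 2 : ℝ) : ℂ) +
      inner ℂ v ((∑ c ∈ C, (cut cᶜ ∘ₗ pr K) ∘ₗ cut c) v) := by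
  have h1 : pr K v = ∑ c ∈ C, pr K (cut c v) := by
    rw [← map_sum, sum_cut hC, hv]
  rw [h1, inner_sum, LinearMap.sum_apply, inner_sum]
  push_cast
  rw [← Finset.sum_add_distrib]
  refine Finset.sum_congr rfl fun c _ => ?_
  have h2 := inner_pr_self K (cut c v)
  push_cast at h2
  rw [← h2, inner_cut, ← inner_add_right]
  simp only [Function.comp_apply]
  rw [cut_add_compl]

end SUB

open SUB in
theorem SUB_proof (hBas : BasStmt) (hSpec : SpecStmt) : SubStmt := by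
  intro ι _ _ C K G hC hG hw
  obtain ⟨-, -, hmass, hhs, -⟩ := hBas ι
  set D : E ι →ₗ[ℂ] E ι := ∑ c ∈ C, (cut cᶜ ∘ₗ pr K) ∘ₗ cut c with hD
  have hsD : hs D = ∑ c ∈ C, cross K c := by
    rw [hD, hs_sum hC (fun c => cut cᶜ ∘ₗ pr K)]
    refine Finset.sum_congr rfl fun c _ => ?_
    rw [(hmass K c).2.2.1, LinearMap.comp_assoc]
  obtain ⟨G₁, G₂, h1, h2, hdim, hle, hge⟩ := hSpec ι G D (1 / 4) (by norm_num)
  have hG₂ : (1 / 16 : ℝ) * finrank ℂ G₂ ≤ hs D := by
    refine (hhs D).2.2.2 G₂ _ fun v hv => ?_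
    have := hge v hv
    have h0 : 0 ≤ 1 / 4 * ‖v‖ := by positivity
    nlinarith [norm_nonneg v]
  have hq : ∀ v ∈ G₁, ‖v‖ ≤ 2 * ‖pr K v‖ := by
    intro v hv
    have hvG := h1 hv
    have hk := key hC K v (hG.2 v hvG)
    rw [inner_pr_self] at hk
    have hre := congrArg Complex.re hk
    rw [Complex.add_re, Complex.ofReal_re, Complex.ofReal_re] at hre
    have h3 : |(inner ℂ v (D v)).re| ≤ ‖v‖ * ‖D v‖ :=
      (Complex.abs_re_le_norm _).trans (norm_inner_le_norm _ _)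
    have h4 : ‖v‖ ^ 2 / 2 ≤ ∑ c ∈ C, ‖pr K (cut c v)‖ ^ 2 := by
      rw [norm_sq_sum hC v (hG.2 v hvG), Finset.sum_div]
      exact Finset.sum_le_sum fun c hc => hw c hc _ (hG.1 c hc v hvG) (cut_cut c v)
    have h5 := hle v hv
    have h6 : ‖v‖ * ‖D v‖ ≤ ‖v‖ * (1 / 4 * ‖v‖) := mul_le_mul_of_nonneg_left h5 (norm_nonneg _)
    have h7 := (abs_le.1 h3).1
    have h8 : ‖v‖ ^ 2 ≤ (2 * ‖pr K v‖) ^ 2 := by nlinarith
    exact (pow_le_pow_iff_left₀ (norm_nonneg _) (by positivity) two_ne_zero).1 h8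
  refine ⟨G₁.map (pr K), ?_, ?_, ?_⟩
  · rintro _ ⟨v, -, rfl⟩
    exact K.starProjection_apply_mem v
  · have hinj : Function.Injective ((pr K).domRestrict G₁) := by
      rw [← LinearMap.ker_eq_bot, Submodule.eq_bot_iff]
      rintro ⟨v, hv⟩ h0
      rw [LinearMap.mem_ker, LinearMap.domRestrict_apply] at h0
      have := hq v hv
      simp only at h0
      rw [h0, norm_zero, mul_zero] at this
      exact Subtype.ext (norm_le_zero_iff.1 this)
    have hfr : finrank ℂ (G₁.map (pr K)) = finrank ℂ G₁ := by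
      rw [← LinearMap.finrank_range_of_inj hinj, LinearMap.range_domRestrict]
    rw [hfr, ← hsD]
    have : (finrank ℂ G : ℝ) = finrank ℂ G₁ + finrank ℂ G₂ := by exact_mod_cast hdim.symm
    linarith
  · rintro _ ⟨v, hv, rfl⟩
    have e1 : inner ℂ v (pr G (pr K v)) = ((‖pr K v‖ ^ 2 : ℝ) : ℂ) := by
      rw [← inner_pr_self, ← inner_conj_symm, inner_pr_mem G _ v (h1 hv), inner_conj_symm]
    have e2 : ‖pr K v‖ ^ 2 ≤ ‖v‖ * ‖pr G (pr K v)‖ := by
      have := norm_inner_le_norm (𝕜 := ℂ) v (pr G (pr K v))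
      rw [e1, Complex.norm_real, Real.norm_eq_abs, abs_of_nonneg (by positivity)] at this
      exact this
    have e3 := hq v hv
    by_cases h0 : ‖pr K v‖ = 0
    · rw [h0]; positivity
    · have hp : 0 < ‖pr K v‖ := lt_of_le_of_ne (norm_nonneg _) (Ne.symm h0)
      have e4 : ‖v‖ * ‖pr G (pr K v)‖ ≤ 2 * ‖pr K v‖ * ‖pr G (pr K v)‖ :=
        mul_le_mul_of_nonneg_right e3 (norm_nonneg _)
      nlinarith

end Crest.Agent.R113
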