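import Crest.Agent.R113.DefsL

set_option autoImplicit false
set_option linter.unusedSectionVars false

namespace Crest.Agent.R113

open Finset Module

namespace TILT

variable {ι : Type} [Fintype ι] [DecidableEq ι]

lemma norm_cut_le (Y : Finset ι) (v : E ι) : ‖cut Y v‖ ≤ ‖v‖ := by
  rw [EuclideanSpace.norm_eq, EuclideanSpace.norm_eq]
  apply Real.sqrt_le_sqrt
  apply Finset.sum_le_sum
  intro i _
  by_cases h : i ∈ Y <;> simp [h]

lemma cut_add_cut (Y : Finset ι) (v : E ι) : cut Y v + cut Yᶜ v = v := by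
  ext i
  by_cases h : i ∈ Y <;> simp [h]

lemma cut_wp (π : Equiv.Perm ι) (a : ι → ℝ) (Y : Finset ι) (v : E ι) :
    cut (Y.image π) (wp π a v) = wp π a (cut Y v) := by
  ext i
  have : i ∈ Y.image π ↔ π⁻¹ i ∈ Y := by
    rw [Finset.mem_image]
    constructor
    · rintro ⟨j, hj, rfl⟩; simpa using hj
    · intro h; exact ⟨π⁻¹ i, h, by simp⟩
  by_cases h : π⁻¹ i ∈ Y
  · rw [cut_apply, if_pos (this.2 h), wp_apply, wp_apply, cut_apply, if_pos h]
  · have h' : i ∉ Y.image π := fun h' => h (this.1 h')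
    rw [cut_apply, if_neg h', wp_apply, cut_apply, if_neg h, mul_zero]

lemma cut_wp_compl (π : Equiv.Perm ι) (a : ι → ℝ) (Y : Finset ι) (v : E ι) :
    cut (Y.image π)ᶜ (wp π a v) = wp π a (cut Yᶜ v) := by
  have h1 := cut_add_cut (Y.image π) (wp π a v)
  have h2 : wp π a (cut Y v) + wp π a (cut Yᶜ v) = wp π a v := by
    rw [← map_add, cut_add_cut]
  rw [cut_wp] at h1
  exact add_left_cancel (h1.trans h2.symm)

lemma norm_pr_le (K : Submodule ℂ (E ι)) (v : E ι) : ‖pr K v‖ ≤ ‖v‖ :=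
  K.norm_starProjection_apply_le v

lemma pr_add_pr (K : Submodule ℂ (E ι)) (v : E ι) : pr K v + pr Kᗮ v = v :=
  K.starProjection_add_starProjection_orthogonal v

end TILT

open TILT in
theorem TILT_proof (hBas : BasStmt) (hSpec : SpecStmt) : TiltStmt := by
  intro ι _ _ K π a Z X m ε hm hε hε2 ha
  obtain ⟨-, hsum, hmass, hB, -, hup, hlow, hker, hinf⟩ := hBas ι
  obtain ⟨K₁, K₂, h1K, h2K, hdim12, hK1, hK2⟩ := hSpec ι K (cut Zᶜ) ε hε.le
  have ht : 0 < m * ε ^ 2 := by positivity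
  obtain ⟨K₃, K₄, h3K, h4K, hdim34, hK3, hK4⟩ :=
    hSpec ι K (pr Kᗮ ∘ₗ wp π a ∘ₗ pr K) (m * ε ^ 2) ht.le
  refine ⟨K₁, h1K, hK1, ?_⟩
  -- dimension of `K₄`
  have hd4 : (m * ε ^ 2) ^ 2 * finrank ℂ K₄ ≤ dfc K (wp π a) := by
    refine (hB (pr Kᗮ ∘ₗ wp π a ∘ₗ pr K)).2.2.2 K₄ _ ?_
    intro v hv
    have := hK4 v hv
    have h0 : 0 ≤ m * ε ^ 2 * ‖v‖ := by positivity
    calc (m * ε ^ 2) ^ 2 * ‖v‖ ^ 2 = (m * ε ^ 2 * ‖v‖) ^ 2 := by ring
      _ ≤ _ := pow_le_pow_left₀ h0 this 2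
  have hd4' : (finrank ℂ K₄ : ℝ) ≤ dfc K (wp π a) / (m * ε ^ 2) ^ 2 := by
    rw [le_div_iff₀ (by positivity)]; linarith
  set F : Submodule ℂ (E ι) := (K₂ ⊓ K₃) ⊓ LinearMap.ker (cut X) with hF
  have hF1 := hker (K₂ ⊓ K₃) X
  have hF2 := hinf K K₂ K₃ h2K h3K
  set A : Finset ι := Zᶜ.image π with hA
  -- the estimates on `F`
  have hest : ∀ v ∈ F, m * ε * ‖v‖ ≤ ‖wp π a v‖ ∧
      (1 - 2 * ε) * ‖wp π a v‖ ≤ ‖pr K (cut A (wp π a v))‖ := by
    intro v hv
    obtain ⟨⟨hv2, hv3⟩, hvX⟩ := hv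
    have hvX' : ∀ j ∈ X, v j = 0 := by
      intro j hj
      have : cut X v = 0 := hvX
      have h := congrArg (fun w : E ι => w j) this
      simpa [hj] using h
    have hvK : v ∈ K := h2K hv2
    have e1 : m * ‖cut Zᶜ v‖ ≤ ‖wp π a (cut Zᶜ v)‖ := by
      apply hlow π a m _ hm.le
      intro j hj
      have hjZ : j ∉ Z := by
        intro h; apply hj; simp [h]
      have hjX : j ∉ X := by
        intro h; apply hj; simp [hvX' j h]
      exact ((ha j hjX).1 hjZ).trans (le_abs_self _)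
    have e2 : ‖wp π a (cut Z v)‖ ≤ m * ε ^ 2 * ‖cut Z v‖ := by
      apply hup π a _ _ ht.le
      intro j hj
      have hjZ : j ∈ Z := by
        by_contra h; apply hj; simp [h]
      have hjX : j ∉ X := by
        intro h; apply hj; simp [hvX' j h]
      exact (ha j hjX).2 hjZ
    have e3 : ‖wp π a (cut Zᶜ v)‖ ≤ ‖wp π a v‖ := by
      rw [← cut_wp]; exact norm_cut_le _ _
    have e4 : m * ε * ‖v‖ ≤ ‖wp π a v‖ := by
      have := mul_le_mul_of_nonneg_left (hK2 v hv2) hm.le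
      linarith
    have e5 : m * ε ^ 2 * ‖v‖ ≤ ε * ‖wp π a v‖ := by
      have := mul_le_mul_of_nonneg_left e4 hε.le
      nlinarith
    have e6 : ‖cut Aᶜ (wp π a v)‖ ≤ ε * ‖wp π a v‖ := by
      rw [hA, cut_wp_compl, compl_compl]
      have := mul_le_mul_of_nonneg_left (norm_cut_le Z v) ht.le
      linarith
    have e7 : ‖pr Kᗮ (wp π a v)‖ ≤ ε * ‖wp π a v‖ := by
      have h := hK3 v hv3
      have hp : pr K v = v := Submodule.starProjection_eq_self_iff.2 hvK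
      simp only [LinearMap.comp_apply, hp] at h
      linarith
    refine ⟨e4, ?_⟩
    have e8 : wp π a v = pr K (cut A (wp π a v)) + pr K (cut Aᶜ (wp π a v)) +
        pr Kᗮ (wp π a v) := by
      rw [← map_add, cut_add_cut, pr_add_pr]
    have e9 : ‖wp π a v‖ ≤ ‖pr K (cut A (wp π a v))‖ + ‖pr K (cut Aᶜ (wp π a v))‖ +
        ‖pr Kᗮ (wp π a v)‖ := by
      conv_lhs => rw [e8]
      exact norm_add₃_le
    have e10 := norm_pr_le K (cut Aᶜ (wp π a v))
    linarith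
  have hdimF : finrank ℂ (F.map (wp π a)) = finrank ℂ F := by
    have hinj : Function.Injective ((wp π a).domRestrict F) := by
      rw [← LinearMap.ker_eq_bot, LinearMap.ker_eq_bot']
      intro v hv
      have h := (hest v v.2).1
      have hv' : wp π a v = 0 := hv
      rw [hv', norm_zero] at h
      have h0 : 0 < m * ε := by positivity
      have : ‖(v : E ι)‖ ≤ 0 := by
        by_contra hc
        push Not at hc
        nlinarith [mul_pos h0 hc]
      exact Subtype.ext (norm_le_zero_iff.1 this)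
    rw [← LinearMap.range_domRestrict, LinearMap.finrank_range_of_inj hinj]
  have hmA : (1 - 2 * ε) ^ 2 * finrank ℂ (F.map (wp π a)) ≤ mass K A := by
    rw [(hmass K A).1]
    refine (hB (pr K ∘ₗ cut A)).2.2.2 _ _ ?_
    rintro u ⟨v, hv, rfl⟩
    have := (hest v hv).2
    have h0 : 0 ≤ (1 - 2 * ε) * ‖wp π a v‖ := mul_nonneg (by linarith) (norm_nonneg _)
    calc (1 - 2 * ε) ^ 2 * ‖wp π a v‖ ^ 2 = ((1 - 2 * ε) * ‖wp π a v‖) ^ 2 := by ring
      _ ≤ _ := pow_le_pow_left₀ h0 this 2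
  rw [hdimF] at hmA
  have hmA' : mass K A = ∑ j ∈ Zᶜ, rho K (π j) := by
    rw [mass, hA, Finset.sum_image (fun x _ y _ h => π.injective h)]
  have htot : (finrank ℂ K : ℝ) = mass K Z + ∑ j ∈ Zᶜ, rho K j := by
    rw [← hsum K, mass, Finset.sum_add_sum_compl]
  have hFN : (finrank ℂ F : ℝ) ≤ Fintype.card ι := by
    have := Submodule.finrank_le F
    rw [finrank_euclideanSpace] at this
    exact_mod_cast this
  have h12 : (finrank ℂ K₁ : ℝ) + finrank ℂ K₂ = finrank ℂ K := by exact_mod_cast hdim12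
  have h34 : (finrank ℂ K₃ : ℝ) + finrank ℂ K₄ = finrank ℂ K := by exact_mod_cast hdim34
  have hF0 : (0 : ℝ) ≤ finrank ℂ F := Nat.cast_nonneg _
  have hq : (finrank ℂ F : ℝ) ≤ mass K A + 4 * ε * Fintype.card ι := by
    have h1 : 4 * ε * (finrank ℂ F : ℝ) ≤ 4 * ε * Fintype.card ι :=
      mul_le_mul_of_nonneg_left hFN (by positivity)
    nlinarith [mul_nonneg (sq_nonneg ε) hF0]
  rw [Finset.sum_sub_distrib]
  linarith

end Crest.Agent.R113
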