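import Crest.Agent.R113.BAS
import Crest.Agent.R113.SPEC
import Crest.Agent.R113.MONO
import Crest.Agent.R113.COND
import Crest.Agent.R113.CRS
import Crest.Agent.R113.TILT
import Crest.Agent.R113.SUB
import Crest.Agent.R113.SCL
import Crest.Agent.R113.GRD
import Crest.Agent.R113.DIA
import Crest.Agent.R113.PIV
import Crest.Agent.R113.BLK
import Crest.Agent.R113.DIM
import Crest.Agent.R113.CA
import Crest.Agent.R113.CB
import Crest.Agent.R113.CORE
import Crest.Agent.R113.COMM
import Crest.Agent.R113.POLY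
import Crest.Agent.R113.DFT
import Crest.Agent.R113.DFP
import Crest.Agent.R113.APE
import Crest.Agent.R113.RND
import Crest.Agent.R113.DLT
import Crest.Agent.R113.ERG
import Crest.Agent.R113.RED
import Crest.Agent.R113.MAIN
import Crest.Agent.R113.DefsE

/-! Row 113 (S0149): assembly of the parts L and R. -/

set_option autoImplicit false

namespace Crest.Agent.R113

theorem core_all : CoreStmt :=
  CORE_proof BAS_proof (GRD_proof BAS_proof SCL_proof (SUB_proof BAS_proof SPEC_proof))
    (DIA_proof BAS_proof)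
    (CA_proof BAS_proof (MONO_proof BAS_proof) (COND_proof BAS_proof) (CRS_proof BAS_proof)
      (TILT_proof BAS_proof SPEC_proof))
    (CB_proof BAS_proof SPEC_proof (COND_proof BAS_proof) (DIM_proof BAS_proof))

theorem red_all : RedStmt :=
  RED_proof BAS_proof COMM_proof DFT_proof APE_proof (RND_proof BAS_proof)
    (DLT_proof COMM_proof (POLY_proof COMM_proof) DFT_proof DFP_proof)
    (ERG_proof COMM_proof (POLY_proof COMM_proof) DFT_proof DFP_proof)

theorem env_of (hPar : ParStmt) (hFun0 : Fun0Stmt) (hFun1 : Fun1Stmt) (hEnvp : EnvpStmt) :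
    EnvStmt := by
  intro θ εB hθ hε
  obtain ⟨P, hP⟩ := hPar θ εB hθ hε
  obtain ⟨h1, h2, h3, h4, h5⟩ := hFun0 P θ εB hP
  obtain ⟨f, g1, g2, g3, g4, g5⟩ := hFun1 P.Fn h1 h2 h3 h4 h5
  refine ⟨f, g1, g2, g3, g4, ?_⟩
  have : (fun x => f (ee x)) = P.Fn := funext g5
  rw [this]
  exact hEnvp P θ εB hP

theorem main_of (hEnv : EnvStmt) : MainStmt :=
  MAIN_proof BAS_proof (BLK_proof (PIV_proof BAS_proof)) core_all COMM_proof red_all hEnv

end Crest.Agent.R113
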