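import Crest.Agent.R113.DefsL

set_option autoImplicit false

namespace Crest.Agent.R113

open Finset Module

namespace BAS

variable {ι : Type} [Fintype ι] [DecidableEq ι]

lemma ev_apply (j k : ι) : (ev j : E ι) k = if k = j then 1 else 0 := by
  simp [ev, PiLp.single_apply]

lemma inner_ev (j : ι) (v : E ι) : inner ℂ (ev j) v = v j := by
  simp [ev, EuclideanSpace.inner_single_left]

lemma inner_ev' (j : ι) (v : E ι) : inner ℂ v (ev j) = (starRingEnd ℂ) (v j) := by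
  simp [ev, EuclideanSpace.inner_single_right]

lemma norm_ev (j : ι) : ‖(ev j : E ι)‖ = 1 := by simp [ev]

lemma nsq (v : E ι) : ‖v‖ ^ 2 = ∑ k, ‖v k‖ ^ 2 := EuclideanSpace.norm_sq_eq v

lemma pr_inner (K : Submodule ℂ (E ι)) (u v : E ι) :
    inner ℂ (pr K u) v = inner ℂ u (pr K v) := K.inner_starProjection_left_eq_right u v

lemma pr_pr (K : Submodule ℂ (E ι)) (v : E ι) : pr K (pr K v) = pr K v :=
  Submodule.starProjection_eq_self_iff.2 (K.starProjection_apply_mem v)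

lemma pr_mem (K : Submodule ℂ (E ι)) (v : E ι) : pr K v ∈ K := K.starProjection_apply_mem v

lemma pr_of_mem {K : Submodule ℂ (E ι)} {v : E ι} (h : v ∈ K) : pr K v = v :=
  Submodule.starProjection_eq_self_iff.2 h

lemma pr_orth (K : Submodule ℂ (E ι)) (v : E ι) : pr Kᗮ v = v - pr K v := by
  simp [pr_apply, Submodule.starProjection_orthogonal_val]

lemma norm_pr_le (K : Submodule ℂ (E ι)) (v : E ι) : ‖pr K v‖ ≤ ‖v‖ :=
  K.norm_starProjection_apply_le v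

lemma pyth (K : Submodule ℂ (E ι)) (v : E ι) : ‖v‖ ^ 2 = ‖pr K v‖ ^ 2 + ‖pr Kᗮ v‖ ^ 2 :=
  K.norm_sq_eq_add_norm_sq_starProjection v

lemma adj_pr (K : Submodule ℂ (E ι)) : LinearMap.adjoint (pr K) = pr K := by
  symm
  rw [LinearMap.eq_adjoint_iff]
  exact pr_inner K

lemma cut_inner (Y : Finset ι) (u v : E ι) : inner ℂ (cut Y u) v = inner ℂ u (cut Y v) := by
  simp only [PiLp.inner_apply, cut_apply]
  refine Finset.sum_congr rfl fun i _ => ?_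
  by_cases h : i ∈ Y <;> simp [h]

lemma adj_cut (Y : Finset ι) : LinearMap.adjoint (cut Y : E ι →ₗ[ℂ] E ι) = cut Y := by
  symm
  rw [LinearMap.eq_adjoint_iff]
  exact cut_inner Y

lemma cut_ev (Y : Finset ι) (j : ι) : cut Y (ev j) = if j ∈ Y then ev j else 0 := by
  ext i
  by_cases h : j ∈ Y <;> by_cases h' : i = j <;> simp [h, h', ev_apply]

lemma nsq_cut (Y : Finset ι) (v : E ι) : ‖cut Y v‖ ^ 2 = ∑ k ∈ Y, ‖v k‖ ^ 2 := by
  rw [nsq, ← Finset.sum_filter_add_sum_filter_not univ (fun k => k ∈ Y)]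
  have h1 : ∑ k ∈ univ.filter (fun k => ¬ k ∈ Y), ‖cut Y v k‖ ^ 2 = 0 :=
    Finset.sum_eq_zero fun k hk => by simp [(Finset.mem_filter.1 hk).2]
  rw [h1, add_zero, show univ.filter (fun k => k ∈ Y) = Y by ext; simp]
  exact Finset.sum_congr rfl fun k hk => by simp [hk]

lemma pyth_cut (Y : Finset ι) (v : E ι) : ‖v‖ ^ 2 = ‖cut Y v‖ ^ 2 + ‖cut Yᶜ v‖ ^ 2 := by
  rw [nsq_cut, nsq_cut, nsq, Finset.sum_add_sum_compl]

lemma cut_cut (Y : Finset ι) (v : E ι) : cut Y (cut Y v) = cut Y v := by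
  ext i; by_cases h : i ∈ Y <;> simp [h]

lemma pr_diag (K : Submodule ℂ (E ι)) (j : ι) : pr K (ev j) j = (rho K j : ℂ) := by
  rw [← inner_ev, ← pr_pr, ← pr_inner, inner_self_eq_norm_sq_to_K, rho]
  push_cast
  rfl

lemma pr_sym (K : Submodule ℂ (E ι)) (j k : ι) :
    pr K (ev j) k = (starRingEnd ℂ) (pr K (ev k) j) := by
  rw [← inner_ev, ← pr_inner, inner_ev']

lemma rho_nonneg (K : Submodule ℂ (E ι)) (j : ι) : 0 ≤ rho K j := sq_nonneg _

lemma rho_orth (K : Submodule ℂ (E ι)) (j : ι) : rho Kᗮ j = 1 - rho K j := by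
  have := pyth K (ev j)
  rw [norm_ev] at this
  unfold rho
  linarith

lemma rho_le_one (K : Submodule ℂ (E ι)) (j : ι) : rho K j ≤ 1 := by
  have := rho_orth K j
  have := rho_nonneg Kᗮ j
  linarith

lemma sum_ent (K : Submodule ℂ (E ι)) (j : ι) : ∑ k, ent K j k = rho K j := by
  unfold ent rho
  rw [nsq]

lemma ent_diag (K : Submodule ℂ (E ι)) (j : ι) : ent K j j = rho K j ^ 2 := by
  unfold ent
  rw [pr_diag, Complex.norm_real, Real.norm_eq_abs, sq_abs]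

lemma ent_sym (K : Submodule ℂ (E ι)) (j k : ι) : ent K j k = ent K k j := by
  unfold ent
  rw [pr_sym, Complex.norm_conj]

lemma ent_orth (K : Submodule ℂ (E ι)) (j k : ι) (h : j ≠ k) : ent Kᗮ j k = ent K j k := by
  unfold ent
  rw [pr_orth, PiLp.sub_apply, ev_apply, if_neg h.symm, zero_sub, norm_neg]

lemma sum_rho (K : Submodule ℂ (E ι)) : ∑ j, rho K j = finrank ℂ K := by
  have h1 : LinearMap.trace ℂ (E ι) (pr K) = (finrank ℂ K : ℂ) := by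
    have hp : LinearMap.IsProj K (pr K) := ⟨pr_mem K, fun x hx => pr_of_mem hx⟩
    exact hp.trace
  rw [LinearMap.trace_eq_sum_inner _ (EuclideanSpace.basisFun ι ℂ)] at h1
  have h2 : ∀ j, inner ℂ (EuclideanSpace.basisFun ι ℂ j) (pr K (EuclideanSpace.basisFun ι ℂ j)) =
      (rho K j : ℂ) := by
    intro j
    rw [EuclideanSpace.basisFun_apply]
    exact (inner_ev j _).trans (pr_diag K j)
  simp_rw [h2] at h1
  exact_mod_cast h1

lemma hs_nonneg (B : E ι →ₗ[ℂ] E ι) : 0 ≤ hs B := Finset.sum_nonneg fun _ _ => sq_nonneg _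

lemma hs_eq (B : E ι →ₗ[ℂ] E ι) : hs B = ∑ j, ∑ k, ‖B (ev j) k‖ ^ 2 := by
  unfold hs
  simp_rw [nsq]

lemma hs_adj (B : E ι →ₗ[ℂ] E ι) : hs (LinearMap.adjoint B) = hs B := by
  rw [hs_eq, hs_eq, Finset.sum_comm]
  refine Finset.sum_congr rfl fun j _ => Finset.sum_congr rfl fun k _ => ?_
  rw [← inner_ev, LinearMap.adjoint_inner_right, inner_ev', Complex.norm_conj]

lemma hs_comp_left (A B : E ι →ₗ[ℂ] E ι) (c : ℝ) (h : ∀ v, ‖A v‖ ≤ c * ‖v‖) :
    hs (A ∘ₗ B) ≤ c ^ 2 * hs B := by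
  unfold hs
  rw [Finset.mul_sum]
  refine Finset.sum_le_sum fun j _ => ?_
  rw [← mul_pow]
  exact pow_le_pow_left₀ (norm_nonneg _) (h _) 2

lemma adj_bound (A : E ι →ₗ[ℂ] E ι) (c : ℝ) (h : ∀ v, ‖A v‖ ≤ c * ‖v‖) (v : E ι) :
    ‖LinearMap.adjoint A v‖ ≤ |c| * ‖v‖ := by
  set u := LinearMap.adjoint A v with hu
  have h1 : ‖u‖ ^ 2 ≤ ‖v‖ * (c * ‖u‖) := by
    have h2 : inner ℂ u u = inner ℂ v (A u) := by
      conv_lhs => rw [hu]
      rw [LinearMap.adjoint_inner_left]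
    have h3 : ‖inner ℂ u u‖ = ‖u‖ ^ 2 := by
      rw [inner_self_eq_norm_sq_to_K]; simp
    rw [← h3, h2]
    exact (norm_inner_le_norm _ _).trans (mul_le_mul_of_nonneg_left (h u) (norm_nonneg _))
  rcases (norm_nonneg u).eq_or_lt with h0 | h0
  · rw [← h0]; positivity
  · have h4 : c * (‖v‖ * ‖u‖) ≤ |c| * (‖v‖ * ‖u‖) :=
      mul_le_mul_of_nonneg_right (le_abs_self c) (by positivity)
    have : ‖u‖ * ‖u‖ ≤ (|c| * ‖v‖) * ‖u‖ := by nlinarith
    exact le_of_mul_le_mul_right this h0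

lemma hs_comp_right (A B : E ι →ₗ[ℂ] E ι) (c : ℝ) (h : ∀ v, ‖A v‖ ≤ c * ‖v‖) :
    hs (B ∘ₗ A) ≤ c ^ 2 * hs B := by
  rw [← hs_adj, LinearMap.adjoint_comp, ← hs_adj B, ← sq_abs c]
  exact hs_comp_left _ _ _ (adj_bound A c h)

lemma sqrt_hs (B : E ι →ₗ[ℂ] E ι) :
    √(hs B) = ‖(WithLp.toLp 2 (fun j => B (ev j)) : PiLp 2 (fun _ : ι => E ι))‖ := by
  rw [PiLp.norm_eq_of_L2]
  rfl

lemma hs_add (A B : E ι →ₗ[ℂ] E ι) : √(hs (A + B)) ≤ √(hs A) + √(hs B) := by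
  rw [sqrt_hs, sqrt_hs, sqrt_hs]
  refine le_trans (le_of_eq ?_) (norm_add_le _ _)
  rfl

lemma hs_low (B : E ι →ₗ[ℂ] E ι) (F : Submodule ℂ (E ι)) (c : ℝ)
    (h : ∀ v ∈ F, c * ‖v‖ ^ 2 ≤ ‖B v‖ ^ 2) : c * finrank ℂ F ≤ hs B := by
  have h1 := hs_comp_right (pr F) B 1 (fun v => by rw [one_mul]; exact norm_pr_le F v)
  rw [one_pow, one_mul] at h1
  refine le_trans ?_ h1
  rw [← sum_rho, Finset.mul_sum]
  exact Finset.sum_le_sum fun j _ => h _ (pr_mem F _)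

lemma hs_cut_right (B : E ι →ₗ[ℂ] E ι) (Y : Finset ι) :
    hs (B ∘ₗ cut Y) = ∑ j ∈ Y, ‖B (ev j)‖ ^ 2 := by
  unfold hs
  rw [← Finset.sum_add_sum_compl Y]
  have h1 : ∑ j ∈ Yᶜ, ‖(B ∘ₗ cut Y) (ev j)‖ ^ 2 = 0 :=
    Finset.sum_eq_zero fun j hj => by
      rw [LinearMap.comp_apply, cut_ev, if_neg (Finset.mem_compl.1 hj)]; simp
  rw [h1, add_zero]
  exact Finset.sum_congr rfl fun j hj => by rw [LinearMap.comp_apply, cut_ev, if_pos hj]

lemma mass1 (K : Submodule ℂ (E ι)) (Y : Finset ι) : mass K Y = hs (pr K ∘ₗ cut Y) := by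
  rw [hs_cut_right]; rfl

lemma mass2 (K : Submodule ℂ (E ι)) (Y : Finset ι) : mass K Y = hs (cut Y ∘ₗ pr K) := by
  rw [← hs_adj, LinearMap.adjoint_comp, adj_pr, adj_cut, mass1]

lemma cross1 (K : Submodule ℂ (E ι)) (Y : Finset ι) :
    cross K Y = hs (cut Yᶜ ∘ₗ pr K ∘ₗ cut Y) := by
  rw [← LinearMap.comp_assoc, hs_cut_right]
  unfold cross ent
  refine Finset.sum_congr rfl fun j _ => ?_
  rw [LinearMap.comp_apply, nsq_cut]

lemma hs_split_pr (K : Submodule ℂ (E ι)) (B : E ι →ₗ[ℂ] E ι) :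
    hs B = hs (pr K ∘ₗ B) + hs (pr Kᗮ ∘ₗ B) := by
  unfold hs
  rw [← Finset.sum_add_distrib]
  exact Finset.sum_congr rfl fun j _ => pyth K _

lemma hs_split_cut (Y : Finset ι) (B : E ι →ₗ[ℂ] E ι) :
    hs B = hs (cut Y ∘ₗ B) + hs (cut Yᶜ ∘ₗ B) := by
  unfold hs
  rw [← Finset.sum_add_distrib]
  exact Finset.sum_congr rfl fun j _ => pyth_cut Y _

lemma hs_tr (B : E ι →ₗ[ℂ] E ι) :
    (hs B : ℂ) = LinearMap.trace ℂ (E ι) (LinearMap.adjoint B ∘ₗ B) := by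
  rw [LinearMap.trace_eq_sum_inner _ (EuclideanSpace.basisFun ι ℂ)]
  unfold hs
  push_cast
  refine Finset.sum_congr rfl fun j _ => ?_
  rw [Function.comp_apply, LinearMap.adjoint_inner_right, inner_self_eq_norm_sq_to_K,
    EuclideanSpace.basisFun_apply]
  rfl

lemma hs_pyp (K : Submodule ℂ (E ι)) (Y : Finset ι) :
    hs (cut Y ∘ₗ pr K ∘ₗ cut Y) = hs (pr K ∘ₗ cut Y ∘ₗ pr K) := by
  have hP : (pr K * pr K : Module.End ℂ (E ι)) = pr K := LinearMap.ext (pr_pr K)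
  have hY : (cut Y * cut Y : Module.End ℂ (E ι)) = cut Y := LinearMap.ext (cut_cut Y)
  have key : ∀ P Q : Module.End ℂ (E ι), Q * Q = Q → LinearMap.adjoint P = P →
      LinearMap.adjoint Q = Q →
      (hs (Q ∘ₗ P ∘ₗ Q) : ℂ) = LinearMap.trace ℂ (E ι) (P * Q * P * Q) := by
    intro P Q hQ aP aQ
    rw [hs_tr, LinearMap.adjoint_comp, LinearMap.adjoint_comp, aP, aQ]
    simp only [← Module.End.mul_eq_comp]
    rw [show Q * P * Q * (Q * (P * Q)) = Q * (P * (Q * Q) * P * Q) by noncomm_ring,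
      LinearMap.trace_mul_comm, hQ, show P * Q * P * Q * Q = P * Q * P * (Q * Q) by noncomm_ring,
      hQ]
  have h1 := key (pr K) (cut Y) hY (adj_pr K) (adj_cut Y)
  have h2 := key (cut Y) (pr K) hP (adj_cut Y) (adj_pr K)
  have h3 : LinearMap.trace ℂ (E ι) ((pr K : Module.End ℂ (E ι)) * cut Y * pr K * cut Y) =
      LinearMap.trace ℂ (E ι) ((cut Y : Module.End ℂ (E ι)) * pr K * cut Y * pr K) := by
    rw [LinearMap.trace_mul_comm]
    simp only [mul_assoc]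
  exact_mod_cast h1.trans (h3.trans h2.symm)

lemma cross3 (K : Submodule ℂ (E ι)) (Y : Finset ι) :
    cross K Y = mass K Y - hs (pr K ∘ₗ cut Y ∘ₗ pr K) := by
  have h := hs_split_cut Y (pr K ∘ₗ cut Y)
  rw [← mass1, ← cross1, hs_pyp] at h
  linarith

lemma cross2 (K : Submodule ℂ (E ι)) (Y : Finset ι) :
    cross K Y = hs (pr Kᗮ ∘ₗ cut Y ∘ₗ pr K) := by
  have h := hs_split_pr K (cut Y ∘ₗ pr K)
  rw [← mass2] at h
  have := cross3 K Y
  linarith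

lemma cross_orth (K : Submodule ℂ (E ι)) (Y : Finset ι) : cross Kᗮ Y = cross K Y := by
  unfold cross
  refine Finset.sum_congr rfl fun j hj => Finset.sum_congr rfl fun k hk => ?_
  refine ent_orth K j k ?_
  rintro rfl
  exact Finset.mem_compl.1 hk hj

lemma wp_pow (σ : Equiv.Perm ι) (f : ι → ℝ) (n : ℕ) :
    wp σ f ^ n = wp (σ ^ n) (wt σ f n) := by
  induction n with
  | zero =>
    refine LinearMap.ext fun v => ?_
    ext i
    rw [wp_apply, pow_zero, pow_zero, inv_one, Equiv.Perm.one_apply]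
    simp [wt]
  | succ n ih =>
    rw [pow_succ', ih]
    refine LinearMap.ext fun v => ?_
    ext i
    have h1 : (σ ^ (n + 1))⁻¹ i = (σ ^ n)⁻¹ (σ⁻¹ i) := by
      rw [pow_succ', mul_inv_rev, Equiv.Perm.mul_apply]
    have h2 : (σ ^ n) ((σ ^ n)⁻¹ (σ⁻¹ i)) = σ⁻¹ i := by simp
    rw [Module.End.mul_apply, wp_apply, wp_apply, wp_apply, h1, wt, wt, Finset.prod_range_succ, h2]
    push_cast
    ring

lemma nsq_wp (π : Equiv.Perm ι) (a : ι → ℝ) (v : E ι) :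
    ‖wp π a v‖ ^ 2 = ∑ j, (|a j| * ‖v j‖) ^ 2 := by
  rw [nsq, ← Equiv.sum_comp π]
  refine Finset.sum_congr rfl fun j _ => ?_
  simp

lemma wp_le (π : Equiv.Perm ι) (a : ι → ℝ) (c : ℝ) (v : E ι) (hc : 0 ≤ c)
    (h : ∀ j, v j ≠ 0 → |a j| ≤ c) : ‖wp π a v‖ ≤ c * ‖v‖ := by
  refine (pow_le_pow_iff_left₀ (by positivity) (by positivity) two_ne_zero).1 ?_
  rw [nsq_wp, mul_pow, nsq, Finset.mul_sum]
  refine Finset.sum_le_sum fun j _ => ?_
  rw [← mul_pow]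
  refine pow_le_pow_left₀ (by positivity) ?_ 2
  by_cases hj : v j = 0
  · simp [hj]
  · exact mul_le_mul_of_nonneg_right (h j hj) (norm_nonneg _)

lemma wp_ge (π : Equiv.Perm ι) (a : ι → ℝ) (c : ℝ) (v : E ι) (hc : 0 ≤ c)
    (h : ∀ j, v j ≠ 0 → c ≤ |a j|) : c * ‖v‖ ≤ ‖wp π a v‖ := by
  refine (pow_le_pow_iff_left₀ (by positivity) (by positivity) two_ne_zero).1 ?_
  rw [nsq_wp, mul_pow, nsq, Finset.mul_sum]
  refine Finset.sum_le_sum fun j _ => ?_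
  rw [← mul_pow]
  refine pow_le_pow_left₀ (by positivity) ?_ 2
  by_cases hj : v j = 0
  · simp [hj]
  · exact mul_le_mul_of_nonneg_right (h j hj) (norm_nonneg _)

lemma rank_inf (K F G : Submodule ℂ (E ι)) (hF : F ≤ K) (hG : G ≤ K) :
    (finrank ℂ F : ℝ) + finrank ℂ G - finrank ℂ K ≤ finrank ℂ (F ⊓ G : Submodule ℂ (E ι)) := by
  have h1 := Submodule.finrank_sup_add_finrank_inf_eq F G
  have h2 : finrank ℂ (F ⊔ G : Submodule ℂ (E ι)) ≤ finrank ℂ K :=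
    Submodule.finrank_mono (sup_le hF hG)
  have h3 : finrank ℂ F + finrank ℂ G ≤ finrank ℂ (F ⊓ G : Submodule ℂ (E ι)) + finrank ℂ K := by
    omega
  have h4 : (finrank ℂ F : ℝ) + finrank ℂ G ≤
      finrank ℂ (F ⊓ G : Submodule ℂ (E ι)) + finrank ℂ K := by exact_mod_cast h3
  linarith

lemma rank_cut (X : Finset ι) :
    finrank ℂ (LinearMap.range (cut X : E ι →ₗ[ℂ] E ι)) ≤ X.card := by
  have h1 := hs_low (cut X) (LinearMap.range (cut X : E ι →ₗ[ℂ] E ι)) 1 (by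
    rintro _ ⟨u, rfl⟩
    rw [cut_cut, one_mul])
  have h2 := hs_cut_right (LinearMap.id : E ι →ₗ[ℂ] E ι) X
  rw [LinearMap.id_comp] at h2
  rw [h2, one_mul] at h1
  simp only [LinearMap.id_apply, norm_ev, one_pow, Finset.sum_const, nsmul_eq_mul, mul_one] at h1
  exact_mod_cast h1

lemma rank_ker (F : Submodule ℂ (E ι)) (X : Finset ι) :
    (finrank ℂ F : ℝ) - X.card ≤ finrank ℂ (F ⊓ LinearMap.ker (cut X) : Submodule ℂ (E ι)) := by
  have h1 := rank_inf ⊤ F (LinearMap.ker (cut X)) le_top le_top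
  have h2 := LinearMap.finrank_range_add_finrank_ker (cut X : E ι →ₗ[ℂ] E ι)
  have h3 := rank_cut X
  rw [finrank_top] at h1
  have h4 : (finrank ℂ (E ι) : ℝ) ≤ X.card + finrank ℂ (LinearMap.ker (cut X : E ι →ₗ[ℂ] E ι)) := by
    exact_mod_cast (by omega)
  linarith

end BAS

open BAS in
theorem BAS_proof : BasStmt := by
  intro ι _ _
  refine ⟨fun K j => ⟨rho_nonneg K j, rho_le_one K j, sum_ent K j, ent_diag K j, rho_orth K j,
    pr_diag K j, fun k => ⟨ent_sym K j k, ent_orth K j k⟩⟩, sum_rho, fun K Y =>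
    ⟨mass1 K Y, mass2 K Y, cross1 K Y, cross2 K Y, cross3 K Y, cross_orth K Y⟩, fun B =>
    ⟨hs_adj B, fun A c h => ⟨hs_comp_left A B c h, hs_comp_right A B c h⟩, fun A => hs_add A B,
      hs_low B⟩, wp_pow, wp_le, wp_ge, rank_ker, rank_inf⟩

end Crest.Agent.R113
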