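import Mathlib
import Crest.Agent.R113.DefsE

set_option autoImplicit false

namespace Crest.Agent.R113

open Finset Filter
open scoped Classical

namespace BCT

lemma RR_ge : 10000 ≤ RR := by norm_num [RR]

lemma RR_ge' : (10000 : ℝ) ≤ (RR : ℝ) := by exact_mod_cast RR_ge

lemma ll_pos (u : ℕ) : 0 < ll u := Nat.pow_pos (lt_of_lt_of_le (by norm_num) RR_ge)

lemma ze_pos (u : ℕ) : 0 < ze u := by
  have := RR_ge'
  unfold ze
  positivity

lemma ze_succ (u : ℕ) : 2 * ze (u + 1) ≤ ze u := by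
  have h := RR_ge'
  have h1 : (1 : ℝ) ≤ RR := by linarith
  unfold ze
  rw [mul_one_div, div_le_div_iff₀ (by positivity) (by positivity), one_mul]
  have e : 3 * (u + 1) + 5 = (3 * u + 5) + 1 + 2 := by ring
  rw [e]
  calc 2 * (RR : ℝ) ^ (3 * u + 5) ≤ (RR : ℝ) ^ (3 * u + 5 + 1) := by
        rw [pow_succ (RR : ℝ) (3 * u + 5), mul_comm]
        exact mul_le_mul_of_nonneg_left (by linarith) (by positivity)
    _ ≤ _ := pow_le_pow_right₀ h1 (by omega)

lemma ze_sum (a top : ℕ) (h : a ≤ top) : ∑ i ∈ Ico a top, ze i ≤ 2 * ze a - 2 * ze top := by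
  induction top, h using Nat.le_induction with
  | base => simp
  | succ n hn ih =>
    rw [sum_Ico_succ_top hn]
    have := ze_succ n
    linarith

lemma ll_ze (a : ℕ) : (ll a : ℝ) ^ 2 * ze a ≤ 1 / 10000 := by
  have h := RR_ge'
  have h1 : (1 : ℝ) ≤ RR := by linarith
  unfold ze ll
  push_cast
  rw [mul_one_div, div_le_div_iff₀ (by positivity) (by positivity), one_mul, ← pow_mul]
  calc (RR : ℝ) ^ (a * 2) * 10000 ≤ (RR : ℝ) ^ (a * 2 + 1) := by
        rw [pow_succ]
        exact mul_le_mul_of_nonneg_left h (by positivity)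
    _ ≤ _ := pow_le_pow_right₀ h1 (by omega)

lemma ind_nonneg (q : Prop) : 0 ≤ ind q := by
  unfold ind
  split_ifs <;> norm_num

lemma ind_pos {q : Prop} (h : q) : ind q = 1 := by simp [ind, h]

lemma ind_neg {q : Prop} (h : ¬ q) : ind q = 0 := by simp [ind, h]

lemma ind_le_one (q : Prop) : ind q ≤ 1 := by
  unfold ind
  split_ifs <;> norm_num

lemma card_eq_sum_ind {α : Type} (s : Finset α) (q : α → Prop) [DecidablePred q] :
    ((s.filter q).card : ℝ) = ∑ x ∈ s, ind (q x) := by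
  rw [card_filter]
  push_cast
  refine sum_congr rfl fun x _ => ?_
  by_cases h : q x <;> simp [ind, h]

/-- most positions in the segment are admissible -/
lemma count_m (N l L : ℕ) (hl : 0 < l) (hL : 10000 * l ≤ L) (hN : 1000 * l ≤ N) :
    (99 / 100 : ℝ) * N ≤ ∑ m ∈ range N, ind (m + 3 * l ≤ N ∧ m % L + l ≤ L) := by
  have hL0 : 0 < L := by omega
  have h1 : ∀ m, 1 - ind (N < m + 3 * l) - ind (L < m % L + l)
      ≤ ind (m + 3 * l ≤ N ∧ m % L + l ≤ L) := by
    intro m
    by_cases h : m + 3 * l ≤ N ∧ m % L + l ≤ L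
    · rw [ind_pos h]
      have := ind_nonneg (N < m + 3 * l)
      have := ind_nonneg (L < m % L + l)
      linarith
    · rw [ind_neg h]
      have := ind_nonneg (N < m + 3 * l)
      have := ind_nonneg (L < m % L + l)
      by_cases h2 : N < m + 3 * l
      · rw [ind_pos h2]
        linarith
      · rw [ind_pos (show L < m % L + l by omega)]
        linarith
  have h2 : ∑ m ∈ range N, ind (N < m + 3 * l) ≤ 3 * l := by
    rw [← card_eq_sum_ind]
    have : ((range N).filter (fun m => N < m + 3 * l)).card ≤ (Ico (N - 3 * l) N).card := by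
      refine card_le_card fun m hm => ?_
      simp only [mem_filter, mem_range, mem_Ico] at hm ⊢
      omega
    rw [Nat.card_Ico] at this
    have h3 : N - (N - 3 * l) ≤ 3 * l := by omega
    exact_mod_cast this.trans h3
  have h3 : ∑ m ∈ range N, ind (L < m % L + l) ≤ ((N / L : ℕ) + 1 : ℝ) * l := by
    rw [← card_eq_sum_ind]
    have : ((range N).filter (fun m => L < m % L + l)).card
        ≤ (range (N / L + 1) ×ˢ Ico (L - l) L).card := by
      refine card_le_card_of_injOn (fun m => (m / L, m % L)) (fun m hm => ?_) ?_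
      · simp only [coe_filter, mem_range, Set.mem_ofPred_eq] at hm
        simp only [coe_product, coe_range, coe_Ico, Set.mem_prod, Set.mem_Iio, Set.mem_Ico]
        have := Nat.div_le_div_right (c := L) hm.1.le
        have := Nat.mod_lt m hL0
        omega
      · intro m _ m' _ h
        simp only [Prod.mk.injEq] at h
        rw [← Nat.div_add_mod m L, ← Nat.div_add_mod m' L, h.1, h.2]
    rw [card_product, card_range, Nat.card_Ico] at this
    have h4 : L - (L - l) = l := by omega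
    rw [h4] at this
    exact_mod_cast this
  have h4 : ((N / L : ℕ) : ℝ) * l ≤ N / 10000 := by
    have h5 : (N / L) * L ≤ N := Nat.div_mul_le_self N L
    have h6 : (N / L) * (10000 * l) ≤ (N / L) * L := Nat.mul_le_mul_left _ hL
    have h7 : (((N / L) * (10000 * l) : ℕ) : ℝ) ≤ N := by exact_mod_cast h6.trans h5
    push_cast at h7
    linarith
  have h5 := sum_le_sum fun m (_ : m ∈ range N) => h1 m
  rw [sum_sub_distrib, sum_sub_distrib, sum_const, card_range, nsmul_eq_mul, mul_one] at h5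
  have h6 : (1000 : ℝ) * l ≤ N := by exact_mod_cast hN
  nlinarith

end BCT

open BCT in
theorem BCT_proof (hGrid : GridStmt) (hGood : GoodStmt) : BctStmt := by
  intro P θ εB hP u₁ a ha hau
  have hl := ll_pos a
  have hl' : (0 : ℝ) < ll a := by exact_mod_cast hl
  obtain ⟨t₁, ht₁⟩ := eventually_atTop.mp (hP.vis.2.2.eventually
    (gt_mem_nhds (show (0 : ℝ) < 1 / (1000 * (ll a : ℝ) ^ 2) by positivity)))
  refine ⟨max t₁ (u₁ + 1), fun top htop => ⟨1000 * ll a, fun N hN =>
    ⟨200 * ll a ^ 2 * (3 * ∑ i ∈ Ico a top, P.M i + 3), fun N' hN' hdvd => ?_⟩⟩⟩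
  have hr := ht₁ top (le_of_max_le_left htop)
  have htop' : u₁ + 1 ≤ top := le_of_max_le_right htop
  have hr0 : 0 < P.r top := (hP.vis.1 top).2.2.1
  have hN'0 : 0 < N' := lt_of_lt_of_le (by positivity) hN'
  have hN'r : (200 : ℝ) * (ll a : ℝ) ^ 2 * (3 * ∑ i ∈ Ico a top, (P.M i : ℝ) + 3) ≤ N' := by
    exact_mod_cast hN'
  obtain ⟨hE, hPer, hDep⟩ := hGood P θ εB hP a top (u₁ - a) ha (by omega) (by omega)
  have hM : ∀ i, 0 < P.M i := fun i => Nat.mul_pos (hP.npos i) (Nat.mul_pos (ll_pos i)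
    (lt_of_lt_of_le (Nat.pow_pos (lt_of_lt_of_le (by norm_num) RR_ge)) (hP.pge i)))
  set μ := max (ze a) (P.r top) with hμ
  have hμ0 : 0 ≤ μ := hr0.le.trans (le_max_right _ _)
  have hμ1 : μ ≤ ze a + P.r top := max_le (by linarith) (by linarith [ze_pos a])
  let Ev : Sta → Prop := fun z => P.St a z ∧ P.G1 a top z ∧ G2 a top (u₁ - a) z ∧ P.G3 a (u₁ - a) z
  let Rg : ℝ → Prop := fun x => ∀ n < ll a, (∀ i, a ≤ i → i < top → P.reg i (x + θ * n)) ∧
      μ ≤ nz (x + θ * n)
  -- the count for a fixed position in the segment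
  have hk : ∀ φ : ℝ, (N' : ℝ) * (23 / (100 * ll a)) ≤
      ∑ k ∈ range N', ind (Ev (P.st (k / N' + φ)) ∧ Rg (k / N' + φ)) := by
    intro φ
    have h1 : ∀ k : ℕ, ind (Ev (P.st (k / N' + φ))) - ∑ n ∈ range (ll a),
        (∑ i ∈ Ico a top, ind (nz (P.M i * (k / N' + (φ + θ * n))) < ze i)
          + ind (nz ((1 : ℕ) * (k / N' + (φ + θ * n))) < μ))
        ≤ ind (Ev (P.st (k / N' + φ)) ∧ Rg (k / N' + φ)) := by
      intro k
      have hnn : ∀ n : ℕ, 0 ≤ ∑ i ∈ Ico a top, ind (nz (P.M i * (k / N' + (φ + θ * n))) < ze i) :=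
        fun n => sum_nonneg fun _ _ => ind_nonneg _
      have hnn' : ∀ n ∈ range (ll a),
          0 ≤ ∑ i ∈ Ico a top, ind (nz (P.M i * (k / N' + (φ + θ * n))) < ze i)
          + ind (nz ((1 : ℕ) * (k / N' + (φ + θ * n))) < μ) :=
        fun n _ => add_nonneg (hnn n) (ind_nonneg _)
      by_cases hR : Rg (k / N' + φ)
      · have := sum_nonneg hnn'
        by_cases hEv : Ev (P.st (k / N' + φ))
        · rw [ind_pos (And.intro hEv hR), ind_pos hEv]
          linarith
        · rw [ind_neg (q := Ev (P.st (k / N' + φ)) ∧ Rg (k / N' + φ)) (fun h => hEv h.1), ind_neg hEv]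
          linarith
      · rw [ind_neg (q := Ev (P.st (k / N' + φ)) ∧ Rg (k / N' + φ)) (fun h => hR h.2)]
        have h2 := ind_le_one (Ev (P.st (k / N' + φ)))
        simp only [Rg, not_forall] at hR
        obtain ⟨n, hn, hbad⟩ := hR
        have h3 := single_le_sum hnn' (mem_range.mpr hn)
        have h4 : 1 ≤ ∑ i ∈ Ico a top, ind (nz (P.M i * (k / N' + (φ + θ * n))) < ze i)
            + ind (nz ((1 : ℕ) * (k / N' + (φ + θ * n))) < μ) := by
          by_cases h5 : μ ≤ nz (k / N' + φ + θ * n)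
          · have h6 : ¬ ∀ i, a ≤ i → i < top → P.reg i (k / N' + φ + θ * n) := fun h => hbad ⟨h, h5⟩
            simp only [not_forall] at h6
            obtain ⟨i, hi1, hi2, hi3⟩ := h6
            have h7 := single_le_sum (f := fun i => ind (nz (P.M i * (k / N' + (φ + θ * n))) < ze i))
              (fun _ _ => ind_nonneg _) (mem_Ico.mpr ⟨hi1, hi2⟩)
            have h8 : nz (P.M i * (k / N' + (φ + θ * n))) < ze i := by
              rw [← add_assoc]
              exact not_le.mp hi3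
            simp only [ind_pos h8] at h7
            have := ind_nonneg (nz ((1 : ℕ) * (k / N' + (φ + θ * n))) < μ)
            linarith
          · have h8 : nz ((1 : ℕ) * (k / N' + (φ + θ * n))) < μ := by
              rw [Nat.cast_one, one_mul, ← add_assoc]
              exact not_le.mp h5
            rw [ind_pos h8]
            have := hnn n
            linarith
        linarith
    have h2 := sum_le_sum fun k (_ : k ∈ range N') => h1 k
    rw [sum_sub_distrib, hGrid.1 P θ εB hP top N' φ (fun z => ind (Ev z)) (by omega) hN'0 hdvd hPer hDep,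
      sum_comm] at h2
    have h3 : ∀ n ∈ range (ll a), ∑ k ∈ range N',
        (∑ i ∈ Ico a top, ind (nz (P.M i * (k / N' + (φ + θ * n))) < ze i)
          + ind (nz ((1 : ℕ) * (k / N' + (φ + θ * n))) < μ))
        ≤ (18 * ze a + 6 * P.r top) * N' + (3 * ∑ i ∈ Ico a top, (P.M i : ℝ) + 3) := by
      intro n _
      rw [sum_add_distrib, sum_comm]
      have h4 : ∑ i ∈ Ico a top, ∑ k ∈ range N', ind (nz (P.M i * (k / N' + (φ + θ * n))) < ze i)
          ≤ ∑ i ∈ Ico a top, (6 * ze i * N' + 3 * P.M i) := by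
        refine sum_le_sum fun i _ => ?_
        rw [← card_eq_sum_ind]
        exact hGrid.2 (P.M i) N' (φ + θ * n) (ze i) (hM i) hN'0 (ze_pos i).le
      have h5 : ∑ k ∈ range N', ind (nz ((1 : ℕ) * (k / N' + (φ + θ * n))) < μ)
          ≤ 6 * μ * N' + 3 * (1 : ℕ) := by
        rw [← card_eq_sum_ind]
        exact hGrid.2 1 N' (φ + θ * n) μ one_pos hN'0 hμ0
      rw [sum_add_distrib, ← sum_mul, ← mul_sum, ← mul_sum] at h4
      have h6 := ze_sum a top (by omega)
      have h7 := ze_pos top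
      have h8 : (0 : ℝ) ≤ N' := by positivity
      have h9 : (∑ i ∈ Ico a top, ze i) * N' ≤ 2 * ze a * N' :=
        mul_le_mul_of_nonneg_right (by linarith) h8
      have h10 := mul_le_mul_of_nonneg_right hμ1 h8
      push_cast at h5 ⊢
      nlinarith
    have h4 := sum_le_sum h3
    rw [sum_const, card_range, nsmul_eq_mul] at h4
    have h5 : (N' : ℝ) * (1 / (4 * (ll a : ℝ))) ≤ N' * Ex P.Q top (fun z => ind (Ev z)) :=
      mul_le_mul_of_nonneg_left hE (by positivity)
    have h6 : (ll a : ℝ) * ((18 * ze a + 6 * P.r top) * N' + (3 * ∑ i ∈ Ico a top, (P.M i : ℝ) + 3))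
        ≤ N' * (1 / (50 * (ll a : ℝ))) := by
      rw [mul_one_div, le_div_iff₀ (by positivity)]
      have h7 := ll_ze a
      rw [lt_div_iff₀ (by positivity)] at hr
      have h8 : (0 : ℝ) ≤ N' := by positivity
      have h9 := mul_le_mul_of_nonneg_right h7 h8
      have h10 := mul_le_mul_of_nonneg_right hr.le h8
      nlinarith
    have e : (N' : ℝ) * (23 / (100 * ll a)) = N' * (1 / (4 * (ll a : ℝ))) - N' * (1 / (50 * (ll a : ℝ))) := by
      field_simp
      ring
    linarith
  have hLl : 10000 * ll a ≤ ll u₁ := by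
    unfold ll
    calc 10000 * RR ^ a ≤ RR * RR ^ a := Nat.mul_le_mul_right _ RR_ge
      _ = RR ^ (a + 1) := by ring
      _ ≤ _ := Nat.pow_le_pow_right (lt_of_lt_of_le (by norm_num) RR_ge) hau
  have hm := count_m N (ll a) (ll u₁) hl hLl hN
  have hcard : (((univ.filter (fun j : Ix N' N => P.Bg θ top u₁ a j)).card : ℕ) : ℝ)
      = ∑ m ∈ range N, ∑ k ∈ range N', ind (m + 3 * ll a ≤ N ∧ m % ll u₁ + ll a ≤ ll u₁) *
        ind (Ev (P.st (k / N' + θ * m)) ∧ Rg (k / N' + θ * m)) := by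
    rw [card_eq_sum_ind, Fintype.sum_prod_type_right, Finset.sum_range]
    refine sum_congr rfl fun m _ => ?_
    rw [Finset.sum_range]
    refine sum_congr rfl fun k _ => ?_
    have hiff : P.Bg θ top u₁ a ((k, m) : Ix N' N) ↔
        (m.val + 3 * ll a ≤ N ∧ m.val % ll u₁ + ll a ≤ ll u₁) ∧
          (Ev (P.st ((k.val : ℝ) / N' + θ * m.val)) ∧ Rg ((k.val : ℝ) / N' + θ * m.val)) := by
      constructor
      · rintro ⟨h1, h2, h3, h4, h5, h6, h7⟩
        exact ⟨⟨h1, h2⟩, ⟨h3, h4, h5, h6⟩, h7⟩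
      · rintro ⟨⟨h1, h2⟩, ⟨h3, h4, h5, h6⟩, h7⟩
        exact ⟨h1, h2, h3, h4, h5, h6, h7⟩
    by_cases h1 : m.val + 3 * ll a ≤ N ∧ m.val % ll u₁ + ll a ≤ ll u₁
    · by_cases h2 : Ev (P.st ((k.val : ℝ) / N' + θ * m.val)) ∧ Rg ((k.val : ℝ) / N' + θ * m.val)
      · rw [ind_pos (hiff.mpr ⟨h1, h2⟩), ind_pos h1, ind_pos h2, one_mul]
      · rw [ind_neg (fun h => h2 (hiff.mp h).2), ind_neg h2, mul_zero]
    · rw [ind_neg (fun h => h1 (hiff.mp h).1), ind_neg h1, zero_mul]
  have hlow : ∑ m ∈ range N, ind (m + 3 * ll a ≤ N ∧ m % ll u₁ + ll a ≤ ll u₁) *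
      ((N' : ℝ) * (23 / (100 * ll a))) ≤
      (((univ.filter (fun j : Ix N' N => P.Bg θ top u₁ a j)).card : ℕ) : ℝ) := by
    rw [hcard]
    refine sum_le_sum fun m _ => ?_
    rw [← mul_sum]
    exact mul_le_mul_of_nonneg_left (hk _) (ind_nonneg _)
  rw [← sum_mul] at hlow
  have h1 := mul_le_mul_of_nonneg_right hm (show (0 : ℝ) ≤ N' * (23 / (100 * ll a)) by positivity)
  have h2 := mul_le_mul_of_nonneg_left (h1.trans hlow) (show (0 : ℝ) ≤ 5 * ll a by positivity)
  refine le_trans ?_ h2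
  have e : (5 : ℝ) * ll a * (99 / 100 * N * (N' * (23 / (100 * ll a)))) = 11385 / 10000 * (N' * N) := by
    field_simp
    ring
  rw [e, Fintype.card_prod, Fintype.card_fin, Fintype.card_fin]
  push_cast
  have : (0 : ℝ) ≤ N' * N := by positivity
  linarith

end Crest.Agent.R113
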