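import Mathlib

/-!
Row 113 (S0151): the logarithm of the determinant of a tracial functional is constant along a path
of invertible elements `B₀ + t N` with `ρ ((B₀ + t N)⁻¹ N) = 0`.
-/

set_option autoImplicit false

namespace Crest.Agent.R113.Fk

open Filter Topology Finset

variable {A : Type*} [CStarAlgebra A] [PartialOrder A] [StarOrderedRing A]

theorem spec_bounds (B C : A) (hCB : C * B = 1) (K : ℝ) (hK0 : 0 < K) (hK : ‖C‖ ≤ K) (M : ℝ)
    (hM : ‖B‖ ≤ M) : ∀ s ∈ spectrum ℝ (star B * B), K⁻¹ ^ 2 ≤ s ∧ s ≤ M ^ 2 := by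
  have hsa : IsSelfAdjoint (star B * B) := IsSelfAdjoint.star_mul_self B
  have h1 : star B * B ≤ algebraMap ℝ A (‖B‖ ^ 2) := CStarAlgebra.star_mul_le_algebraMap_norm_sq
  have h2 : star (K⁻¹ • C) * (K⁻¹ • C) ≤ algebraMap ℝ A (‖K⁻¹ • C‖ ^ 2) :=
    CStarAlgebra.star_mul_le_algebraMap_norm_sq
  have h3 : ‖K⁻¹ • C‖ ≤ 1 := by
    rw [norm_smul, Real.norm_of_nonneg (inv_nonneg.2 hK0.le), inv_mul_le_iff₀ hK0, mul_one]
    exact hK
  have h4 : algebraMap ℝ A (‖K⁻¹ • C‖ ^ 2) ≤ algebraMap ℝ A 1 := by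
    refine (le_algebraMap_iff_spectrum_le (a := algebraMap ℝ A (‖K⁻¹ • C‖ ^ 2))
      (by exact (IsSelfAdjoint.all _).algebraMap A)).2 ?_
    intro x hx
    have := CFC.spectrum_algebraMap_subset (A := A) (p := IsSelfAdjoint) (‖K⁻¹ • C‖ ^ 2) hx
    rw [Set.mem_singleton_iff] at this
    rw [this]
    exact pow_le_one₀ (norm_nonneg _) h3
  have h5 := star_left_conjugate_le_conjugate (h2.trans h4) B
  have e1 : star B * (star (K⁻¹ • C) * (K⁻¹ • C)) * B = algebraMap ℝ A (K⁻¹ ^ 2) := by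
    have : star B * star C = 1 := by rw [← star_mul, hCB, star_one]
    rw [star_smul, star_trivial K⁻¹, smul_mul_smul_comm, mul_smul_comm, smul_mul_assoc, ← mul_assoc,
      this, one_mul, hCB, Algebra.algebraMap_eq_smul_one, sq]
  rw [e1, map_one, mul_one] at h5
  intro s hs
  refine ⟨(algebraMap_le_iff_le_spectrum hsa).1 h5 s hs, ?_⟩
  exact ((le_algebraMap_iff_spectrum_le hsa).1 h1 s hs).trans
    (pow_le_pow_left₀ (norm_nonneg _) hM 2)

omit [PartialOrder A] [StarOrderedRing A] in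
theorem log_series (H : A) (hH : IsSelfAdjoint H) (a c : ℝ) (ha : 0 < a) (hac : a ≤ c)
    (hs : ∀ s ∈ spectrum ℝ H, a ≤ s ∧ s ≤ c) :
    ‖(1 : A) - c⁻¹ • H‖ ≤ 1 - a / c ∧
    HasSum (fun n : ℕ => (1 / ((n : ℝ) + 1)) • ((1 : A) - c⁻¹ • H) ^ (n + 1))
      (algebraMap ℝ A (Real.log c) - cfc Real.log H) := by
  have hc : 0 < c := ha.trans_le hac
  have hq0 : 0 ≤ 1 - a / c := by
    rw [sub_nonneg, div_le_one hc]
    exact hac
  have hq1 : 1 - a / c < 1 := by
    have := div_pos ha hc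
    linarith
  have hy : ∀ s ∈ spectrum ℝ H, |1 - c⁻¹ * s| ≤ 1 - a / c := by
    intro s h
    obtain ⟨h1, h2⟩ := hs s h
    have h3 : c⁻¹ * s ≤ 1 := by
      rw [inv_mul_le_iff₀ hc, mul_one]
      exact h2
    have h4 : a / c ≤ c⁻¹ * s := by
      rw [div_eq_inv_mul]
      exact mul_le_mul_of_nonneg_left h1 (inv_nonneg.2 hc.le)
    rw [abs_of_nonneg (by linarith)]
    linarith
  have eX : (1 : A) - c⁻¹ • H = cfc (fun s : ℝ => 1 - c⁻¹ * s) H := by
    rw [cfc_sub (fun _ => (1 : ℝ)) (fun s => c⁻¹ * s) H, cfc_const_mul_id c⁻¹ H, cfc_const 1 H, map_one]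
  have hX : ‖(1 : A) - c⁻¹ • H‖ ≤ 1 - a / c := by
    rw [eX]
    exact norm_cfc_le hq0 fun s h => hy s h
  refine ⟨hX, ?_⟩
  have hlog : ContinuousOn Real.log (spectrum ℝ H) :=
    Real.continuousOn_log.mono fun s h => (ha.trans_le (hs s h).1).ne'
  have hsum : Summable (fun n : ℕ => (1 / ((n : ℝ) + 1)) • ((1 : A) - c⁻¹ • H) ^ (n + 1)) := by
    refine Summable.of_norm_bounded (g := fun n => (1 - a / c) ^ (n + 1)) ?_ fun n => ?_
    · exact (summable_nat_add_iff 1).2 (summable_geometric_of_lt_one hq0 hq1)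
    · rw [norm_smul]
      have h1 : ‖(1 / ((n : ℝ) + 1))‖ ≤ 1 := by
        rw [Real.norm_of_nonneg (by positivity), div_le_one (by positivity)]
        have : (0 : ℝ) ≤ n := Nat.cast_nonneg n
        linarith
      have h2 : ‖((1 : A) - c⁻¹ • H) ^ (n + 1)‖ ≤ (1 - a / c) ^ (n + 1) :=
        (norm_pow_le' _ (Nat.succ_pos n)).trans (pow_le_pow_left₀ (norm_nonneg _) hX _)
      exact (mul_le_of_le_one_left (norm_nonneg _) h1).trans h2
  refine (hsum.hasSum_iff_tendsto_nat).2 ?_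
  rw [tendsto_iff_norm_sub_tendsto_zero]
  have hlim : Tendsto (fun N : ℕ => (1 - a / c) ^ (N + 1) / (a / c)) atTop (𝓝 0) := by
    have := ((tendsto_pow_atTop_nhds_zero_of_lt_one hq0 hq1).comp
      (tendsto_add_atTop_nat 1)).div_const (a / c)
    simpa using this
  refine squeeze_zero (fun _ => norm_nonneg _) (fun N => ?_) hlim
  have e2 : ∑ n ∈ range N, (1 / ((n : ℝ) + 1)) • ((1 : A) - c⁻¹ • H) ^ (n + 1) =
      cfc (fun s : ℝ => ∑ n ∈ range N, (1 - c⁻¹ * s) ^ (n + 1) / ((n : ℝ) + 1)) H := by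
    have := cfc_sum (fun (n : ℕ) (s : ℝ) => (1 / ((n : ℝ) + 1)) * (1 - c⁻¹ * s) ^ (n + 1)) H (range N)
    have e3 : (∑ n ∈ range N, fun s : ℝ => (1 / ((n : ℝ) + 1)) * (1 - c⁻¹ * s) ^ (n + 1)) =
        fun s : ℝ => ∑ n ∈ range N, (1 - c⁻¹ * s) ^ (n + 1) / ((n : ℝ) + 1) := by
      funext s
      rw [Finset.sum_apply]
      refine sum_congr rfl fun n _ => ?_
      ring
    rw [← e3, this]
    refine sum_congr rfl fun n _ => ?_
    rw [cfc_const_mul (1 / ((n : ℝ) + 1)) (fun s : ℝ => (1 - c⁻¹ * s) ^ (n + 1)) H,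
      cfc_pow (fun s : ℝ => 1 - c⁻¹ * s) (n + 1) H, eX]
  rw [e2, ← cfc_const (Real.log c) H, ← cfc_sub (fun _ => Real.log c) Real.log H,
    ← cfc_sub _ (fun s => Real.log c - Real.log s) H]
  refine norm_cfc_le (by have := div_pos ha hc; positivity) fun s h => ?_
  have h0 := hy s h
  have hs0 : 0 < s := ha.trans_le (hs s h).1
  have h1 := Real.abs_log_sub_add_sum_range_le (h0.trans_lt hq1) N
  have e4 : Real.log (1 - (1 - c⁻¹ * s)) = -(Real.log c - Real.log s) := by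
    rw [sub_sub_cancel, Real.log_mul (inv_pos.2 hc).ne' hs0.ne', Real.log_inv]
    ring
  rw [e4, ← sub_eq_add_neg] at h1
  rw [Real.norm_eq_abs]
  refine h1.trans ?_
  exact div_le_div₀ (by positivity) (pow_le_pow_left₀ (abs_nonneg _) h0 _) (div_pos ha hc)
    (by linarith)

theorem rsmul_mem (S : Subalgebra ℂ A) (r : ℝ) {X : A} (h : X ∈ S) : r • X ∈ S := by
  rw [← Complex.coe_smul]
  exact S.smul_mem h _

theorem fk (S : Subalgebra ℂ A) (ρ : A →L[ℝ] ℝ) (htr : ∀ X ∈ S, ∀ Y ∈ S, ρ (X * Y) = ρ (Y * X))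
    (hstar : ∀ X, ρ (star X) = ρ X) (B0 N : A) (hB0 : B0 ∈ S) (hB0' : star B0 ∈ S) (hN : N ∈ S)
    (hN' : star N ∈ S) (C : ℝ → A) (K : ℝ) (hK0 : 0 < K)
    (hC : ∀ t ∈ Set.Ioo (-1 : ℝ) 2, C t ∈ S ∧ star (C t) ∈ S ∧ C t * (B0 + t • N) = 1 ∧
      (B0 + t • N) * C t = 1 ∧ ‖C t‖ ≤ K ∧ ρ (C t * N) = 0) :
    ρ (cfc Real.log (star (B0 + N) * (B0 + N))) = ρ (cfc Real.log (star B0 * B0)) := by
  set B : ℝ → A := fun t => B0 + t • N with hB
  set M : ℝ := ‖B0‖ + 2 * ‖N‖ + K⁻¹ with hM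
  set a : ℝ := K⁻¹ ^ 2 with ha
  set c : ℝ := M ^ 2 with hc
  have hKi : 0 < K⁻¹ := inv_pos.2 hK0
  have ha0 : 0 < a := by positivity
  have hac : a ≤ c := pow_le_pow_left₀ hKi.le (by
    have := norm_nonneg B0
    have := norm_nonneg N
    linarith) 2
  have hc0 : 0 < c := ha0.trans_le hac
  have hBM : ∀ t ∈ Set.Ioo (-1 : ℝ) 2, ‖B t‖ ≤ M := by
    intro t ht
    have h1 : ‖B t‖ ≤ ‖B0‖ + ‖t • N‖ := norm_add_le _ _
    have h2 : ‖t • N‖ ≤ 2 * ‖N‖ := by
      rw [norm_smul]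
      refine mul_le_mul_of_nonneg_right ?_ (norm_nonneg _)
      rw [Real.norm_eq_abs, abs_le]
      constructor <;> linarith [ht.1, ht.2]
    linarith
  have hser := fun t (ht : t ∈ Set.Ioo (-1 : ℝ) 2) =>
    log_series (star (B t) * B t) (IsSelfAdjoint.star_mul_self _) a c ha0 hac
      (spec_bounds (B t) (C t) (hC t ht).2.2.1 K hK0 (hC t ht).2.2.2.2.1 M (hBM t ht))
  set X : ℝ → A := fun t => 1 - c⁻¹ • (star (B t) * B t) with hX
  set X' : ℝ → A := fun t => -(c⁻¹ • (star N * B t + star (B t) * N)) with hX'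
  have hBS : ∀ t, B t ∈ S := fun t => S.add_mem hB0 (rsmul_mem S t hN)
  have hsB : ∀ t, star (B t) = star B0 + t • star N := by
    intro t
    simp only [hB, star_add, star_smul, star_trivial]
  have hBS' : ∀ t, star (B t) ∈ S := fun t => by
    rw [hsB]
    exact S.add_mem hB0' (rsmul_mem S t hN')
  have hXS : ∀ t, X t ∈ S := fun t =>
    S.sub_mem S.one_mem (rsmul_mem S _ (S.mul_mem (hBS' t) (hBS t)))
  have hXS' : ∀ t, X' t ∈ S := fun t =>
    S.neg_mem (rsmul_mem S _ (S.add_mem (S.mul_mem hN' (hBS t)) (S.mul_mem (hBS' t) hN)))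
  have hdX : ∀ t, HasDerivAt X (X' t) t := by
    intro t
    have h1 : HasDerivAt B N t := by
      have := ((hasDerivAt_id t).smul_const N).const_add B0
      rwa [one_smul] at this
    have h2 : HasDerivAt (fun t => star (B t)) (star N) t := by
      simp only [hsB]
      simpa using ((hasDerivAt_id t).smul_const (star N)).const_add (star B0)
    exact ((h2.mul h1).const_smul c⁻¹).const_sub 1
  have hq0 : 0 ≤ 1 - a / c := by
    rw [sub_nonneg, div_le_one hc0]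
    exact hac
  have hq1 : 1 - a / c < 1 := by
    have := div_pos ha0 hc0
    linarith
  have hX'n : ∀ t ∈ Set.Ioo (-1 : ℝ) 2, ‖X' t‖ ≤ c⁻¹ * (2 * (‖N‖ * M)) := by
    intro t ht
    rw [hX']
    simp only [norm_neg, norm_smul, Real.norm_of_nonneg (inv_nonneg.2 hc0.le)]
    refine mul_le_mul_of_nonneg_left ((norm_add_le _ _).trans ?_) (inv_nonneg.2 hc0.le)
    have h1 : ‖star N * B t‖ ≤ ‖N‖ * M := (norm_mul_le _ _).trans (by
      rw [norm_star]
      exact mul_le_mul_of_nonneg_left (hBM t ht) (norm_nonneg _))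
    have h2 : ‖star (B t) * N‖ ≤ ‖N‖ * M := (norm_mul_le _ _).trans (by
      rw [norm_star, mul_comm]
      exact mul_le_mul_of_nonneg_left (hBM t ht) (norm_nonneg _))
    linarith
  have hpow : ∀ t ∈ Set.Ioo (-1 : ℝ) 2, ∀ n : ℕ, ‖X t ^ n‖ ≤ ‖(1 : A)‖ * (1 - a / c) ^ n := by
    intro t ht n
    induction n with
    | zero => simp
    | succ n ih =>
      rw [pow_succ, pow_succ, ← mul_assoc]
      exact (norm_mul_le _ _).trans (mul_le_mul ih (hser t ht).1 (norm_nonneg _) (by positivity))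
  have hterm : ∀ (n : ℕ) (t : ℝ), HasDerivAt (fun t => ρ ((1 / ((n : ℝ) + 1)) • X t ^ (n + 1)))
      (ρ (X t ^ n * X' t)) t := by
    intro n t
    have h1 := (((hdX t).fun_pow' (n + 1)).const_smul (1 / ((n : ℝ) + 1)))
    have h2 := ρ.hasFDerivAt.comp_hasDerivAt t h1
    refine HasDerivAt.congr_deriv h2 (Eq.symm ?_)
    rw [map_smul, map_sum]
    have : ∀ i ∈ range (n + 1), ρ (X t ^ ((n + 1).pred - i) * X' t * X t ^ i) = ρ (X t ^ n * X' t) := by
      intro i hi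
      have hi' : i ≤ n := Nat.lt_succ_iff.1 (mem_range.1 hi)
      rw [htr _ (S.mul_mem (S.pow_mem (hXS t) _) (hXS' t)) _ (S.pow_mem (hXS t) _), ← mul_assoc,
        ← pow_add, Nat.pred_succ, Nat.add_sub_cancel' hi']
    rw [sum_congr rfl this, sum_const, card_range, nsmul_eq_mul, smul_eq_mul]
    push_cast
    field_simp
  have hφ : ∀ t ∈ Set.Ioo (-1 : ℝ) 2, ∑' n : ℕ, ρ ((1 / ((n : ℝ) + 1)) • X t ^ (n + 1)) =
      ρ (algebraMap ℝ A (Real.log c)) - ρ (cfc Real.log (star (B t) * B t)) := by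
    intro t ht
    rw [← map_sub]
    exact (ρ.hasSum (hser t ht).2).tsum_eq
  have hder : ∀ t ∈ Set.Ioo (-1 : ℝ) 2,
      HasDerivAt (fun t => ∑' n : ℕ, ρ ((1 / ((n : ℝ) + 1)) • X t ^ (n + 1))) 0 t := by
    intro t ht
    have h0 : (0 : ℝ) ∈ Set.Ioo (-1 : ℝ) 2 := by constructor <;> norm_num
    have h1 := hasDerivAt_tsum_of_isPreconnected
      (u := fun n : ℕ => ‖ρ‖ * (‖(1 : A)‖ * (1 - a / c) ^ n * (c⁻¹ * (2 * (‖N‖ * M)))))
      ((((summable_geometric_of_lt_one hq0 hq1).mul_left _).mul_right _).mul_left _)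
      isOpen_Ioo isPreconnected_Ioo (fun n y _ => hterm n y)
      (fun n y hy => (ρ.le_opNorm _).trans (mul_le_mul_of_nonneg_left ((norm_mul_le _ _).trans
        (mul_le_mul (hpow y hy n) (hX'n y hy) (norm_nonneg _) (by positivity))) (norm_nonneg _)))
      h0 (ρ.hasSum (hser 0 h0).2).summable ht
    refine HasDerivAt.congr_deriv h1 (Eq.symm ?_)
    obtain ⟨c1, c2, c3, c4, -, c6⟩ := hC t ht
    have hs : Summable (fun n : ℕ => X t ^ n) :=
      Summable.of_norm_bounded ((summable_geometric_of_lt_one hq0 hq1).mul_left _) (hpow t ht)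
    have h2 : (1 - X t) * ∑' n : ℕ, X t ^ n = 1 := hs.one_sub_mul_tsum_pow
    have c3' : star (C t) * star (B t) = 1 := by rw [← star_mul, c4, star_one]
    have h3 : ∑' n : ℕ, X t ^ n = c • (C t * star (C t)) := by
      have e : 1 - X t = c⁻¹ • (star (B t) * B t) := by simp only [hX, sub_sub_cancel]
      have e2 : (c • (C t * star (C t))) * (1 - X t) = 1 := by
        rw [e, smul_mul_smul_comm, mul_inv_cancel₀ hc0.ne', one_smul, mul_assoc,
          ← mul_assoc (star (C t)), c3', one_mul]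
        exact c3
      calc ∑' n : ℕ, X t ^ n = (c • (C t * star (C t))) * (1 - X t) * ∑' n : ℕ, X t ^ n := by
            rw [e2, one_mul]
        _ = _ := by rw [mul_assoc, h2, mul_one]
    have h4 := (ρ.hasSum (hs.hasSum.mul_right (X' t))).tsum_eq
    rw [h4, h3, hX']
    simp only [mul_neg, smul_mul_smul_comm, mul_inv_cancel₀ hc0.ne', one_smul, map_neg, mul_add,
      map_add]
    have e1 : ρ (C t * star (C t) * (star N * B t)) = 0 := by
      rw [← mul_assoc, htr _ (S.mul_mem (S.mul_mem c1 c2) hN') _ (hBS t), ← mul_assoc, ← mul_assoc,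
        c4, one_mul, ← star_mul, hstar, htr _ hN _ c1, c6]
    have e2 : ρ (C t * star (C t) * (star (B t) * N)) = 0 := by
      rw [mul_assoc, ← mul_assoc (star (C t)), c3', one_mul, c6]
    rw [e1, e2]
    simp
  have hsub : Set.Icc (0 : ℝ) 1 ⊆ Set.Ioo (-1 : ℝ) 2 := fun t ht => by
    constructor <;> linarith [ht.1, ht.2]
  have hconst := constant_of_has_deriv_right_zero
    (f := fun t => ∑' n : ℕ, ρ ((1 / ((n : ℝ) + 1)) • X t ^ (n + 1))) (a := 0) (b := 1)
    (fun t ht => (hder t (hsub ht)).continuousAt.continuousWithinAt)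
    (fun t ht => (hder t (hsub (Set.Ico_subset_Icc_self ht))).hasDerivWithinAt) 1
    (by constructor <;> norm_num)
  beta_reduce at hconst
  rw [hφ 1 (by constructor <;> norm_num), hφ 0 (by constructor <;> norm_num)] at hconst
  simp only [hB, one_smul, zero_smul, add_zero] at hconst
  linarith

end Crest.Agent.R113.Fk
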