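import Crest.Prelude.Def_ProductShift
import Crest.Agent.R113.FkA

/-!
Row 113 (S0151): weighted shifts along the orbits, the vacuum state is a trace on them.
-/

set_option autoImplicit false

namespace Crest.Agent.R113.Fk

open Filter Topology Finset MeasureTheory Crest.AnalysisR.ProductShift

theorem mp_fract (a : ℝ) :
    MeasurePreserving (fun x : ℝ => Int.fract (x + a)) unitLebesgue unitLebesgue := by
  have hm : Measurable (fun x : ℝ => Int.fract (x + a)) := (measurable_id.add_const a).fract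
  refine ⟨hm, ?_⟩
  ext s hs
  rw [Measure.map_apply hm hs, unitLebesgue, Measure.restrict_apply (hm hs),
    Measure.restrict_apply hs]
  set b := Int.fract a with hb
  have hb0 : 0 ≤ b := Int.fract_nonneg a
  have hb1 : b < 1 := Int.fract_lt_one a
  have e0 : ∀ x : ℝ, Int.fract (x + a) = Int.fract (x + b) := by
    intro x
    rw [hb, Int.fract, Int.fract, Int.fract, ← add_sub_assoc, Int.floor_sub_intCast]
    push_cast
    ring
  have e1 : (fun x : ℝ => Int.fract (x + a)) ⁻¹' s ∩ Set.Ico 0 1 =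
      (fun x : ℝ => x + b) ⁻¹' (s ∩ Set.Ico b 1) ∪ (fun x : ℝ => x + (b - 1)) ⁻¹' (s ∩ Set.Ico 0 b) := by
    ext x
    simp only [Set.mem_inter_iff, Set.mem_preimage, Set.mem_Ico, Set.mem_union, e0]
    constructor
    · rintro ⟨h1, h2, h3⟩
      by_cases h : x + b < 1
      · left
        rw [Int.fract_eq_self.2 ⟨by linarith, h⟩] at h1
        exact ⟨h1, by linarith, h⟩
      · right
        have : Int.fract (x + b) = x + (b - 1) := by
          rw [← Int.fract_sub_one, Int.fract_eq_self.2 ⟨by linarith, by linarith⟩]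
          ring
        rw [this] at h1
        exact ⟨h1, by linarith, by linarith⟩
    · rintro (⟨h1, h2, h3⟩ | ⟨h1, h2, h3⟩)
      · rw [Int.fract_eq_self.2 ⟨by linarith, h3⟩]
        exact ⟨h1, by linarith, by linarith⟩
      · have : Int.fract (x + b) = x + (b - 1) := by
          rw [← Int.fract_sub_one, Int.fract_eq_self.2 ⟨by linarith, by linarith⟩]
          ring
        rw [this]
        exact ⟨h1, by linarith, by linarith⟩
  have e2 : s ∩ Set.Ico 0 1 = (s ∩ Set.Ico b 1) ∪ (s ∩ Set.Ico 0 b) := by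
    ext x
    simp only [Set.mem_inter_iff, Set.mem_Ico, Set.mem_union]
    constructor
    · rintro ⟨h1, h2, h3⟩
      rcases le_or_gt b x with h | h
      · exact Or.inl ⟨h1, h, h3⟩
      · exact Or.inr ⟨h1, h2, h⟩
    · rintro (⟨h1, h2, h3⟩ | ⟨h1, h2, h3⟩)
      · exact ⟨h1, by linarith, h3⟩
      · exact ⟨h1, h2, by linarith⟩
  rw [e1, e2, measure_union, measure_union, measure_preimage_add_right, measure_preimage_add_right]
  · rw [Set.disjoint_left]
    rintro x ⟨-, h1, -⟩ ⟨-, -, h2⟩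
    linarith
  · exact hs.inter measurableSet_Ico
  · rw [Set.disjoint_left]
    rintro x ⟨-, h1, h3⟩ ⟨-, h2, -⟩
    simp only at h1 h2 h3
    linarith
  · exact (measurable_id.add_const _) (hs.inter measurableSet_Ico)

variable (θ : ℕ → ℝ)

theorem meas_orb (k : ℤ) : Measurable (orbitPoint θ k) :=
  measurable_pi_lambda _ fun i => ((measurable_pi_apply i).add_const _).fract

theorem mp_orb (k : ℤ) : MeasurePreserving (orbitPoint θ k) cubeMeasure cubeMeasure := by
  refine ⟨meas_orb θ k, ?_⟩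
  have := Measure.infinitePi_map_pi (fun _ : ℕ => unitLebesgue)
    (f := fun (i : ℕ) (x : ℝ) => Int.fract (x + (k : ℝ) * θ i)) (fun i => (mp_fract _).measurable)
  simp only [(mp_fract _).map_eq] at this
  exact this

theorem orb_orb (j k : ℤ) (x : ℕ → ℝ) :
    orbitPoint θ j (orbitPoint θ k x) = orbitPoint θ (j + k) x := by
  funext i
  simp only [orbitPoint]
  have : Int.fract (x i + (k : ℝ) * θ i) + (j : ℝ) * θ i =
      (x i + ((j + k : ℤ) : ℝ) * θ i) - (⌊x i + (k : ℝ) * θ i⌋ : ℤ) := by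
    rw [Int.fract]
    push_cast
    ring
  rw [this, Int.fract_sub_intCast]

theorem meas_orb2 : Measurable (fun p : (ℕ → ℝ) × ℤ => orbitPoint θ p.2 p.1) :=
  measurable_from_prod_countable_left fun k => meas_orb θ k

/-- the shift of the second coordinate -/
def sh (d : ℤ) (p : (ℕ → ℝ) × ℤ) : (ℕ → ℝ) × ℤ := (p.1, p.2 - d)

theorem mp_sh (d : ℤ) : MeasurePreserving (sh d) pairMeasure pairMeasure :=
  (MeasurePreserving.id cubeMeasure).prod (measurePreserving_sub_right (Measure.count : Measure ℤ) d)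

theorem me_sh (d : ℤ) : MeasurableEmbedding (sh d) :=
  MeasurableEmbedding.id.prodMap (measurableEmbedding_subRight d)

/-- `W` is the shift by `d` with the weight `m` read along the orbit -/
def Mon (d : ℤ) (m : (ℕ → ℝ) → ℂ) (W : pairSpace →L[ℂ] pairSpace) : Prop :=
  Measurable m ∧ ∀ g : pairSpace, (W g : (ℕ → ℝ) × ℤ → ℂ) =ᵐ[pairMeasure]
    fun p => m (orbitPoint θ p.2 p.1) * (g : (ℕ → ℝ) × ℤ → ℂ) (sh d p)

variable {θ}

theorem Mon.congr {d : ℤ} {m m' : (ℕ → ℝ) → ℂ} {W : pairSpace →L[ℂ] pairSpace} (h : Mon θ d m W)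
    (hm : Measurable m') (e : ∀ k x, m (orbitPoint θ k x) = m' (orbitPoint θ k x)) : Mon θ d m' W :=
  ⟨hm, fun g => by simpa only [e] using h.2 g⟩

theorem Mon.one : Mon θ 0 (fun _ => 1) 1 :=
  ⟨measurable_const, fun g => Eventually.of_forall fun p => by simp [sh]⟩

theorem Mon.mul {d₁ d₂ : ℤ} {m₁ m₂ : (ℕ → ℝ) → ℂ} {W₁ W₂ : pairSpace →L[ℂ] pairSpace}
    (h₁ : Mon θ d₁ m₁ W₁) (h₂ : Mon θ d₂ m₂ W₂) :
    Mon θ (d₁ + d₂) (fun y => m₁ y * m₂ (orbitPoint θ (-d₁) y)) (W₁ * W₂) := by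
  refine ⟨h₁.1.mul (h₂.1.comp (meas_orb θ _)), fun g => ?_⟩
  filter_upwards [h₁.2 (W₂ g), (mp_sh d₁).quasiMeasurePreserving.ae (h₂.2 g)] with p e1 e2
  rw [ContinuousLinearMap.mul_apply, e1, e2, orb_orb, mul_assoc]
  simp only [sh, sub_sub, neg_add_eq_sub]

theorem Mon.add {d : ℤ} {m₁ m₂ : (ℕ → ℝ) → ℂ} {W₁ W₂ : pairSpace →L[ℂ] pairSpace}
    (h₁ : Mon θ d m₁ W₁) (h₂ : Mon θ d m₂ W₂) : Mon θ d (fun y => m₁ y + m₂ y) (W₁ + W₂) := by
  refine ⟨h₁.1.add h₂.1, fun g => ?_⟩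
  filter_upwards [h₁.2 g, h₂.2 g, Lp.coeFn_add (W₁ g) (W₂ g)] with p e1 e2 e3
  rw [ContinuousLinearMap.add_apply, e3, Pi.add_apply, e1, e2, add_mul]

theorem Mon.smul {d : ℤ} {m : (ℕ → ℝ) → ℂ} {W : pairSpace →L[ℂ] pairSpace}
    (h : Mon θ d m W) (a : ℂ) : Mon θ d (fun y => a * m y) (a • W) := by
  refine ⟨h.1.const_mul a, fun g => ?_⟩
  filter_upwards [h.2 g, Lp.coeFn_smul a (W g)] with p e1 e3
  rw [ContinuousLinearMap.smul_apply, e3, Pi.smul_apply, e1, smul_eq_mul, mul_assoc]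

theorem Mon.pow0 {m : (ℕ → ℝ) → ℂ} {W : pairSpace →L[ℂ] pairSpace}
    (h : Mon θ 0 m W) (n : ℕ) : Mon θ 0 (fun y => m y ^ n) (W ^ n) := by
  induction n with
  | zero => simpa using Mon.one
  | succ n ih =>
    rw [pow_succ]
    refine (ih.mul h).congr (h.1.pow_const _) fun k x => ?_
    rw [orb_orb, neg_zero, zero_add, pow_succ]

theorem Mon.norm_le {d : ℤ} {m : (ℕ → ℝ) → ℂ} {W : pairSpace →L[ℂ] pairSpace}
    (h : Mon θ d m W) {C : ℝ} (hC0 : 0 ≤ C) (hC : ∀ k x, ‖m (orbitPoint θ k x)‖ ≤ C) : ‖W‖ ≤ C := by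
  refine W.opNorm_le_bound hC0 fun g => ?_
  rw [← Lp.norm_compMeasurePreserving g (mp_sh d)]
  refine Lp.norm_le_mul_norm_of_ae_le_mul ?_
  filter_upwards [h.2 g, Lp.coeFn_compMeasurePreserving g (mp_sh d)] with p e1 e2
  rw [e1, e2, norm_mul]
  exact mul_le_mul_of_nonneg_right (hC _ _) (norm_nonneg _)

theorem restrict_vac : pairMeasure.restrict (Set.univ ×ˢ {(0 : ℤ)}) =
    cubeMeasure.map (fun x => (x, (0 : ℤ))) := by
  rw [pairMeasure, ← Measure.prod_restrict, Measure.restrict_univ, Measure.restrict_singleton,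
    Measure.count_singleton, one_smul, Measure.prod_dirac]

theorem Mon.tau {d : ℤ} {m : (ℕ → ℝ) → ℂ} {W : pairSpace →L[ℂ] pairSpace} (h : Mon θ d m W) :
    inner ℂ vacuumVector (W vacuumVector) =
      if d = 0 then ∫ x, m (orbitPoint θ 0 x) ∂cubeMeasure else 0 := by
  have hv : (vacuumVector : (ℕ → ℝ) × ℤ → ℂ) =ᵐ[pairMeasure]
      (Set.univ ×ˢ {(0 : ℤ)}).indicator fun _ => (1 : ℂ) := indicatorConstLp_coeFn
  have e : (W vacuumVector : (ℕ → ℝ) × ℤ → ℂ) =ᵐ[pairMeasure]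
      fun p => m (orbitPoint θ p.2 p.1) * (if p.2 - d = 0 then 1 else 0) := by
    filter_upwards [h.2 vacuumVector, (mp_sh d).quasiMeasurePreserving.ae hv] with p e1 e2
    rw [e1, e2]
    simp [Set.indicator_apply, sh]
  rw [vacuumVector, L2.inner_indicatorConstLp_one, ← vacuumVector,
    integral_congr_ae (ae_restrict_of_ae e), restrict_vac,
    (measurableEmbedding_prod_mk_right (0 : ℤ)).integral_map]
  by_cases hd : d = 0
  · simp [hd]
  · simp [hd]

theorem Mon.trace {d₁ d₂ : ℤ} {m₁ m₂ : (ℕ → ℝ) → ℂ} {W₁ W₂ : pairSpace →L[ℂ] pairSpace}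
    (h₁ : Mon θ d₁ m₁ W₁) (h₂ : Mon θ d₂ m₂ W₂) :
    inner ℂ vacuumVector ((W₁ * W₂) vacuumVector) = inner ℂ vacuumVector ((W₂ * W₁) vacuumVector) := by
  rw [(h₁.mul h₂).tau, (h₂.mul h₁).tau, add_comm d₂ d₁]
  split_ifs with hd
  · have hF : Measurable fun y => m₂ (orbitPoint θ 0 y) *
        m₁ (orbitPoint θ (-d₂) (orbitPoint θ 0 y)) :=
      (h₂.1.comp (meas_orb θ _)).mul (h₁.1.comp ((meas_orb θ _).comp (meas_orb θ _)))
    have := integral_map (μ := cubeMeasure) (meas_orb θ (-d₁)).aemeasurable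
      hF.aestronglyMeasurable
    rw [(mp_orb θ (-d₁)).map_eq] at this
    rw [this]
    refine integral_congr_ae (Eventually.of_forall fun x => ?_)
    simp only [orb_orb]
    rw [mul_comm, show -d₂ + (0 + -d₁) = 0 by omega, add_comm (-d₁) 0]
  · rfl

theorem Mon.adjoint {d : ℤ} {m : (ℕ → ℝ) → ℂ} {W : pairSpace →L[ℂ] pairSpace} (h : Mon θ d m W)
    (hC : ∀ y, ‖m y‖ ≤ 1) :
    Mon θ (-d) (fun y => (starRingEnd ℂ) (m (orbitPoint θ d y))) (star W) := by
  have hm : Measurable fun y => (starRingEnd ℂ) (m (orbitPoint θ d y)) :=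
    Complex.continuous_conj.measurable.comp (h.1.comp (meas_orb θ d))
  refine ⟨hm, fun g => ?_⟩
  have hg : MemLp (fun p => (g : (ℕ → ℝ) × ℤ → ℂ) (sh (-d) p)) 2 pairMeasure :=
    (Lp.memLp g).comp_measurePreserving (mp_sh (-d))
  have hL : MemLp (fun p : (ℕ → ℝ) × ℤ => (starRingEnd ℂ) (m (orbitPoint θ d (orbitPoint θ p.2 p.1))) *
      (g : (ℕ → ℝ) × ℤ → ℂ) (sh (-d) p)) 2 pairMeasure := by
    refine hg.of_le ((hm.comp (meas_orb2 θ)).aestronglyMeasurable.mul hg.1)
      (Eventually.of_forall fun p => ?_)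
    rw [norm_mul, Complex.norm_conj]
    exact mul_le_of_le_one_left (norm_nonneg _) (hC _)
  have e : star W g = hL.toLp _ := by
    refine ext_inner_right ℂ fun f => ?_
    rw [ContinuousLinearMap.star_eq_adjoint, ContinuousLinearMap.adjoint_inner_left, L2.inner_def,
      L2.inner_def, ← (mp_sh d).integral_comp (me_sh d) (fun p => inner ℂ ((hL.toLp _) p) (f p))]
    refine integral_congr_ae ?_
    filter_upwards [h.2 f, (mp_sh d).quasiMeasurePreserving.ae hL.coeFn_toLp] with p e1 e2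
    rw [e1, e2, orb_orb]
    simp only [sh, RCLike.inner_apply, map_mul, Complex.conj_conj, sub_neg_eq_add, sub_add_cancel,
      add_sub_cancel]
    ring
  rw [e]
  exact hL.coeFn_toLp

theorem trace_closure {A : Type*} [CStarAlgebra A] (τ : A →L[ℂ] ℂ) (s : Set A)
    (h : ∀ X ∈ Submonoid.closure s, ∀ Y ∈ Submonoid.closure s, τ (X * Y) = τ (Y * X)) :
    ∀ X ∈ (Algebra.adjoin ℂ s).topologicalClosure, ∀ Y ∈ (Algebra.adjoin ℂ s).topologicalClosure,
      τ (X * Y) = τ (Y * X) := by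
  have key : ∀ Y, (∀ X ∈ Submonoid.closure s, τ (X * Y) = τ (Y * X)) →
      ∀ X ∈ (Algebra.adjoin ℂ s).topologicalClosure, τ (X * Y) = τ (Y * X) := by
    intro Y hY X hX
    have hcl : IsClosed {X : A | τ (X * Y) = τ (Y * X)} := isClosed_eq (by fun_prop) (by fun_prop)
    refine closure_minimal (s := (Algebra.adjoin ℂ s : Set A)) (fun Z hZ => ?_) hcl hX
    have hZ' : Z ∈ Submodule.span ℂ (Submonoid.closure s : Set A) := by
      rw [← Algebra.adjoin_eq_span]
      exact hZ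
    clear hZ
    induction hZ' using Submodule.span_induction with
    | mem x hx => exact hY x hx
    | zero => simp
    | add x y _ _ hx hy =>
      simp only [Set.mem_setOf_eq] at hx hy ⊢
      rw [add_mul, mul_add, map_add, map_add, hx, hy]
    | smul a x _ hx =>
      simp only [Set.mem_setOf_eq] at hx ⊢
      rw [smul_mul_assoc, mul_smul_comm, map_smul, map_smul, hx]
  intro X hX Y hY
  exact (key X (fun Z hZ => (key Z (fun V hV => h V hV Z hZ) X hX).symm) Y hY).symm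

end Crest.Agent.R113.Fk
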