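import Crest.Agent.R113.FkB

/-!
Row 113 (S0151): the weighted shift is quasinilpotent.
-/

set_option autoImplicit false

namespace Crest.Agent.R113.Fk

open Filter Topology Finset MeasureTheory Crest.AnalysisR.ProductShift

variable (θ c : ℕ → ℝ)

theorem meas_drop : Measurable (dropCost θ c) := by
  unfold dropCost
  refine Measurable.ennreal_tsum fun i => ENNReal.measurable_ofReal.comp ?_
  exact ((measurable_from_top (f := fun n : ℤ => (n : ℝ))).comp
    ((measurable_pi_apply i).add_const _).floor).const_mul _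

theorem meas_w : Measurable (weight θ c) := by
  unfold weight
  refine Measurable.ite (meas_drop θ c (measurableSet_singleton ⊤)) measurable_const ?_
  exact Real.measurable_exp.comp (meas_drop θ c).ennreal_toReal.neg

theorem w_nonneg (y : ℕ → ℝ) : 0 ≤ weight θ c y := by
  unfold weight
  split_ifs
  · exact le_rfl
  · exact (Real.exp_pos _).le

theorem w_le_one (y : ℕ → ℝ) : weight θ c y ≤ 1 := by
  unfold weight
  split_ifs
  · exact zero_le_one
  · exact Real.exp_le_one_iff.2 (neg_nonpos.2 ENNReal.toReal_nonneg)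

theorem ofReal_sum_le (t : ℕ → ℝ) (m : ℕ) :
    ENNReal.ofReal (∑ i ∈ range m, t i) ≤ ∑ i ∈ range m, ENNReal.ofReal (t i) := by
  induction m with
  | zero => simp
  | succ m ih =>
    rw [sum_range_succ, sum_range_succ]
    exact ENNReal.ofReal_add_le.trans (add_le_add ih le_rfl)

theorem w_le (y : ℕ → ℝ) (m : ℕ) :
    weight θ c y ≤ Real.exp (-∑ i ∈ range m, c i * (⌊y i + θ i⌋ : ℝ)) := by
  unfold weight
  split_ifs with h
  · exact (Real.exp_pos _).le
  · refine Real.exp_le_exp.2 (neg_le_neg ((ENNReal.ofReal_le_iff_le_toReal h).1 ?_))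
    exact (ofReal_sum_le _ m).trans (ENNReal.sum_le_tsum _)

theorem floor_tel (x a : ℝ) (k : ℤ) (n : ℕ) :
    ∑ j ∈ range n, (⌊Int.fract (x + ((-((j : ℤ) + 1) + k : ℤ) : ℝ) * a) + a⌋ : ℝ) =
      (⌊x + k * a⌋ : ℝ) - (⌊x + (k - n) * a⌋ : ℝ) := by
  induction n with
  | zero => simp
  | succ n ih =>
    rw [sum_range_succ, ih]
    have : Int.fract (x + ((-((n : ℤ) + 1) + k : ℤ) : ℝ) * a) + a =
        (x + (k - n) * a) - (⌊x + (k - ((n + 1 : ℕ) : ℝ)) * a⌋ : ℤ) := by
      rw [Int.fract]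
      have e : x + ((-((n : ℤ) + 1) + k : ℤ) : ℝ) * a = x + (k - ((n + 1 : ℕ) : ℝ)) * a := by
        push_cast
        ring
      rw [e]
      push_cast
      ring
    rw [this, Int.floor_sub_intCast]
    push_cast
    ring

variable {θ c}

theorem prod_w_le (hc : ∀ i, 0 ≤ c i) (m n : ℕ) (k : ℤ) (x : ℕ → ℝ) :
    ∏ j ∈ range n, weight θ c (orbitPoint θ (-((j : ℤ) + 1) + k) x) ≤
      Real.exp (∑ i ∈ range m, c i) * Real.exp (-∑ i ∈ range m, c i * θ i) ^ n := by
  refine (prod_le_prod (fun j _ => w_nonneg θ c _) (fun j _ => w_le θ c _ m)).trans ?_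
  rw [← Real.exp_sum, ← Real.exp_nat_mul, ← Real.exp_add, Real.exp_le_exp, sum_neg_distrib,
    sum_comm, mul_neg, mul_sum, ← sub_eq_add_neg, ← sum_sub_distrib, ← sum_neg_distrib]
  refine sum_le_sum fun i _ => ?_
  rw [← mul_sum]
  simp only [orbitPoint]
  rw [floor_tel]
  have h1 := Int.lt_floor_add_one (x i + k * θ i)
  have h2 := Int.floor_le (x i + (k - n) * θ i)
  have h3 : n * θ i - 1 ≤ (⌊x i + k * θ i⌋ : ℝ) - (⌊x i + (k - n) * θ i⌋ : ℝ) := by linarith
  have := mul_le_mul_of_nonneg_left h3 (hc i)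
  linarith

theorem diverge (hθ : ∀ i, 0 < θ i ∧ θ i < 1) (hc : ∀ i, 0 ≤ c i)
    (hlog : ∫⁻ x, ENNReal.ofReal (- Real.log (weight θ c x)) ∂cubeMeasure = ⊤) (L : ℝ) :
    ∃ m, L ≤ ∑ i ∈ range m, c i * θ i := by
  by_contra hcon
  push Not at hcon
  have h1 : ∫⁻ x, ENNReal.ofReal (- Real.log (weight θ c x)) ∂cubeMeasure ≤
      ∫⁻ x, dropCost θ c x ∂cubeMeasure := by
    refine lintegral_mono fun x => ?_
    unfold weight
    split_ifs with h
    · simp
    · rw [Real.log_exp, neg_neg, ENNReal.ofReal_toReal h]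
  have h2 : ∀ i, ∫⁻ x, ENNReal.ofReal (c i * (⌊x i + θ i⌋ : ℝ)) ∂cubeMeasure ≤
      ENNReal.ofReal (c i * θ i) := by
    intro i
    have hm : Measurable fun t : ℝ => ENNReal.ofReal (c i * (⌊t + θ i⌋ : ℝ)) :=
      ENNReal.measurable_ofReal.comp (((measurable_from_top (f := fun n : ℤ => (n : ℝ))).comp
        (measurable_id.add_const _).floor).const_mul _)
    have e := (measurePreserving_eval_infinitePi (fun _ : ℕ => unitLebesgue) i).lintegral_comp hm
    refine (le_of_eq e).trans ?_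
    have h3 : ∫⁻ t, ENNReal.ofReal (c i * (⌊t + θ i⌋ : ℝ)) ∂unitLebesgue ≤
        ∫⁻ t, (Set.Ico (1 - θ i) 1).indicator (fun _ => ENNReal.ofReal (c i)) t ∂volume := by
      rw [unitLebesgue, ← lintegral_indicator measurableSet_Ico]
      refine lintegral_mono fun t => ?_
      by_cases ht : t ∈ Set.Ico (0 : ℝ) 1
      · rw [Set.indicator_of_mem ht]
        by_cases ht2 : 1 - θ i ≤ t
        · rw [Set.indicator_of_mem (show t ∈ Set.Ico (1 - θ i) 1 from ⟨ht2, ht.2⟩)]
          refine ENNReal.ofReal_le_ofReal (mul_le_of_le_one_right (hc i) ?_)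
          have : ⌊t + θ i⌋ < 2 := Int.floor_lt.2 (by push_cast; linarith [ht.2, (hθ i).2])
          have : ⌊t + θ i⌋ ≤ 1 := by omega
          exact_mod_cast this
        · have : ⌊t + θ i⌋ < 1 := Int.floor_lt.2 (by push_cast; linarith)
          have : ⌊t + θ i⌋ ≤ 0 := by omega
          have : (⌊t + θ i⌋ : ℝ) ≤ 0 := by exact_mod_cast this
          rw [ENNReal.ofReal_of_nonpos (mul_nonpos_of_nonneg_of_nonpos (hc i) this)]
          exact zero_le
      · rw [Set.indicator_of_notMem ht]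
        exact zero_le
    refine h3.trans (le_of_eq ?_)
    rw [lintegral_indicator_const measurableSet_Ico, Real.volume_Ico, sub_sub_cancel,
      ENNReal.ofReal_mul (hc i)]
  have h4 : ∫⁻ x, dropCost θ c x ∂cubeMeasure ≤ ENNReal.ofReal L := by
    unfold dropCost
    have hm : ∀ i, Measurable fun x : ℕ → ℝ => ENNReal.ofReal (c i * (⌊x i + θ i⌋ : ℝ)) :=
      fun i => ENNReal.measurable_ofReal.comp
        (((measurable_from_top (f := fun n : ℤ => (n : ℝ))).comp
          ((measurable_pi_apply i).add_const _).floor).const_mul _)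
    rw [lintegral_tsum fun i => (hm i).aemeasurable]
    refine (ENNReal.tsum_le_tsum h2).trans ?_
    rw [ENNReal.tsum_eq_iSup_nat]
    refine iSup_le fun m => ?_
    rw [← ENNReal.ofReal_sum_of_nonneg fun i _ => mul_nonneg (hc i) (hθ i).1.le]
    exact ENNReal.ofReal_le_ofReal (hcon m).le
  rw [hlog] at h1
  exact ENNReal.ofReal_ne_top (top_le_iff.1 (h1.trans h4))

variable {T : pairSpace →L[ℂ] pairSpace}

theorem mon_T (hT : IsWeightedShift θ c T) :
    Mon θ 1 (fun y => (weight θ c (orbitPoint θ (-1) y) : ℂ)) T := by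
  refine ⟨Complex.measurable_ofReal.comp ((meas_w θ c).comp (meas_orb θ _)), fun g => ?_⟩
  filter_upwards [hT g] with p e
  rw [e, orb_orb, neg_add_eq_sub]
  rfl

theorem mon_Ts (hT : IsWeightedShift θ c T) : Mon θ (-1) (fun y => (weight θ c y : ℂ)) (star T) := by
  refine ((mon_T hT).adjoint fun y => ?_).congr (Complex.measurable_ofReal.comp (meas_w θ c))
    fun k x => ?_
  · rw [Complex.norm_real, Real.norm_of_nonneg (w_nonneg θ c _)]
    exact w_le_one θ c _
  · rw [orb_orb, orb_orb, Complex.conj_ofReal]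
    congr 3
    ring

theorem mon_pow (hT : IsWeightedShift θ c T) (n : ℕ) :
    Mon θ n (fun y => ∏ j ∈ range n, (weight θ c (orbitPoint θ (-((j : ℤ) + 1)) y) : ℂ)) (T ^ n) := by
  induction n with
  | zero => simpa using Mon.one
  | succ n ih =>
    rw [pow_succ]
    have := ih.mul (mon_T hT)
    push_cast
    refine this.congr (Finset.measurable_prod _ fun j _ =>
      Complex.measurable_ofReal.comp ((meas_w θ c).comp (meas_orb θ _))) fun k x => ?_
    rw [prod_range_succ, orb_orb θ (-1) (-n)]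
    congr 4
    ring

theorem summable_pow (hθ : ∀ i, 0 < θ i ∧ θ i < 1) (hc : ∀ i, 0 ≤ c i)
    (hlog : ∫⁻ x, ENNReal.ofReal (- Real.log (weight θ c x)) ∂cubeMeasure = ⊤)
    (hT : IsWeightedShift θ c T) (r : ℝ) (hr : 0 ≤ r) : Summable fun n : ℕ => r ^ n * ‖T ^ n‖ := by
  obtain ⟨m, hm⟩ := diverge hθ hc hlog r
  have hq : r * Real.exp (-∑ i ∈ range m, c i * θ i) < 1 := by
    rw [Real.exp_neg, ← div_eq_mul_inv, div_lt_one (Real.exp_pos _)]
    have := Real.add_one_le_exp (∑ i ∈ range m, c i * θ i)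
    linarith
  refine Summable.of_nonneg_of_le (fun n => by positivity) (fun n => ?_)
    ((summable_geometric_of_lt_one (by positivity) hq).mul_left (Real.exp (∑ i ∈ range m, c i)))
  rw [mul_pow, mul_left_comm]
  refine mul_le_mul_of_nonneg_left ((mon_pow hT n).norm_le (by positivity) fun k x => ?_)
    (by positivity)
  simp only [orb_orb]
  rw [← Complex.ofReal_prod, Complex.norm_real,
    Real.norm_of_nonneg (prod_nonneg fun j _ => w_nonneg θ c _)]
  exact prod_w_le hc m n k x

theorem mon_closure (hT : IsWeightedShift θ c T) (X : pairSpace →L[ℂ] pairSpace)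
    (hX : X ∈ Submonoid.closure ({T, star T} : Set (pairSpace →L[ℂ] pairSpace))) :
    ∃ d m, Mon θ d m X := by
  induction hX using Submonoid.closure_induction with
  | mem x hx =>
    rcases hx with rfl | rfl
    · exact ⟨_, _, mon_T hT⟩
    · exact ⟨_, _, mon_Ts hT⟩
  | one => exact ⟨_, _, Mon.one⟩
  | mul x y _ _ hx hy =>
    obtain ⟨_, _, h1⟩ := hx
    obtain ⟨_, _, h2⟩ := hy
    exact ⟨_, _, h1.mul h2⟩

end Crest.Agent.R113.Fk
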