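import Crest.Agent.R113.FkC

/-!
Row 113 (S0151): the determinant of `T - z`.
-/

set_option autoImplicit false

namespace Crest.Agent.R113.Fk

open Filter Topology Finset MeasureTheory Crest.AnalysisR.ProductShift

section Gen

variable {H : Type*} [NormedAddCommGroup H] [InnerProductSpace ℂ H] [CompleteSpace H]

/-- the vector state -/
noncomputable def tau (ξ : H) : (H →L[ℂ] H) →L[ℂ] ℂ :=
  (innerSL ℂ ξ).comp (ContinuousLinearMap.apply ℂ H ξ)

omit [CompleteSpace H] in
theorem tau_apply (ξ : H) (X : H →L[ℂ] H) : tau ξ X = inner ℂ ξ (X ξ) := rfl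

/-- the real part of the vector state -/
noncomputable def rho (ξ : H) : (H →L[ℂ] H) →L[ℝ] ℝ :=
  Complex.reCLM.comp ((tau ξ).restrictScalars ℝ)

omit [CompleteSpace H] in
theorem rho_apply (ξ : H) (X : H →L[ℂ] H) : rho ξ X = (tau ξ X).re := rfl

theorem rho_star (ξ : H) (X : H →L[ℂ] H) : rho ξ (star X) = rho ξ X := by
  rw [rho_apply, rho_apply, tau_apply, tau_apply, ContinuousLinearMap.star_eq_adjoint,
    ContinuousLinearMap.adjoint_inner_right, ← inner_conj_symm, Complex.conj_re]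

theorem rho_alg {ξ : H} (hξ : inner ℂ ξ ξ = 1) (r : ℝ) : rho ξ (algebraMap ℝ _ r) = r := by
  have : rho ξ 1 = 1 := by
    rw [rho_apply, tau_apply]
    exact (congrArg Complex.re hξ).trans Complex.one_re
  rw [Algebra.algebraMap_eq_smul_one, map_smul, this, smul_eq_mul, mul_one]

omit [CompleteSpace H] in
theorem rho_mono (ξ : H) {X Y : H →L[ℂ] H} (h : X ≤ Y) : rho ξ X ≤ rho ξ Y := by
  have := ((ContinuousLinearMap.le_def X Y).1 h).re_inner_nonneg_right ξ
  rw [← sub_nonneg, ← map_sub]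
  exact this

theorem eps_eq (ε : ℝ) : ((ε : ℝ) : ℂ) • (1 : H →L[ℂ] H) = algebraMap ℝ _ ε := by
  rw [Algebra.algebraMap_eq_smul_one, Complex.coe_smul]

/-- the regularised logarithm of the determinant -/
noncomputable def ld (ξ : H) (A : H →L[ℂ] H) (ε : ℝ) : ℝ :=
  rho ξ (cfc Real.log (star A * A + algebraMap ℝ _ ε))

theorem det_eq (ξ : H) (A : H →L[ℂ] H) : vectorDet ξ A =
    ⨅ ε : {r : ℝ // 0 < r}, Real.exp (ld ξ A ε / 2) := by
  unfold vectorDet ld
  simp only [eps_eq]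
  rfl

theorem det_inv {ξ : H} (hξ : inner ℂ ξ ξ = 1) (A : H →L[ℂ] H) (a : ℝ) (ha : 0 < a)
    (hs : ∀ s ∈ spectrum ℝ (star A * A), a ≤ s) :
    vectorDet ξ A = Real.exp (rho ξ (cfc Real.log (star A * A)) / 2) := by
  have hsa : IsSelfAdjoint (star A * A) := IsSelfAdjoint.star_mul_self A
  set G := star A * A with hG
  have hlog : ContinuousOn Real.log (spectrum ℝ G) :=
    Real.continuousOn_log.mono fun s h => (ha.trans_le (hs s h)).ne'
  have key : ∀ ε : ℝ, 0 < ε → rho ξ (cfc Real.log G) ≤ rho ξ (cfc Real.log (G + algebraMap ℝ _ ε)) ∧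
      rho ξ (cfc Real.log (G + algebraMap ℝ _ ε)) ≤ rho ξ (cfc Real.log G) + ε / a := by
    intro ε hε
    have hlog2 : ContinuousOn (fun s => Real.log (s + ε)) (spectrum ℝ G) :=
      ContinuousOn.log (by fun_prop) fun s h => (add_pos (ha.trans_le (hs s h)) hε).ne'
    have e : cfc Real.log (G + algebraMap ℝ _ ε) = cfc (fun s => Real.log (s + ε)) G := by
      rw [cfc_comp' Real.log (fun s : ℝ => s + ε) G (Real.continuousOn_log.mono (by
        rintro _ ⟨s, h, rfl⟩
        exact (add_pos (ha.trans_le (hs s h)) hε).ne')), cfc_add_const ε (fun s : ℝ => s) G,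
        cfc_id' ℝ G]
    rw [e]
    constructor
    · refine rho_mono ξ (cfc_mono (fun s h => ?_) hlog hlog2)
      exact Real.log_le_log (ha.trans_le (hs s h)) (by linarith)
    · rw [← rho_alg hξ (ε / a), ← map_add, ← cfc_add_const (ε / a) Real.log G]
      refine rho_mono ξ (cfc_mono (fun s h => ?_) hlog2 (hlog.add continuousOn_const))
      have h0 : 0 < s := ha.trans_le (hs s h)
      have h1 := Real.log_le_sub_one_of_pos (x := (s + ε) / s) (by positivity)
      rw [Real.log_div (by positivity) h0.ne', add_div, div_self h0.ne'] at h1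
      have h2 : ε / s ≤ ε / a := div_le_div_of_nonneg_left hε.le ha (hs s h)
      linarith
  rw [det_eq]
  have : Nonempty {r : ℝ // 0 < r} := ⟨⟨1, one_pos⟩⟩
  refine le_antisymm ?_ (le_ciInf fun ε => Real.exp_le_exp.2 (by
    have := (key ε ε.2).1
    unfold ld
    linarith))
  have hb : BddBelow (Set.range fun ε : {r : ℝ // 0 < r} =>
      Real.exp (ld ξ A ε / 2)) :=
    ⟨0, by rintro _ ⟨ε, rfl⟩; exact (Real.exp_pos _).le⟩
  have hlim : Tendsto (fun ε : ℝ => Real.exp ((rho ξ (cfc Real.log G) + ε / a) / 2)) (𝓝[>] 0)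
      (𝓝 (Real.exp (rho ξ (cfc Real.log G) / 2))) := by
    have : Continuous fun ε : ℝ => Real.exp ((rho ξ (cfc Real.log G) + ε / a) / 2) := by fun_prop
    have h2 := (this.tendsto 0).mono_left (nhdsWithin_le_nhds (s := Set.Ioi 0))
    simpa using h2
  refine ge_of_tendsto hlim ?_
  filter_upwards [self_mem_nhdsWithin] with ε hε
  exact (ciInf_le hb ⟨ε, hε⟩).trans (Real.exp_le_exp.2 (by
    have := (key ε hε).2
    unfold ld
    linarith))

theorem det_ne {ξ : H} (hξ : inner ℂ ξ ξ = 1) (T : H →L[ℂ] H)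
    (htr0 : ∀ X ∈ Submonoid.closure ({T, star T} : Set (H →L[ℂ] H)),
      ∀ Y ∈ Submonoid.closure ({T, star T} : Set (H →L[ℂ] H)),
        inner ℂ ξ ((X * Y) ξ) = inner ℂ ξ ((Y * X) ξ))
    (hz0 : ∀ n : ℕ, inner ℂ ξ ((T ^ (n + 1)) ξ) = 0)
    (hsm : ∀ r : ℝ, 0 ≤ r → Summable fun n : ℕ => r ^ n * ‖T ^ n‖) (z : ℂ) (hz : z ≠ 0) :
    vectorDet ξ (T - z • (1 : H →L[ℂ] H)) = ‖z‖ := by
  set S := (Algebra.adjoin ℂ ({T, star T} : Set (H →L[ℂ] H))).topologicalClosure
    with hS
  have hTS : T ∈ S := Subalgebra.le_topologicalClosure _ (Algebra.subset_adjoin (by simp))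
  have hTS' : star T ∈ S := Subalgebra.le_topologicalClosure _ (Algebra.subset_adjoin (by simp))
  have hScl : IsClosed (S : Set (H →L[ℂ] H)) :=
    Subalgebra.isClosed_topologicalClosure _
  have htr : ∀ X ∈ S, ∀ Y ∈ S, rho ξ (X * Y) = rho ξ (Y * X) := by
    intro X hX Y hY
    rw [rho_apply, rho_apply, trace_closure (tau ξ) _ htr0 X hX Y hY]
  have hsum := hsm (2 * ‖z⁻¹‖) (by positivity)
  set K : ℝ := ‖z⁻¹‖ * ∑' n : ℕ, (2 * ‖z⁻¹‖) ^ n * ‖T ^ n‖ + 1 with hK
  have hK0 : 0 < K := by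
    have : 0 ≤ ∑' n : ℕ, (2 * ‖z⁻¹‖) ^ n * ‖T ^ n‖ := tsum_nonneg fun n => by positivity
    positivity
  set C : ℝ → (H →L[ℂ] H) :=
    fun t => (-z⁻¹) • ∑' n : ℕ, (((t : ℂ) * z⁻¹) • T) ^ n with hC
  have hCs : ∀ t ∈ Set.Ioo (-1 : ℝ) 2, C t ∈ S ∧ star (C t) ∈ S ∧
      C t * ((-z) • (1 : H →L[ℂ] H) + t • T) = 1 ∧
      ((-z) • (1 : H →L[ℂ] H) + t • T) * C t = 1 ∧ ‖C t‖ ≤ K ∧ rho ξ (C t * T) = 0 := by
    intro t ht
    have hb : ∀ n : ℕ, ‖(((t : ℂ) * z⁻¹) • T) ^ n‖ ≤ (2 * ‖z⁻¹‖) ^ n * ‖T ^ n‖ := by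
      intro n
      rw [smul_pow, norm_smul, norm_pow, norm_mul, Complex.norm_real]
      refine mul_le_mul_of_nonneg_right (pow_le_pow_left₀ (by positivity)
        (mul_le_mul_of_nonneg_right ?_ (norm_nonneg _)) _) (norm_nonneg _)
      rw [Real.norm_eq_abs, abs_le]
      constructor <;> linarith [ht.1, ht.2]
    have hs : Summable fun n : ℕ => (((t : ℂ) * z⁻¹) • T) ^ n := Summable.of_norm_bounded hsum hb
    have eB : (-z) • (1 : H →L[ℂ] H) + t • T = (-z) • (1 - ((t : ℂ) * z⁻¹) • T) := by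
      rw [smul_sub, smul_smul, sub_eq_add_neg, ← neg_smul, ← Complex.coe_smul t T]
      congr 2
      field_simp
    have ez : -z⁻¹ * -z = 1 := by field_simp
    refine ⟨?_, ?_, ?_, ?_, ?_, ?_⟩
    · exact S.smul_mem (tsum_mem hScl fun n => S.pow_mem (S.smul_mem hTS _) n) _
    · simp only [hC]
      rw [star_smul, tsum_star]
      refine S.smul_mem (tsum_mem hScl fun n => ?_) _
      rw [star_pow, star_smul]
      exact S.pow_mem (S.smul_mem hTS' _) n
    · simp only [hC]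
      rw [eB, smul_mul_smul_comm, hs.tsum_pow_mul_one_sub, ez, one_smul]
    · simp only [hC]
      rw [eB, smul_mul_smul_comm, hs.one_sub_mul_tsum_pow, mul_comm, ez, one_smul]
    · simp only [hC]
      rw [norm_smul, norm_neg]
      have := tsum_of_norm_bounded hsum.hasSum hb
      have := mul_le_mul_of_nonneg_left this (norm_nonneg z⁻¹)
      linarith
    · simp only [hC]
      have h1 := ((tau ξ).hasSum (hs.hasSum.mul_right T)).tsum_eq
      have h2 : ∀ n : ℕ, tau ξ ((((t : ℂ) * z⁻¹) • T) ^ n * T) = 0 := by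
        intro n
        rw [smul_pow, smul_mul_assoc, ← pow_succ, map_smul, tau_apply, hz0, smul_zero]
      simp only [h2, tsum_zero] at h1
      rw [rho_apply, smul_mul_assoc, map_smul, ← h1, smul_zero, Complex.zero_re]
  have hfk := fk S (rho ξ) htr (rho_star ξ) ((-z) • 1) T (S.smul_mem S.one_mem _)
    (by rw [star_smul, star_one]; exact S.smul_mem S.one_mem _) hTS hTS' C K hK0 hCs
  have eA : T - z • (1 : H →L[ℂ] H) = (-z) • 1 + T := by
    rw [neg_smul, neg_add_eq_sub]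
  have h1 := (hCs 1 (by constructor <;> norm_num))
  rw [one_smul] at h1
  have hsp := spec_bounds _ _ h1.2.2.1 K hK0 h1.2.2.2.2.1 _ le_rfl
  rw [eA, det_inv hξ _ (K⁻¹ ^ 2) (by positivity) (fun s h => (hsp s h).1), hfk]
  have e0 : star ((-z) • (1 : H →L[ℂ] H)) * ((-z) • 1) = algebraMap ℝ _ (‖z‖ ^ 2) := by
    rw [star_smul, star_one, smul_mul_smul_comm, mul_one, ← eps_eq]
    congr 1
    rw [star_neg, neg_mul_neg, Complex.star_def, Complex.conj_mul']
    push_cast
    rfl
  rw [e0, cfc_algebraMap, rho_alg hξ, Real.log_pow]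
  push_cast
  rw [mul_div_cancel_left₀ _ two_ne_zero, Real.exp_log (norm_pos_iff.2 hz)]

theorem ld_series {ξ : H} (hξ : inner ℂ ξ ξ = 1) (T : H →L[ℂ] H) (hTn : ‖T‖ ≤ 1) (ε : ℝ)
    (h0 : 0 < ε) (h1 : ε ≤ 1) :
    HasSum (fun n : ℕ => (1 / ((n : ℝ) + 1)) * (inner ℂ ξ
      (((1 + (-(2 : ℂ)⁻¹) • (star T * T + (ε : ℂ) • (1 : H →L[ℂ] H))) ^ (n + 1)) ξ)).re)
      (Real.log 2 - ld ξ T ε) := by
  have hsa : IsSelfAdjoint (star T * T) := IsSelfAdjoint.star_mul_self T
  have hsa2 : IsSelfAdjoint (star T * T + algebraMap ℝ _ ε) :=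
    hsa.add ((IsSelfAdjoint.all ε).algebraMap _)
  have hle : star T * T ≤ algebraMap ℝ _ 1 := by
    refine (le_algebraMap_iff_spectrum_le hsa).2 fun s h => ?_
    exact ((le_algebraMap_iff_spectrum_le hsa).1 CStarAlgebra.star_mul_le_algebraMap_norm_sq s h).trans
      (pow_le_one₀ (norm_nonneg _) hTn)
  have hsp : ∀ s ∈ spectrum ℝ (star T * T + algebraMap ℝ _ ε), ε ≤ s ∧ s ≤ 2 := by
    intro s h
    refine ⟨(algebraMap_le_iff_le_spectrum hsa2).1 (le_add_of_nonneg_left (star_mul_self_nonneg T)) s h,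
      ?_⟩
    have : star T * T + algebraMap ℝ _ ε ≤ algebraMap ℝ _ (1 + ε) := by
      rw [map_add]
      exact add_le_add hle le_rfl
    linarith [(le_algebraMap_iff_spectrum_le hsa2).1 this s h]
  have hser := (rho ξ).hasSum (log_series _ hsa2 ε 2 h0 (by linarith) hsp).2
  rw [map_sub, rho_alg hξ] at hser
  have e : (1 : H →L[ℂ] H) + (-(2 : ℂ)⁻¹) • (star T * T + (ε : ℂ) • (1 : H →L[ℂ] H)) =
      1 - (2 : ℝ)⁻¹ • (star T * T + algebraMap ℝ _ ε) := by
    rw [eps_eq, neg_smul, ← sub_eq_add_neg, ← Complex.coe_smul (2 : ℝ)⁻¹]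
    push_cast
    rfl
  rw [e]
  simp only [map_smul, smul_eq_mul] at hser
  exact hser

end Gen

variable {θ c : ℕ → ℝ} {T : pairSpace →L[ℂ] pairSpace}

theorem vac_one : inner ℂ vacuumVector vacuumVector = 1 := by
  have := (Mon.one (θ := fun _ => 0)).tau
  simpa using this

theorem rho_log_eps (hT : IsWeightedShift θ c T) (ε : ℝ) (h0 : 0 < ε) (h1 : ε ≤ 1) :
    ld vacuumVector T ε = Real.log 2 - ∫ x, -Real.log ((weight θ c x ^ 2 + ε) / 2) ∂cubeMeasure := by
  have hTn : ‖T‖ ≤ 1 := (mon_T hT).norm_le zero_le_one fun k x => by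
    rw [Complex.norm_real, Real.norm_of_nonneg (w_nonneg θ c _)]
    exact w_le_one θ c _
  have hser := ld_series vac_one T hTn ε h0 h1
  set y : (ℕ → ℝ) → ℝ := fun x => 1 - (weight θ c x ^ 2 + ε) / 2 with hy
  have hym : Measurable y := by
    have := meas_w θ c
    fun_prop
  have hy0 : ∀ x, 0 ≤ y x := fun x => by
    have := pow_le_one₀ (n := 2) (w_nonneg θ c x) (w_le_one θ c x)
    simp only [hy]
    linarith
  have hy1 : ∀ x, y x < 1 := fun x => by
    have := sq_nonneg (weight θ c x)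
    simp only [hy]
    linarith
  have hX : Mon θ 0 (fun x => (y x : ℂ)) 
      (1 + (-(2 : ℂ)⁻¹) • (star T * T + (ε : ℂ) • (1 : pairSpace →L[ℂ] pairSpace))) := by
    have a1 := (mon_Ts hT).mul (mon_T hT)
    rw [neg_add_cancel] at a1
    have a2 := Mon.one.add ((a1.add ((Mon.one (θ := θ)).smul (ε : ℂ))).smul (-(2 : ℂ)⁻¹))
    refine a2.congr (Complex.measurable_ofReal.comp hym) fun k x => ?_
    simp only [hy, orb_orb, neg_neg, neg_add_cancel_left]
    push_cast
    ring
  have hterm : ∀ n : ℕ, (1 / ((n : ℝ) + 1)) * (inner ℂ vacuumVector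
      (((1 + (-(2 : ℂ)⁻¹) • (star T * T + (ε : ℂ) • (1 : pairSpace →L[ℂ] pairSpace))) ^ (n + 1))
        vacuumVector)).re =
        ∫ x, y x ^ (n + 1) / ((n : ℝ) + 1) ∂cubeMeasure := by
    intro n
    rw [(hX.pow0 (n + 1)).tau, if_pos rfl]
    have := integral_map (μ := cubeMeasure) (meas_orb θ 0).aemeasurable
      (hym.pow_const (n + 1)).aestronglyMeasurable
    rw [(mp_orb θ 0).map_eq] at this
    simp only [← Complex.ofReal_pow]
    rw [integral_complex_ofReal, Complex.ofReal_re, ← this, integral_div]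
    ring
  simp only [hterm] at hser
  have hint : ∀ n : ℕ, Integrable (fun x => y x ^ (n + 1) / ((n : ℝ) + 1)) cubeMeasure := by
    intro n
    refine Integrable.div_const ?_ _
    refine Integrable.of_bound (hym.pow_const _).aestronglyMeasurable 1 (Eventually.of_forall fun x => ?_)
    rw [Real.norm_of_nonneg (pow_nonneg (hy0 x) _)]
    exact pow_le_one₀ (hy0 x) (hy1 x).le
  have h2 := hasSum_integral_of_summable_integral_norm hint (by
    refine hser.summable.congr fun n => integral_congr_ae (Eventually.of_forall fun x => ?_)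
    have := hy0 x
    simp only
    rw [Real.norm_of_nonneg (by positivity)])
  have h3 := hser.unique h2
  have h4 : ∀ x, ∑' n : ℕ, y x ^ (n + 1) / ((n : ℝ) + 1) = -Real.log ((weight θ c x ^ 2 + ε) / 2) := by
    intro x
    rw [(Real.hasSum_pow_div_log_of_abs_lt_one (x := y x)
      (by rw [abs_of_nonneg (hy0 x)]; exact hy1 x)).tsum_eq]
    simp only [hy, sub_sub_cancel]
  simp only [h4] at h3
  linarith

theorem det_zero (hpos : ∀ᵐ x ∂cubeMeasure, 0 < weight θ c x)
    (hlog : ∫⁻ x, ENNReal.ofReal (- Real.log (weight θ c x)) ∂cubeMeasure = ⊤)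
    (hT : IsWeightedShift θ c T) : vectorDet vacuumVector T = 0 := by
  set e : ℕ → ℝ := fun n => 1 / ((n : ℝ) + 1) with he
  have he0 : ∀ n, 0 < e n := fun n => by positivity
  have he1 : ∀ n, e n ≤ 1 := fun n => by
    simp only [he]
    rw [div_le_one (by positivity)]
    have : (0 : ℝ) ≤ n := Nat.cast_nonneg n
    linarith
  set F : ℕ → (ℕ → ℝ) → ℝ := fun n x => -Real.log ((weight θ c x ^ 2 + e n) / 2) with hF
  have hFm : ∀ n, Measurable (F n) := fun n => by
    have := meas_w θ c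
    exact (Real.measurable_log.comp (by fun_prop)).neg
  have hF0 : ∀ n x, 0 ≤ F n x := fun n x => by
    have := pow_le_one₀ (n := 2) (w_nonneg θ c x) (w_le_one θ c x)
    have := he0 n
    have := he1 n
    exact neg_nonneg.2 (Real.log_nonpos (by positivity) (by linarith))
  have hFi : ∀ n, Integrable (F n) cubeMeasure := fun n => by
    refine Integrable.of_bound (hFm n).aestronglyMeasurable (-Real.log (e n / 2))
      (Eventually.of_forall fun x => ?_)
    rw [Real.norm_of_nonneg (hF0 n x)]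
    have := he0 n
    have := sq_nonneg (weight θ c x)
    exact neg_le_neg (Real.log_le_log (by positivity) (by linarith))
  have hfat := lintegral_liminf_le (μ := cubeMeasure) (u := atTop)
    (f := fun n x => ENNReal.ofReal (F n x)) (fun n => ENNReal.measurable_ofReal.comp (hFm n))
  have hlow : ∫⁻ x, ENNReal.ofReal (- Real.log (weight θ c x)) ∂cubeMeasure ≤
      ∫⁻ x, liminf (fun n => ENNReal.ofReal (F n x)) atTop ∂cubeMeasure := by
    refine lintegral_mono_ae ?_
    filter_upwards [hpos] with x hx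
    have hl : Tendsto (fun n => ENNReal.ofReal (F n x)) atTop
        (𝓝 (ENNReal.ofReal (-Real.log ((weight θ c x ^ 2 + 0) / 2)))) := by
      refine ENNReal.tendsto_ofReal (Tendsto.neg (Tendsto.log ?_ (by positivity)))
      exact (tendsto_const_nhds.add tendsto_one_div_add_atTop_nhds_zero_nat).div_const 2
    rw [hl.liminf_eq]
    refine ENNReal.ofReal_le_ofReal (neg_le_neg (Real.log_le_log (by positivity) ?_))
    have := w_le_one θ c x
    nlinarith
  rw [hlog] at hlow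
  have htop := top_le_iff.1 (hlow.trans hfat)
  rw [det_eq]
  have : Nonempty {r : ℝ // 0 < r} := ⟨⟨1, one_pos⟩⟩
  have hb : BddBelow (Set.range fun ε : {r : ℝ // 0 < r} =>
      Real.exp (ld vacuumVector T ε / 2)) :=
    ⟨0, by rintro _ ⟨ε, rfl⟩; exact (Real.exp_pos _).le⟩
  refine le_antisymm (le_of_forall_pos_le_add fun η hη => ?_) (le_ciInf fun ε => (Real.exp_pos _).le)
  have hev : ∀ᶠ n in atTop, ENNReal.ofReal (Real.log 2 - 2 * Real.log η) <
      ∫⁻ x, ENNReal.ofReal (F n x) ∂cubeMeasure :=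
    eventually_lt_of_lt_liminf (by rw [htop]; exact ENNReal.ofReal_lt_top)
  obtain ⟨n, hn⟩ := hev.exists
  rw [← ofReal_integral_eq_lintegral_ofReal (hFi n) (Eventually.of_forall (hF0 n))] at hn
  have hn' := (ENNReal.ofReal_le_ofReal_iff (integral_nonneg (hF0 n))).1 hn.le
  refine (ciInf_le hb ⟨e n, he0 n⟩).trans ?_
  simp only
  rw [rho_log_eps hT (e n) (he0 n) (he1 n), zero_add]
  refine le_trans (Real.exp_le_exp.2 ?_) (Real.exp_log hη).le
  simp only [hF] at hn'
  linarith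

theorem main (hθ : ∀ i, 0 < θ i ∧ θ i < 1) (hc : ∀ i, 0 ≤ c i)
    (hpos : ∀ᵐ x ∂cubeMeasure, 0 < weight θ c x)
    (hlog : ∫⁻ x, ENNReal.ofReal (- Real.log (weight θ c x)) ∂cubeMeasure = ⊤)
    (hT : IsWeightedShift θ c T) (z : ℂ) :
    vectorDet vacuumVector (T - z • (1 : pairSpace →L[ℂ] pairSpace)) = ‖z‖ := by
  by_cases hz : z = 0
  · rw [hz, zero_smul, sub_zero, norm_zero]
    exact det_zero hpos hlog hT
  · refine det_ne vac_one T (fun X hX Y hY => ?_) (fun n => ?_) (summable_pow hθ hc hlog hT) z hz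
    · obtain ⟨_, _, h1⟩ := mon_closure hT X hX
      obtain ⟨_, _, h2⟩ := mon_closure hT Y hY
      exact h1.trace h2
    · rw [(mon_pow hT (n + 1)).tau, if_neg (by omega)]

end Crest.Agent.R113.Fk
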