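import Crest.Agent.R113.DefsR

set_option autoImplicit false

namespace Crest.Agent.R113

open Finset Crest.AnalysisR.RotationRep

namespace POLY

lemma ee_add (x y : ℝ) : ee (x + y) = ee x * ee y := by
  unfold ee; rw [← Complex.exp_add]; congr 1; push_cast; ring

lemma ee_zero : ee 0 = 1 := by simp [ee]

lemma exists_U (A : Subalgebra ℂ (HH →L[ℂ] HH)) (U : HH →L[ℂ] HH) (hU : star U * U = 1)
    (h1 : U ∈ A) (h2 : star U ∈ A) (hb : ∀ a b : ℤ, U (dl (a, b)) = dl (a + 1, b)) (m : ℤ) :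
    ∃ X ∈ A, ∀ a b : ℤ, X (dl (a, b)) = dl (a + m, b) := by
  have hs : ∀ a b : ℤ, (star U) (dl (a, b)) = dl (a - 1, b) := by
    intro a b
    have h := congrArg (fun T : HH →L[ℂ] HH => T (dl (a - 1, b))) hU
    change (star U) (U (dl (a - 1, b))) = dl (a - 1, b) at h
    rwa [hb, sub_add_cancel] at h
  induction m using Int.induction_on with
  | zero => exact ⟨1, A.one_mem, fun a b => by simp⟩
  | succ m ih =>
    obtain ⟨X, hX, hXb⟩ := ih
    refine ⟨U * X, A.mul_mem h1 hX, fun a b => ?_⟩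
    change U (X _) = _
    rw [hXb, hb, add_assoc]
  | pred m ih =>
    obtain ⟨X, hX, hXb⟩ := ih
    refine ⟨star U * X, A.mul_mem h2 hX, fun a b => ?_⟩
    change (star U) (X _) = _
    rw [hXb, hs, add_sub_assoc]

lemma exists_V (θ : ℝ) (A : Subalgebra ℂ (HH →L[ℂ] HH)) (V : HH →L[ℂ] HH) (hV : star V * V = 1)
    (h1 : V ∈ A) (h2 : star V ∈ A)
    (hb : ∀ a b : ℤ, V (dl (a, b)) = ee (θ * a) • dl (a, b + 1)) (m : ℤ) :
    ∃ X ∈ A, ∀ a b : ℤ, X (dl (a, b)) = ee (θ * a * m) • dl (a, b + m) := by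
  have hs : ∀ a b : ℤ, (star V) (dl (a, b)) = ee (-(θ * a)) • dl (a, b - 1) := by
    intro a b
    have h := congrArg (fun T : HH →L[ℂ] HH => T (dl (a, b - 1))) hV
    change (star V) (V (dl (a, b - 1))) = dl (a, b - 1) at h
    rw [hb, sub_add_cancel, map_smul] at h
    rw [← h, smul_smul, ← ee_add, neg_add_cancel, ee_zero, one_smul]
  induction m using Int.induction_on with
  | zero => exact ⟨1, A.one_mem, fun a b => by simp [ee_zero]⟩
  | succ m ih =>
    obtain ⟨X, hX, hXb⟩ := ih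
    refine ⟨V * X, A.mul_mem h1 hX, fun a b => ?_⟩
    change V (X _) = _
    rw [hXb, map_smul, hb, smul_smul, ← ee_add, add_assoc]
    congr 2
    push_cast; ring
  | pred m ih =>
    obtain ⟨X, hX, hXb⟩ := ih
    refine ⟨star V * X, A.mul_mem h2 hX, fun a b => ?_⟩
    change (star V) (X _) = _
    rw [hXb, map_smul, hs, smul_smul, ← ee_add, add_sub_assoc]
    congr 2
    push_cast; ring

end POLY

open POLY in
theorem POLY_proof (hComm : CommStmt) : PolyStmt := by
  intro θ U V hUV p hp η hη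
  obtain ⟨hU, hV, -⟩ := hComm θ U V hUV
  let A : Subalgebra ℂ (HH →L[ℂ] HH) :=
    Subalgebra.centralizer ℂ (Set.centralizer (({U, V} : Set (HH →L[ℂ] HH)) ∪ star '' {U, V}))
  have hA : ∀ x, x ∈ A ↔ x ∈ vonNeumannGenerated {U, V} := fun x => Iff.rfl
  have hsub : ∀ x ∈ (({U, V} : Set (HH →L[ℂ] HH)) ∪ star '' {U, V}), x ∈ A := fun x hx =>
    Set.subset_centralizer_centralizer hx
  have hbV : ∀ a b : ℤ, V (dl (a, b)) = ee (θ * a) • dl (a, b + 1) := by
    intro a b
    have := hUV.2 a b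
    unfold dl ee
    rw [this]
    congr 2
    push_cast; ring
  choose X hX hXb using exists_U A U (Unitary.star_mul_self_of_mem hU)
    (hsub _ (Or.inl (by simp))) (hsub _ (Or.inr ⟨U, by simp, rfl⟩)) hUV.1
  choose Y hY hYb using exists_V θ A V (Unitary.star_mul_self_of_mem hV)
    (hsub _ (Or.inl (by simp))) (hsub _ (Or.inr ⟨V, by simp, rfl⟩)) hbV
  let c : ℤ × ℤ → ℂ := fun y => (p (dl 0)) y
  have hsum : HasSum (fun y : ℤ × ℤ => c y • dl y) (p (dl 0)) := by
    have := lp.hasSum_single (E := fun _ : ℤ × ℤ => ℂ) (p := 2) (by norm_num) (p (dl 0))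
    convert this using 2 with y
    rw [dl, ← lp.single_smul]
    simp [c]
  obtain ⟨S, hS⟩ := (Metric.tendsto_nhds.1 hsum η hη).exists
  have hPol : Pol θ S c (∑ y ∈ S, c y • (X y.1 * Y y.2)) := by
    intro a b
    rw [ContinuousLinearMap.sum_apply]
    refine Finset.sum_congr rfl fun y _ => ?_
    change c y • X y.1 (Y y.2 _) = _
    rw [hYb, map_smul, hXb, smul_smul]
  refine ⟨S, c, _, hPol, ?_, ?_⟩
  · rw [← hA] at hp ⊢
    exact A.sub_mem hp (A.sum_mem fun y _ => A.smul_mem (A.mul_mem (hX _) (hY _)) _)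
  · have h0 := hPol 0 0
    simp only [Int.cast_zero, mul_zero, zero_mul, ee_zero, mul_one, zero_add] at h0
    change ‖p (dl 0) - (∑ y ∈ S, c y • (X y.1 * Y y.2)) (dl (0, 0))‖ ≤ η
    rw [h0, ← dist_eq_norm, dist_comm]
    exact hS.le

end Crest.Agent.R113
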